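import Mathlib

open scoped ENNReal Topology
open Filter

namespace Vale.Agent.P101K

universe u

/-- `ℓ^∞(ℕ, A)`: the bounded sequences in `A`, with the supremum norm -/
abbrev Bdd (A : Type u) [CStarAlgebra A] : Type u := lp (fun _ : ℕ => A) ∞

noncomputable instance bddCStar (A : Type u) [CStarAlgebra A] [Nontrivial A] :
    CStarAlgebra (Bdd A) where

/-- the constant sequence -/
noncomputable def cst (A : Type u) [CStarAlgebra A] [Nontrivial A] (a : A) : Bdd A :=
  ⟨fun _ => a, memℓp_infty ⟨‖a‖, by rintro _ ⟨n, rfl⟩; exact le_rfl⟩⟩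

section Pointwise

variable {A : Type u} [CStarAlgebra A] [Nontrivial A]

theorem aom_apply_le (a : Bdd A) (n : ℕ) : ‖a n‖ ≤ ‖a‖ :=
  lp.norm_apply_le_norm ENNReal.top_ne_zero a n

theorem aom_add_apply (a b : Bdd A) (n : ℕ) : (a + b) n = a n + b n := rfl

theorem aom_sub_apply (a b : Bdd A) (n : ℕ) : (a - b) n = a n - b n := rfl

theorem aom_neg_apply (a : Bdd A) (n : ℕ) : (-a) n = -(a n) := rfl

theorem aom_mul_apply (a b : Bdd A) (n : ℕ) : (a * b) n = a n * b n := rfl

theorem aom_star_apply (a : Bdd A) (n : ℕ) : (star a) n = star (a n) := rfl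

theorem aom_smul_apply (c : ℂ) (a : Bdd A) (n : ℕ) : (c • a) n = c • (a n) := rfl

end Pointwise

/-- two bounded sequences are identified in `A_ω` when `lim_(n → ω) ‖a n - b n‖ = 0` -/
def nullCon (A : Type u) [CStarAlgebra A] [Nontrivial A] (ω : Ultrafilter ℕ) :
    RingCon (Bdd A) where
  r a b := Tendsto (fun n => ‖a n - b n‖) ω (𝓝 0)
  iseqv := by
    refine ⟨fun a => ?_, fun {a b} h => ?_, fun {a b c} h k => ?_⟩
    · simp only [sub_self, norm_zero]
      exact tendsto_const_nhds
    · simpa only [norm_sub_rev] using h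
    · have h1 := h.add k
      rw [add_zero] at h1
      exact squeeze_zero (fun n => norm_nonneg _) (fun n => norm_sub_le_norm_sub_add_norm_sub _ _ _) h1
  add' := by
    intro a b c d h k
    have h1 := h.add k
    rw [add_zero] at h1
    refine squeeze_zero (fun n => norm_nonneg _) (fun n => ?_) h1
    rw [aom_add_apply, aom_add_apply, add_sub_add_comm]
    exact norm_add_le _ _
  mul' := by
    intro a b c d h k
    have h1 := (h.mul_const ‖c‖).add (k.const_mul ‖b‖)
    rw [zero_mul, mul_zero, add_zero] at h1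
    refine squeeze_zero (fun n => norm_nonneg _) (fun n => ?_) h1
    rw [aom_mul_apply, aom_mul_apply]
    have e : a n * c n - b n * d n = (a n - b n) * c n + b n * (c n - d n) := by
      rw [sub_mul, mul_sub]
      abel
    rw [e]
    refine (norm_add_le _ _).trans (add_le_add ?_ ?_)
    · exact (norm_mul_le _ _).trans
        (mul_le_mul_of_nonneg_left (aom_apply_le c n) (norm_nonneg _))
    · exact (norm_mul_le _ _).trans
        (mul_le_mul_of_nonneg_right (aom_apply_le b n) (norm_nonneg _))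

/-- the ultrapower `A_ω = ℓ^∞(ℕ, A) / {a : lim_(n → ω) ‖a n‖ = 0}` (as a ring and algebra this is
Mathlib's quotient by the congruence `nullCon`) -/
def Aom (A : Type u) [CStarAlgebra A] [Nontrivial A] (ω : Ultrafilter ℕ) : Type u :=
  (nullCon A ω).Quotient

section Structure

variable (A : Type u) [CStarAlgebra A] [Nontrivial A] (ω : Ultrafilter ℕ)

@[reducible] noncomputable def aomRing : Ring (Aom A ω) :=
  inferInstanceAs (Ring (nullCon A ω).Quotient)

attribute [local instance] aomRing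

@[reducible] noncomputable def aomAlgebra : Algebra ℂ (Aom A ω) :=
  inferInstanceAs (Algebra ℂ (nullCon A ω).Quotient)

attribute [local instance] aomAlgebra

variable {A ω}

/-- the class of a bounded sequence -/
noncomputable def aomMk (a : Bdd A) : Aom A ω := ((a : (nullCon A ω).Quotient))

theorem aomMk_surj (x : Aom A ω) : ∃ a : Bdd A, (aomMk a : Aom A ω) = x := by
  induction x using Quotient.inductionOn with
  | h a => exact ⟨a, rfl⟩

theorem aomMk_eq {a b : Bdd A} :
    (aomMk a : Aom A ω) = aomMk b ↔ Tendsto (fun n => ‖a n - b n‖) ω (𝓝 0) :=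
  RingCon.eq _

theorem aomMk_add (a b : Bdd A) : (aomMk (a + b) : Aom A ω) = aomMk a + aomMk b := rfl

theorem aomMk_mul (a b : Bdd A) : (aomMk (a * b) : Aom A ω) = aomMk a * aomMk b := rfl

theorem aomMk_neg (a : Bdd A) : (aomMk (-a) : Aom A ω) = -aomMk a := rfl

theorem aomMk_sub (a b : Bdd A) : (aomMk (a - b) : Aom A ω) = aomMk a - aomMk b := rfl

theorem aomMk_zero : (aomMk (0 : Bdd A) : Aom A ω) = 0 := rfl

theorem aomMk_one : (aomMk (1 : Bdd A) : Aom A ω) = 1 := rfl

theorem aomMk_smul (c : ℂ) (a : Bdd A) : (aomMk (c • a) : Aom A ω) = c • aomMk a := rfl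

theorem aomMk_algebraMap (c : ℂ) :
    (aomMk (algebraMap ℂ (Bdd A) c) : Aom A ω) = algebraMap ℂ (Aom A ω) c := rfl

/-- `‖a n‖` converges along the ultrafilter -/
theorem aom_exists_lim (a : Bdd A) : ∃ l : ℝ, Tendsto (fun n => ‖a n‖) ω (𝓝 l) := by
  have hc : IsCompact (Set.Icc (0 : ℝ) ‖a‖) := isCompact_Icc
  have h1 : Set.Icc (0 : ℝ) ‖a‖ ∈ (Ultrafilter.map (fun n => ‖a n‖) ω : Filter ℝ) := by
    rw [Ultrafilter.coe_map, Filter.mem_map]
    exact Filter.univ_mem' fun n => ⟨norm_nonneg _, aom_apply_le a n⟩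
  obtain ⟨l, _, hl⟩ := hc.ultrafilter_le_nhds' _ h1
  exact ⟨l, hl⟩

variable (ω) in
/-- `lim_(n → ω) ‖a n‖` -/
noncomputable def aomLim (a : Bdd A) : ℝ := limUnder (ω : Filter ℕ) (fun n => ‖a n‖)

theorem aomLim_spec (a : Bdd A) : Tendsto (fun n => ‖a n‖) ω (𝓝 (aomLim ω a)) :=
  tendsto_nhds_limUnder (aom_exists_lim a)

theorem aomLim_eq {a : Bdd A} {l : ℝ} (h : Tendsto (fun n => ‖a n‖) ω (𝓝 l)) : aomLim ω a = l :=
  tendsto_nhds_unique (aomLim_spec a) h

theorem aomLim_congr {a b : Bdd A} (h : Tendsto (fun n => ‖a n - b n‖) ω (𝓝 0)) :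
    aomLim ω a = aomLim ω b := by
  refine aomLim_eq ?_
  have h1 : Tendsto (fun n => ‖a n‖ - ‖b n‖) ω (𝓝 0) :=
    squeeze_zero_norm (fun n => by
      rw [Real.norm_eq_abs]
      exact abs_norm_sub_norm_le _ _) h
  have h2 := h1.add (aomLim_spec (ω := ω) b)
  rw [zero_add] at h2
  refine h2.congr fun n => ?_
  ring

/-- the norm of `A_ω`: `‖[a]‖ = lim_(n → ω) ‖a n‖` -/
@[reducible] noncomputable def aomNorm : Norm (Aom A ω) where
  norm := Quotient.lift (fun a : Bdd A => aomLim ω a) fun _ _ h => aomLim_congr h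

attribute [local instance] aomNorm

theorem aomMk_norm (a : Bdd A) : ‖(aomMk a : Aom A ω)‖ = aomLim ω a := rfl

theorem aomMk_norm_tendsto (a : Bdd A) :
    Tendsto (fun n => ‖a n‖) ω (𝓝 ‖(aomMk a : Aom A ω)‖) := aomLim_spec a

theorem aomMk_norm_le (a : Bdd A) : ‖(aomMk a : Aom A ω)‖ ≤ ‖a‖ :=
  le_of_tendsto (aomMk_norm_tendsto a) (Filter.Eventually.of_forall fun n => aom_apply_le a n)

/-- the star of `A_ω`, induced by the star of sequences -/
@[reducible] noncomputable def aomStar : Star (Aom A ω) where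
  star := Quotient.map (fun a : Bdd A => star a) fun a b h => by
    change Tendsto (fun n => ‖(star a) n - (star b) n‖) ω (𝓝 0)
    have h' : Tendsto (fun n => ‖a n - b n‖) ω (𝓝 0) := h
    refine h'.congr fun n => ?_
    rw [aom_star_apply, aom_star_apply, ← star_sub, norm_star]

attribute [local instance] aomStar

theorem aomMk_star (a : Bdd A) : (aomMk (star a) : Aom A ω) = star (aomMk a) := rfl

theorem aom_norm_add_le (x y : Aom A ω) : ‖x + y‖ ≤ ‖x‖ + ‖y‖ := by
  obtain ⟨a, rfl⟩ := aomMk_surj x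
  obtain ⟨b, rfl⟩ := aomMk_surj y
  rw [← aomMk_add]
  exact le_of_tendsto_of_tendsto' (aomMk_norm_tendsto (a + b))
    ((aomMk_norm_tendsto a).add (aomMk_norm_tendsto b)) fun n => norm_add_le _ _

theorem aom_norm_mul_le (x y : Aom A ω) : ‖x * y‖ ≤ ‖x‖ * ‖y‖ := by
  obtain ⟨a, rfl⟩ := aomMk_surj x
  obtain ⟨b, rfl⟩ := aomMk_surj y
  rw [← aomMk_mul]
  exact le_of_tendsto_of_tendsto' (aomMk_norm_tendsto (a * b))
    ((aomMk_norm_tendsto a).mul (aomMk_norm_tendsto b)) fun n => norm_mul_le _ _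

theorem aom_norm_neg (x : Aom A ω) : ‖-x‖ = ‖x‖ := by
  obtain ⟨a, rfl⟩ := aomMk_surj x
  rw [← aomMk_neg, aomMk_norm]
  refine aomLim_eq ?_
  refine (aomMk_norm_tendsto a).congr fun n => ?_
  rw [aom_neg_apply, norm_neg]

theorem aom_norm_smul_le (c : ℂ) (x : Aom A ω) : ‖c • x‖ ≤ ‖c‖ * ‖x‖ := by
  obtain ⟨a, rfl⟩ := aomMk_surj x
  rw [← aomMk_smul]
  exact le_of_tendsto_of_tendsto' (aomMk_norm_tendsto (c • a))
    ((aomMk_norm_tendsto a).const_mul ‖c‖) fun n => norm_smul_le _ _

theorem aom_norm_zero : ‖(0 : Aom A ω)‖ = 0 := by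
  rw [← aomMk_zero, aomMk_norm]
  refine aomLim_eq ?_
  have : (fun n => ‖(0 : Bdd A) n‖) = fun _ => (0 : ℝ) := by
    funext n
    exact norm_zero
  rw [this]
  exact tendsto_const_nhds

theorem aom_eq_zero (x : Aom A ω) (h : ‖x‖ = 0) : x = 0 := by
  obtain ⟨a, rfl⟩ := aomMk_surj x
  rw [← aomMk_zero, aomMk_eq]
  have h1 := aomMk_norm_tendsto (ω := ω) a
  rw [h] at h1
  refine h1.congr fun n => ?_
  have : (0 : Bdd A) n = 0 := rfl
  rw [this, sub_zero]

theorem aom_cstar (x : Aom A ω) : ‖x‖ * ‖x‖ ≤ ‖star x * x‖ := by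
  obtain ⟨a, rfl⟩ := aomMk_surj x
  rw [← aomMk_star, ← aomMk_mul]
  refine le_of_tendsto_of_tendsto' ((aomMk_norm_tendsto a).mul (aomMk_norm_tendsto a))
    (aomMk_norm_tendsto (star a * a)) fun n => ?_
  rw [aom_mul_apply, aom_star_apply, CStarRing.norm_star_mul_self]

@[reducible] noncomputable def aomStarRing : StarRing (Aom A ω) where
  star_involutive x := by
    obtain ⟨a, rfl⟩ := aomMk_surj x
    rw [← aomMk_star, ← aomMk_star, star_star]
  star_mul x y := by
    obtain ⟨a, rfl⟩ := aomMk_surj x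
    obtain ⟨b, rfl⟩ := aomMk_surj y
    rw [← aomMk_mul, ← aomMk_star, star_mul]
    rfl
  star_add x y := by
    obtain ⟨a, rfl⟩ := aomMk_surj x
    obtain ⟨b, rfl⟩ := aomMk_surj y
    rw [← aomMk_add, ← aomMk_star, star_add]
    rfl

attribute [local instance] aomStarRing

/-- the metric structure `d(x,y) = ‖x - y‖` -/
@[reducible] noncomputable def aomNormedAddCommGroup : NormedAddCommGroup (Aom A ω) :=
  AddGroupNorm.toNormedAddCommGroup
    { toFun := fun x : Aom A ω => ‖x‖
      map_zero' := aom_norm_zero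
      add_le' := aom_norm_add_le
      neg' := aom_norm_neg
      eq_zero_of_map_eq_zero' := aom_eq_zero }

attribute [local instance] aomNormedAddCommGroup

@[reducible] noncomputable def aomNormedRing : NormedRing (Aom A ω) where
  __ := aomNormedAddCommGroup
  __ := aomRing A ω
  norm_mul_le := aom_norm_mul_le

attribute [local instance] aomNormedRing

@[reducible] noncomputable def aomNormedAlgebra : NormedAlgebra ℂ (Aom A ω) where
  __ := aomAlgebra A ω
  norm_smul_le := aom_norm_smul_le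

attribute [local instance] aomNormedAlgebra

/-- every class has a representative with almost the same norm -/
theorem aom_lift (x : Aom A ω) (r : ℝ) (h : ‖x‖ < r) : ∃ a : Bdd A, (aomMk a : Aom A ω) = x ∧
    ‖a‖ ≤ r := by
  obtain ⟨a, rfl⟩ := aomMk_surj x
  have hr : 0 ≤ r := (norm_nonneg _).trans h.le
  have hb : ∀ n, ‖(if ‖a n‖ ≤ r then a n else 0 : A)‖ ≤ r := by
    intro n
    split_ifs with h1
    · exact h1
    · simpa using hr
  refine ⟨⟨fun n => if ‖a n‖ ≤ r then a n else 0,
    memℓp_infty ⟨r, by rintro _ ⟨n, rfl⟩; exact hb n⟩⟩, ?_, ?_⟩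
  · rw [aomMk_eq]
    have h1 : ∀ᶠ n in (ω : Filter ℕ), ‖a n‖ < r :=
      (aomMk_norm_tendsto (ω := ω) a).eventually (gt_mem_nhds h)
    refine (tendsto_congr' ?_).2 tendsto_const_nhds
    filter_upwards [h1] with n hn
    change ‖(if ‖a n‖ ≤ r then a n else 0 : A) - a n‖ = 0
    rw [if_pos hn.le, sub_self, norm_zero]
  · exact lp.norm_le_of_forall_le hr hb

theorem aomComplete : CompleteSpace (Aom A ω) := by
  refine NormedAddCommGroup.completeSpace_of_summable_imp_tendsto fun u hu => ?_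
  have h1 : ∀ i, ∃ a : Bdd A, (aomMk a : Aom A ω) = u i ∧ ‖a‖ ≤ ‖u i‖ + (1 / 2) ^ i := fun i =>
    aom_lift (u i) _ (lt_add_of_pos_right _ (by positivity))
  choose a ha1 ha2 using h1
  have hs : Summable fun i => ‖a i‖ :=
    Summable.of_nonneg_of_le (fun i => norm_nonneg _) ha2
      (hu.add (summable_geometric_of_lt_one (by norm_num) (by norm_num)))
  obtain ⟨b, hb⟩ := NormedAddCommGroup.summable_imp_tendsto_of_complete a hs
  refine ⟨aomMk b, ?_⟩
  have h2 : ∀ n, ∑ i ∈ Finset.range n, u i = aomMk (∑ i ∈ Finset.range n, a i) := by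
    intro n
    induction n with
    | zero => rw [Finset.sum_range_zero, Finset.sum_range_zero, aomMk_zero]
    | succ n ih => rw [Finset.sum_range_succ, Finset.sum_range_succ, aomMk_add, ih, ha1]
  simp only [h2]
  rw [tendsto_iff_norm_sub_tendsto_zero]
  refine squeeze_zero (fun n => norm_nonneg _) (fun n => ?_)
    (tendsto_iff_norm_sub_tendsto_zero.1 hb)
  rw [← aomMk_sub]
  exact aomMk_norm_le _

attribute [local instance] aomComplete

theorem aomCStarRing : CStarRing (Aom A ω) where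
  norm_mul_self_le := aom_cstar

attribute [local instance] aomCStarRing

theorem aomStarModule : StarModule ℂ (Aom A ω) where
  star_smul c x := by
    obtain ⟨a, rfl⟩ := aomMk_surj x
    rw [← aomMk_smul, ← aomMk_star, star_smul]
    rfl

attribute [local instance] aomStarModule

variable (A ω) in
/-- AOM.  The C*-algebra structure: ring and algebra structure of the quotient, star induced by the
star of sequences, norm `‖[a]‖ = lim_(n → ω) ‖a n‖`. -/
noncomputable instance aomCStar : CStarAlgebra (Aom A ω) where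

end Structure

/-- the quotient map -/
noncomputable def omk (A : Type u) [CStarAlgebra A] [Nontrivial A] (ω : Ultrafilter ℕ) :
    Bdd A →⋆ₐ[ℂ] Aom A ω where
  toFun a := aomMk a
  map_one' := rfl
  map_mul' _ _ := rfl
  map_zero' := rfl
  map_add' _ _ := rfl
  commutes' _ := rfl
  map_star' _ := rfl

theorem omk_surjective (A : Type u) [CStarAlgebra A] [Nontrivial A] (ω : Ultrafilter ℕ) :
    Function.Surjective (omk A ω) :=
  aomMk_surj

theorem omk_norm (A : Type u) [CStarAlgebra A] [Nontrivial A] (ω : Ultrafilter ℕ) (a : Bdd A) :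
    Tendsto (fun n => ‖a n‖) ω (𝓝 ‖omk A ω a‖) :=
  aomLim_spec a

end Vale.Agent.P101K
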