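import Vale.Agent.P101K.FullStar

namespace Vale.Agent.P101K

universe u

open Polynomial

private theorem blkex_poly {D : Type u} [CStarAlgebra D] (h a : D) (hx : h * a = a * a)
    (p : ℝ[X]) : aeval h p * a = aeval a p * a := by
  induction p using Polynomial.induction_on' with
  | add p q hp hq => rw [map_add, map_add, add_mul, add_mul, hp, hq]
  | monomial n r =>
    rw [aeval_monomial, aeval_monomial, mul_assoc, mul_assoc]
    congr 1
    induction n with
    | zero => simp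
    | succ n ih => rw [pow_succ, mul_assoc, hx, ← mul_assoc, ih, pow_succ]

private theorem blkex_cfc {D : Type u} [CStarAlgebra D] (h a : D) (hh : IsSelfAdjoint h)
    (ha : IsSelfAdjoint a) (hx : h * a = a * a) (f : ℝ → ℝ) (hf : Continuous f) :
    cfc f h * a = cfc f a * a := by
  rw [← sub_eq_zero, ← norm_le_zero_iff]
  refine le_of_forall_pos_le_add fun e he => ?_
  set R : ℝ := max (‖h‖ * ‖(1 : D)‖) (‖a‖ * ‖(1 : D)‖) with hR
  have hpos : 0 < e / (2 * (‖a‖ + 1)) := by positivity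
  obtain ⟨p, hp⟩ := exists_polynomial_near_of_continuousOn (-R) R f hf.continuousOn
    (e / (2 * (‖a‖ + 1))) hpos
  have key : ∀ b : D, IsSelfAdjoint b → ‖b‖ * ‖(1 : D)‖ ≤ R →
      ‖cfc f b - aeval b p‖ ≤ e / (2 * (‖a‖ + 1)) := by
    intro b hb hbR
    rw [← cfc_polynomial p b hb, ← cfc_sub f (fun x => p.eval x) b hf.continuousOn
      (Polynomial.continuous p).continuousOn]
    refine norm_cfc_le hpos.le fun x hxs => ?_
    have hx1 : ‖x‖ ≤ R := (spectrum.norm_le_norm_mul_of_mem hxs).trans hbR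
    rw [Real.norm_eq_abs] at hx1
    have := hp x ⟨(abs_le.1 hx1).1, (abs_le.1 hx1).2⟩
    rw [Real.norm_eq_abs, abs_sub_comm]
    exact this.le
  have e1 : cfc f h * a - cfc f a * a = (cfc f h - aeval h p) * a - (cfc f a - aeval a p) * a := by
    rw [sub_mul, sub_mul, blkex_poly h a hx p]; abel
  rw [e1, zero_add]
  have h1 := key h hh (le_max_left _ _)
  have h2 := key a ha (le_max_right _ _)
  have ha0 := norm_nonneg a
  calc ‖(cfc f h - aeval h p) * a - (cfc f a - aeval a p) * a‖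
      ≤ ‖(cfc f h - aeval h p) * a‖ + ‖(cfc f a - aeval a p) * a‖ := norm_sub_le _ _
    _ ≤ e / (2 * (‖a‖ + 1)) * ‖a‖ + e / (2 * (‖a‖ + 1)) * ‖a‖ := by
        gcongr
        · exact (norm_mul_le _ _).trans (by gcongr)
        · exact (norm_mul_le _ _).trans (by gcongr)
    _ = e * (‖a‖ / (‖a‖ + 1)) := by field_simp; ring
    _ ≤ e * 1 := by
        gcongr
        rw [div_le_one (by positivity)]
        linarith
    _ = e := mul_one e

private theorem blkex_mul {D : Type u} [CStarAlgebra D] (b : D) (f g : ℝ → ℝ) (hf : Continuous f)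
    (hg : Continuous g) : cfc f b * cfc g b = cfc (fun t => f t * g t) b :=
  (cfc_mul f g b hf.continuousOn hg.continuousOn).symm

private theorem blkex_sq {D : Type u} [CStarAlgebra D] (b : D) (f : ℝ → ℝ)
    (hf : Continuous f) (h0 : ∀ t, 0 ≤ f t) :
    cfc f b = star (cfc (fun t => √(f t)) b) * cfc (fun t => √(f t)) b := by
  have hs : IsSelfAdjoint (cfc (fun t => √(f t)) b) := cfc_predicate _ b
  have hc : Continuous fun t => √(f t) := Real.continuous_sqrt.comp hf
  rw [hs.star_eq, blkex_mul b _ _ hc hc]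
  congr 1
  funext t
  exact (Real.mul_self_sqrt (h0 t)).symm

private theorem blkex_id {D : Type u} [CStarAlgebra D] (b : D) (hb : IsSelfAdjoint b)
    (g : ℝ → ℝ) (hg : Continuous g) : b * cfc g b = cfc (fun t => t * g t) b := by
  have h := blkex_mul b (fun t => t) g continuous_id hg
  rwa [cfc_id' ℝ b hb] at h

private theorem blkex_csmul {D : Type u} [CStarAlgebra D] (b : D) (r : ℝ) (g : ℝ → ℝ)
    (hg : Continuous g) : (r : ℂ) • cfc g b = cfc (fun t => r * g t) b := by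
  rw [cfc_const_mul r g b hg.continuousOn, Complex.coe_smul]

/-- BLKEX.  `h = ψ 1`, `a = ψ e00`, `h a = a²`; `δ, x` from `full_star_cut`; `ε = δ²/4`;
`K = k(h)`, `k(t) = 0` for `t ≤ δ/2`, `1` for `t ≥ δ`, linear in between;
`b i = ψ (e_i0) * w(a)`, `w(t) = sqrt (max 0 (t-δ)) / t` (for `t ≥ δ`, `0` below);
`k(h) a = k(a) a` (polynomials, then continuous functions: or `h` and `a` commute and
`(h - a) a = 0`). -/
theorem blk_exists {D : Type u} [CStarAlgebra D] {q : ℕ}
    (ψ : Matrix (Fin (q + 1)) (Fin (q + 1)) ℂ →ₗ[ℂ] D) (hψ : IsOZ ψ)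
    (hp : ∀ j, ∃ r, ψ (eu j j) = star r * r) (h : Full {ψ (eu 0 0)}) :
    ∃ (n : ℕ) (ε : ℝ), 0 < ε ∧ ε ≤ 1 ∧ Nonempty (Blk q n ε D) := by
  classical
  have hstar : ∀ i j, star (ψ (eu i j)) = ψ (eu j i) := by
    intro i j
    rw [← hψ.star']
    congr 1
    simp [eu]
  have hmul : ∀ i j l, ψ (eu i j) * ψ (eu j l) = ψ 1 * ψ (eu i l) := by
    intro i j l
    rw [hψ.mul']
    congr 2
    simp [eu]
  have hmul0 : ∀ i j k l, j ≠ k → ψ (eu i j) * ψ (eu k l) = 0 := by
    intro i j k l hjk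
    rw [hψ.mul']
    have : (eu i j * eu k l : Matrix (Fin (q + 1)) (Fin (q + 1)) ℂ) = 0 := by
      simp [eu, hjk]
    rw [this, map_zero, mul_zero]
  have hcomm : ∀ y, ψ 1 * ψ y = ψ y * ψ 1 := by
    intro y
    have e2 := hψ.mul' y 1
    rw [mul_one] at e2
    exact e2.symm
  have hsa : IsSelfAdjoint (ψ 1) := by
    have := hψ.star' 1
    rw [Matrix.conjTranspose_one] at this
    exact this.symm
  have asa : IsSelfAdjoint (ψ (eu 0 0)) := hstar 0 0
  have haa : ψ 1 * ψ (eu 0 0) = ψ (eu 0 0) * ψ (eu 0 0) := (hmul 0 0 0).symm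
  obtain ⟨δ, hδ, hδ1, n, x, hx⟩ := full_star_cut (ψ (eu 0 0)) (hp 0) h
  -- functions
  set k : ℝ → ℝ := fun t => min 1 (max 0 (2 * t / δ - 1)) with hk
  set w : ℝ → ℝ := fun t => √(max 0 (t - δ)) / max δ t with hw
  set w' : ℝ → ℝ := fun t => √(max 0 (t - δ)) / (max δ t * max δ t) with hw'
  have hkc : Continuous k := by fun_prop
  have hmax : ∀ t, max δ t ≠ 0 := fun t => (lt_of_lt_of_le hδ (le_max_left _ _)).ne'
  have hwc : Continuous w := by
    refine Continuous.div ?_ (by fun_prop) hmax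
    exact Real.continuous_sqrt.comp (by fun_prop)
  have hwc' : Continuous w' := by
    refine Continuous.div ?_ (by fun_prop) (fun t => mul_ne_zero (hmax t) (hmax t))
    exact Real.continuous_sqrt.comp (by fun_prop)
  have hk0 : ∀ t, 0 ≤ k t := fun t => le_min zero_le_one (le_max_left _ _)
  have hk_lo : ∀ t, t ≤ δ / 2 → k t = 0 := by
    intro t ht
    have : 2 * t / δ - 1 ≤ 0 := by
      rw [sub_nonpos, div_le_one hδ]; linarith
    simp only [hk]
    rw [max_eq_left this]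
    exact min_eq_right zero_le_one
  have hk_hi : ∀ t, δ ≤ t → k t = 1 := by
    intro t ht
    have : 1 ≤ 2 * t / δ - 1 := by
      rw [le_sub_iff_add_le, le_div_iff₀ hδ]; linarith
    simp only [hk]
    rw [max_eq_right (by linarith)]
    exact min_eq_left this
  have hww : ∀ t, w t = t * w' t := by
    intro t
    simp only [hw, hw']
    rcases le_total δ t with ht | ht
    · rw [max_eq_right ht]
      have : t ≠ 0 := by linarith [hδ] |> fun (h : 0 < t) => h.ne'
      field_simp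
    · rw [max_eq_left (by linarith : t - δ ≤ 0), Real.sqrt_zero]
      simp
  have hkw : ∀ t, k t * w t = w t := by
    intro t
    rcases le_total δ t with ht | ht
    · rw [hk_hi t ht, one_mul]
    · simp only [hw]
      rw [max_eq_left (by linarith : t - δ ≤ 0), Real.sqrt_zero]
      simp
  have hw2 : ∀ t, w t * (t * t) * w t = max 0 (t - δ) := by
    intro t
    simp only [hw]
    rcases le_total δ t with ht | ht
    · have h0 : 0 ≤ t - δ := by linarith
      have : t ≠ 0 := by linarith [hδ] |> fun (h : 0 < t) => h.ne'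
      rw [max_eq_right ht, max_eq_right h0]
      have hs := Real.mul_self_sqrt h0
      field_simp
      nlinarith [hs]
    · rw [max_eq_left (by linarith : t - δ ≤ 0), Real.sqrt_zero]
      simp
  -- `cfc k` on `h` and `a`
  have hKcomm : ∀ y, cfc k (ψ 1) * ψ y = ψ y * cfc k (ψ 1) := fun y =>
    (Commute.cfc_real (show Commute (ψ 1) (ψ y) from hcomm y) k).eq
  have hKa := blkex_cfc (ψ 1) (ψ (eu 0 0)) hsa asa haa k hkc
  have hid : cfc (fun t : ℝ => t) (ψ (eu 0 0)) = ψ (eu 0 0) := cfc_id' ℝ _ asa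
  have hidh : cfc (fun t : ℝ => t) (ψ 1) = ψ 1 := cfc_id' ℝ _ hsa
  have hwa : cfc w (ψ (eu 0 0)) = ψ (eu 0 0) * cfc w' (ψ (eu 0 0)) := by
    rw [blkex_id _ asa w' hwc']
    congr 1
    funext t
    exact hww t
  -- `K w(a) = w(a)`
  have hKw : cfc k (ψ 1) * cfc w (ψ (eu 0 0)) = cfc w (ψ (eu 0 0)) := by
    calc cfc k (ψ 1) * cfc w (ψ (eu 0 0))
        = cfc k (ψ 1) * ψ (eu 0 0) * cfc w' (ψ (eu 0 0)) := by rw [hwa, mul_assoc]
      _ = cfc k (ψ (eu 0 0)) * (ψ (eu 0 0) * cfc w' (ψ (eu 0 0))) := by rw [hKa, mul_assoc]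
      _ = cfc k (ψ (eu 0 0)) * cfc w (ψ (eu 0 0)) := by rw [hwa]
      _ = cfc (fun t => k t * w t) (ψ (eu 0 0)) := blkex_mul _ _ _ hkc hwc
      _ = cfc w (ψ (eu 0 0)) := by
          congr 1
          funext t
          exact hkw t
  have hwsa : star (cfc w (ψ (eu 0 0))) = cfc w (ψ (eu 0 0)) :=
    (cfc_predicate w (ψ (eu 0 0)) : IsSelfAdjoint _).star_eq
  -- `b_i* b_j`
  have hbb : ∀ i j, star (ψ (eu i 0) * cfc w (ψ (eu 0 0))) * (ψ (eu j 0) * cfc w (ψ (eu 0 0))) =
      if i = j then cfc (fun t : ℝ => max 0 (t - δ)) (ψ (eu 0 0)) else 0 := by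
    intro i j
    rw [star_mul, hwsa, hstar]
    have e : cfc w (ψ (eu 0 0)) * ψ (eu 0 i) * (ψ (eu j 0) * cfc w (ψ (eu 0 0))) =
        cfc w (ψ (eu 0 0)) * (ψ (eu 0 i) * ψ (eu j 0)) * cfc w (ψ (eu 0 0)) := by
      simp only [mul_assoc]
    rw [e]
    split_ifs with hij
    · subst hij
      rw [hmul, haa]
      calc cfc w (ψ (eu 0 0)) * (ψ (eu 0 0) * ψ (eu 0 0)) * cfc w (ψ (eu 0 0))
          = cfc w (ψ (eu 0 0)) * (ψ (eu 0 0) * (ψ (eu 0 0) * cfc w (ψ (eu 0 0)))) := by
            simp only [mul_assoc]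
        _ = cfc (fun t => w t * (t * (t * w t))) (ψ (eu 0 0)) := by
            rw [blkex_id _ asa w hwc, blkex_id _ asa _ (by fun_prop),
              blkex_mul _ _ _ hwc (by fun_prop)]
        _ = _ := by
            congr 1
            funext t
            rw [← hw2 t]
            ring
    · rw [hmul0 _ _ _ _ hij, mul_zero, zero_mul]
  -- positivity of `h`
  have hhpos : ∃ r0, ψ 1 = star r0 * r0 := by
    letI := CStarAlgebra.spectralOrder D
    haveI := CStarAlgebra.spectralOrderedRing D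
    have h1 : (1 : Matrix (Fin (q + 1)) (Fin (q + 1)) ℂ) = ∑ j, eu j j :=
      Matrix.sum_single_one.symm
    have h2 : 0 ≤ ψ 1 := by
      rw [h1, map_sum]
      refine Finset.sum_nonneg fun j _ => ?_
      obtain ⟨r, hr⟩ := hp j
      rw [hr]
      exact star_mul_self_nonneg r
    exact CStarAlgebra.nonneg_iff_eq_star_mul_self.1 h2
  have hhh : ψ 1 * ψ 1 = cfc (fun t : ℝ => t * t) (ψ 1) := by
    have := blkex_id (ψ 1) hsa (fun t => t) continuous_id
    rwa [hidh] at this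
  refine ⟨n, δ ^ 2 / 4, by positivity, by nlinarith, ⟨{
    φ := ψ
    oz := hψ
    K := cfc k (ψ 1)
    k1 := cfc (fun t => √(k t)) (ψ 1)
    r1 := cfc (fun t => √(k t * (t * t) - δ ^ 2 / 4 * k t)) (ψ 1)
    r2 := cfc (fun t => √(t * t + (1 - k t) * (1 - k t) - δ ^ 2 / 4)) (ψ 1)
    b := fun i => ψ (eu i 0) * cfc w (ψ (eu 0 0))
    x := x
    hpos := hhpos
    Ksa := (cfc_predicate k (ψ 1) : IsSelfAdjoint _).star_eq
    Kcomm := hKcomm
    Kpos := blkex_sq _ _ hkc hk0
    Kh := ?_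
    root := ?_
    borth := ?_
    bsame := ?_
    Kb := ?_
    rootb := ?_
    xsum := ?_ }⟩⟩
  · rw [← blkex_sq (ψ 1) (fun t => k t * (t * t) - δ ^ 2 / 4 * k t) (by fun_prop) ?_]
    · rw [hhh, blkex_mul _ _ _ hkc (by fun_prop), blkex_csmul _ _ _ hkc]
      exact (cfc_sub _ _ _ (by fun_prop) (by fun_prop)).symm
    · intro t
      rcases le_total t (δ / 2) with ht | ht
      · rw [hk_lo t ht]; simp
      · have := hk0 t
        have h3 : δ ^ 2 / 4 ≤ t * t := by nlinarith
        nlinarith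
  · rw [← blkex_sq (ψ 1) (fun t => t * t + (1 - k t) * (1 - k t) - δ ^ 2 / 4) (by fun_prop) ?_]
    · have e1 : (1 : D) - cfc k (ψ 1) = cfc (fun t => 1 - k t) (ψ 1) := by
        rw [cfc_sub (fun _ => (1 : ℝ)) k (ψ 1) (by fun_prop) hkc.continuousOn, cfc_const_one ℝ (ψ 1)]
      have e2 : ((δ ^ 2 / 4 : ℝ) : ℂ) • (1 : D) = cfc (fun _ : ℝ => δ ^ 2 / 4) (ψ 1) := by
        rw [cfc_const (δ ^ 2 / 4) (ψ 1) hsa, Algebra.algebraMap_eq_smul_one, Complex.coe_smul]
      rw [hhh, e1, e2, blkex_mul _ _ _ (by fun_prop) (by fun_prop),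
        ← cfc_add (a := ψ 1) (fun t : ℝ => t * t) (fun t => (1 - k t) * (1 - k t)) (by fun_prop)
          (by fun_prop)]
      exact (cfc_sub _ _ _ (by fun_prop) (by fun_prop)).symm
    · intro t
      rcases le_total t (δ / 2) with ht | ht
      · rw [hk_lo t ht]
        nlinarith [mul_self_nonneg t]
      · have h3 : δ ^ 2 / 4 ≤ t * t := by nlinarith
        nlinarith [mul_self_nonneg (1 - k t)]
  · intro i j hij
    rw [hbb, if_neg hij]
  · intro i
    rw [hbb, hbb, if_pos rfl, if_pos rfl]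
  · intro i
    rw [← mul_assoc, hKcomm, mul_assoc, hKw]
  · rw [← mul_assoc, ← mul_assoc, haa]
  · have : ∀ j, star (x j) * (star (ψ (eu 0 0) * cfc w (ψ (eu 0 0))) *
        (ψ (eu 0 0) * cfc w (ψ (eu 0 0)))) * x j =
        star (x j) * cfc (fun t : ℝ => max 0 (t - δ)) (ψ (eu 0 0)) * x j := by
      intro j
      rw [hbb, if_pos rfl]
    rw [← hx]
    exact Finset.sum_congr rfl fun j _ => this j

end Vale.Agent.P101K
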