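import Vale.Agent.P101K.Defs

namespace Vale.Agent.P101K

universe u

variable {R : Type u} [Ring R] [Algebra ℂ R]

/-- the two-sided ideal of `C` generated by `t` -/
private def primeGen (C : Subalgebra ℂ R) (t : Set R) : AddSubmonoid R :=
  AddSubmonoid.closure {z | ∃ p ∈ C, ∃ y ∈ t, ∃ p' ∈ C, z = p * y * p'}

private theorem primeGen_sum {C : Subalgebra ℂ R} {t : Set R} {z : R} (hz : z ∈ primeGen C t) :
    ∃ (n : ℕ) (p x p' : Fin n → R), (∀ i, p i ∈ (C : Set R)) ∧ (∀ i, x i ∈ t) ∧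
      (∀ i, p' i ∈ (C : Set R)) ∧ ∑ i, p i * x i * p' i = z := by
  unfold primeGen at hz
  refine AddSubmonoid.closure_induction ?_ ?_ ?_ hz
  · rintro w ⟨p, hp, y, hy, p', hp', rfl⟩
    exact ⟨1, fun _ => p, fun _ => y, fun _ => p', fun _ => hp, fun _ => hy, fun _ => hp', by simp⟩
  · exact ⟨0, fun i => i.elim0, fun i => i.elim0, fun i => i.elim0, fun i => i.elim0,
      fun i => i.elim0, fun i => i.elim0, by simp⟩
  · rintro a b _ _ ⟨m, p, x, p', hp, hx, hp', ha⟩ ⟨n, q, y, q', hq, hy, hq', hb⟩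
    refine ⟨m + n, Fin.append p q, Fin.append x y, Fin.append p' q', ?_, ?_, ?_, ?_⟩
    · intro i
      refine Fin.addCases (fun j => ?_) (fun j => ?_) i
      · rw [Fin.append_left]; exact hp j
      · rw [Fin.append_right]; exact hq j
    · intro i
      refine Fin.addCases (fun j => ?_) (fun j => ?_) i
      · rw [Fin.append_left]; exact hx j
      · rw [Fin.append_right]; exact hy j
    · intro i
      refine Fin.addCases (fun j => ?_) (fun j => ?_) i
      · rw [Fin.append_left]; exact hp' j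
      · rw [Fin.append_right]; exact hq' j
    · rw [Fin.sum_univ_add]
      simp only [Fin.append_left, Fin.append_right]
      rw [ha, hb]

private theorem primeGen_left {C : Subalgebra ℂ R} {t : Set R} {c : R} (hc : c ∈ C) {z : R}
    (hz : z ∈ primeGen C t) : c * z ∈ primeGen C t := by
  unfold primeGen at hz ⊢
  refine AddSubmonoid.closure_induction ?_ ?_ ?_ hz
  · rintro w ⟨p, hp, y, hy, p', hp', rfl⟩
    refine AddSubmonoid.subset_closure ⟨c * p, mul_mem hc hp, y, hy, p', hp', ?_⟩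
    simp only [mul_assoc]
  · rw [mul_zero]; exact zero_mem _
  · intro a b _ _ ha hb
    rw [mul_add]
    exact add_mem ha hb

private theorem primeGen_right {C : Subalgebra ℂ R} {t : Set R} {c : R} (hc : c ∈ C) {z : R}
    (hz : z ∈ primeGen C t) : z * c ∈ primeGen C t := by
  unfold primeGen at hz ⊢
  refine AddSubmonoid.closure_induction ?_ ?_ ?_ hz
  · rintro w ⟨p, hp, y, hy, p', hp', rfl⟩
    refine AddSubmonoid.subset_closure ⟨p, hp, y, hy, p' * c, mul_mem hp' hc, ?_⟩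
    simp only [mul_assoc]
  · rw [zero_mul]; exact zero_mem _
  · intro a b _ _ ha hb
    rw [add_mul]
    exact add_mem ha hb

private theorem primeGen_subset {C : Subalgebra ℂ R} {t : Set R} {z : R} (hz : z ∈ t) :
    z ∈ primeGen C t := by
  unfold primeGen
  exact AddSubmonoid.subset_closure ⟨1, one_mem C, z, hz, 1, one_mem C, by simp⟩

private theorem primeGen_le {C : Subalgebra ℂ R} {t : Set R} (ht : t ⊆ C) {z : R}
    (hz : z ∈ primeGen C t) : z ∈ C := by
  unfold primeGen at hz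
  refine AddSubmonoid.closure_induction ?_ ?_ ?_ hz
  · rintro w ⟨p, hp, y, hy, p', hp', rfl⟩
    exact mul_mem (mul_mem hp (ht hy)) hp'
  · exact zero_mem _
  · intro a b _ _ ha hb
    exact add_mem ha hb

/-- the family of proper ideals of `C` containing `s` -/
private def primeFam (C : Subalgebra ℂ R) (s : Set R) : Set (Set R) :=
  {M | M ⊆ (C : Set R) ∧ (0 : R) ∈ M ∧ (∀ x ∈ M, ∀ y ∈ M, x + y ∈ M) ∧
    (∀ c ∈ C, ∀ x ∈ M, c * x ∈ M) ∧ (∀ c ∈ C, ∀ x ∈ M, x * c ∈ M) ∧ (1 : R) ∉ M ∧ s ⊆ M}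

private theorem primeGen_fam {C : Subalgebra ℂ R} {s t : Set R} (ht : t ⊆ C) (hst : s ⊆ t)
    (h : ¬ FullOn (C : Set R) t) : (primeGen C t : Set R) ∈ primeFam C s := by
  refine ⟨fun z hz => primeGen_le ht hz, zero_mem _, fun x hx y hy => add_mem hx hy,
    fun c hc x hx => primeGen_left hc hx, fun c hc x hx => primeGen_right hc hx, ?_,
    fun z hz => primeGen_subset (hst hz)⟩
  intro h1
  exact h (primeGen_sum h1)

private theorem prime_chain {C : Subalgebra ℂ R} {s : Set R} (c : Set (Set R))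
    (hc : c ⊆ primeFam C s) (hch : IsChain (· ⊆ ·) c) (hne : c.Nonempty) :
    ∃ ub ∈ primeFam C s, ∀ t ∈ c, t ⊆ ub := by
  refine ⟨⋃₀ c, ⟨?_, ?_, ?_, ?_, ?_, ?_, ?_⟩, fun t ht => Set.subset_sUnion_of_mem ht⟩
  · exact Set.sUnion_subset fun t ht => (hc ht).1
  · obtain ⟨t, ht⟩ := hne
    exact ⟨t, ht, (hc ht).2.1⟩
  · rintro x ⟨t, ht, hx⟩ y ⟨t', ht', hy⟩
    rcases hch.total ht ht' with h | h
    · exact ⟨t', ht', (hc ht').2.2.1 x (h hx) y hy⟩
    · exact ⟨t, ht, (hc ht).2.2.1 x hx y (h hy)⟩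
  · rintro d hd x ⟨t, ht, hx⟩
    exact ⟨t, ht, (hc ht).2.2.2.1 d hd x hx⟩
  · rintro d hd x ⟨t, ht, hx⟩
    exact ⟨t, ht, (hc ht).2.2.2.2.1 d hd x hx⟩
  · rintro ⟨t, ht, hx⟩
    exact (hc ht).2.2.2.2.2.1 hx
  · obtain ⟨t, ht⟩ := hne
    exact fun z hz => ⟨t, ht, (hc ht).2.2.2.2.2.2 hz⟩

/-- PRIME.  (The last conclusion is maximality.)  Zorn: a maximal proper two-sided ideal of `C` containing `s`; if `x, y ∉ M` then
`1 = m + ∑ α x β = m' + ∑ γ y δ`, multiply. -/
theorem exists_prime (C : Subalgebra ℂ R) (s : Set R) (hs : s ⊆ C)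
    (h : ¬ FullOn (C : Set R) s) :
    ∃ M : Set R, PrimeOn C M ∧ s ⊆ M ∧ ∀ x ∈ C, x ∉ M → FullOn (C : Set R) (insert x M) := by
  obtain ⟨M, hsM, hM⟩ := zorn_subset_nonempty (primeFam C s) prime_chain
    (primeGen C s : Set R) (primeGen_fam hs (Set.Subset.refl s) h)
  obtain ⟨hsub, hzero, hadd, hleft, hright, hone, hsM'⟩ := hM.prop
  have hmax : ∀ x ∈ C, x ∉ M → FullOn (C : Set R) (insert x M) := by
    intro x hx hxM
    by_contra hcon
    have hins : insert x M ⊆ (C : Set R) := Set.insert_subset hx hsub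
    have hfam := primeGen_fam (s := s) hins (hsM'.trans (Set.subset_insert x M)) hcon
    have hle : M ⊆ (primeGen C (insert x M) : Set R) :=
      fun z hz => primeGen_subset (Set.mem_insert_of_mem x hz)
    have h2 := hM.le_of_ge hfam hle
    exact hxM (h2 (primeGen_subset (Set.mem_insert x M)))
  refine ⟨M, ⟨hsub, hzero, hadd, hleft, hright, hone, ?_⟩, hsM', hmax⟩
  intro x hx y hy hxy
  by_contra hcon
  rw [not_or] at hcon
  obtain ⟨m, p, u, p', hp, hu, hp', e1⟩ := hmax x hx hcon.1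
  obtain ⟨n, q, v, q', hq, hv, hq', e2⟩ := hmax y hy hcon.2
  apply hone
  have e3 : (1 : R) = ∑ i, ∑ j, p i * (u i * (p' i * q j) * v j) * q' j := by
    have e4 : (1 : R) = (∑ i, p i * u i * p' i) * ∑ j, q j * v j * q' j := by
      rw [e1, e2, one_mul]
    rw [e4, Finset.sum_mul_sum]
    refine Finset.sum_congr rfl fun i _ => Finset.sum_congr rfl fun j _ => ?_
    simp only [mul_assoc]
  rw [e3]
  have hsum : ∀ {k : ℕ} (f : Fin k → R), (∀ i, f i ∈ M) → ∑ i, f i ∈ M := by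
    intro k f hf
    exact Finset.sum_induction f (fun z => z ∈ M) (fun a b ha hb => hadd a ha b hb) hzero
      (fun i _ => hf i)
  refine hsum _ fun i => hsum _ fun j => hright _ (hq' j) _ (hleft _ (hp i) _ ?_)
  have hpq : p' i * q j ∈ C := mul_mem (hp' i) (hq j)
  have huC : u i ∈ C := (Set.insert_subset hx hsub) (hu i)
  have hvC : v j ∈ C := (Set.insert_subset hy hsub) (hv j)
  rcases hu i with hux | huM
  · rcases hv j with hvy | hvM
    · rw [hux, hvy]
      exact hxy _ hpq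
    · exact hleft _ (mul_mem huC hpq) _ hvM
  · exact hright _ hvC _ (hright _ hpq _ huM)

/-- trivial: `FullOn` implies `Full` -/
theorem FullOn.full {C s : Set R} (h : FullOn C s) : Full s := by
  obtain ⟨n, p, x, p', -, hx, -, e⟩ := h
  exact ⟨n, p, x, p', hx, e⟩

end Vale.Agent.P101K
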