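import Vale.Agent.P101K.Loc
import Vale.Agent.P101K.Prime

namespace Vale.Agent.P101K

universe u

private theorem far_key {D : Type u} [CStarAlgebra D] {M : Set D} (hM : PrimeOn ⊤ M) {z m : D}
    (hm : m ∈ M) {lam : ℂ} {δ : ℝ} (hδ : ‖z - algebraMap ℂ D lam - m‖ ≤ δ)
    {n : ℕ} (p q p' : Fin n → D) (e : ∑ i, p i * (z * q i - q i * z) * p' i = 1) :
    1 ≤ 2 * δ * ∑ i, ‖p i‖ * ‖q i‖ * ‖p' i‖ := by
  set r : D := z - algebraMap ℂ D lam - m with hr
  have hz : z = algebraMap ℂ D lam + m + r := by rw [hr]; abel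
  have hcomm : ∀ i, z * q i - q i * z = (m * q i - q i * m) + (r * q i - q i * r) := by
    intro i
    have h1 : algebraMap ℂ D lam * q i = q i * algebraMap ℂ D lam := Algebra.commutes lam (q i)
    rw [hz]
    simp only [add_mul, mul_add]
    rw [h1]
    abel
  set m' : D := ∑ i, p i * (m * q i - q i * m) * p' i with hm'
  set e' : D := ∑ i, p i * (r * q i - q i * r) * p' i with he'
  have h1 : m' + e' = 1 := by
    rw [hm', he', ← e, ← Finset.sum_add_distrib]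
    refine Finset.sum_congr rfl fun i _ => ?_
    rw [hcomm i, mul_add, add_mul]
  have hneg : ∀ x ∈ M, -x ∈ M := by
    intro x hx
    have := hM.left (-1) (by trivial) x hx
    rwa [neg_one_mul] at this
  have hm'M : m' ∈ M := by
    rw [hm']
    refine Finset.sum_induction _ (fun z => z ∈ M) (fun a b ha hb => hM.add a ha b hb) hM.zero
      (fun i _ => ?_)
    refine hM.right _ (by trivial) _ (hM.left _ (by trivial) _ ?_)
    rw [sub_eq_add_neg]
    exact hM.add _ (hM.right _ (by trivial) _ hm) _ (hneg _ (hM.left _ (by trivial) _ hm))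
  have h2 := PrimeOn.far_one M hM m' hm'M
  have h3 : 1 - m' = e' := by rw [← h1]; abel
  rw [h3] at h2
  refine h2.trans ?_
  rw [he', Finset.mul_sum]
  refine (norm_sum_le _ _).trans (Finset.sum_le_sum fun i _ => ?_)
  have h4 : ‖r * q i - q i * r‖ ≤ 2 * δ * ‖q i‖ := by
    have h5 : ‖r * q i‖ ≤ δ * ‖q i‖ :=
      (norm_mul_le _ _).trans (mul_le_mul_of_nonneg_right hδ (norm_nonneg _))
    have h6 : ‖q i * r‖ ≤ δ * ‖q i‖ := by
      refine (norm_mul_le _ _).trans ?_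
      rw [mul_comm]
      exact mul_le_mul_of_nonneg_right hδ (norm_nonneg _)
    calc ‖r * q i - q i * r‖ ≤ ‖r * q i‖ + ‖q i * r‖ := norm_sub_le _ _
      _ ≤ δ * ‖q i‖ + δ * ‖q i‖ := add_le_add h5 h6
      _ = 2 * δ * ‖q i‖ := by ring
  calc ‖p i * (r * q i - q i * r) * p' i‖
      ≤ ‖p i * (r * q i - q i * r)‖ * ‖p' i‖ := norm_mul_le _ _
    _ ≤ (‖p i‖ * ‖r * q i - q i * r‖) * ‖p' i‖ :=
        mul_le_mul_of_nonneg_right (norm_mul_le _ _) (norm_nonneg _)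
    _ ≤ (‖p i‖ * (2 * δ * ‖q i‖)) * ‖p' i‖ :=
        mul_le_mul_of_nonneg_right (mul_le_mul_of_nonneg_left h4 (norm_nonneg _)) (norm_nonneg _)
    _ = 2 * δ * (‖p i‖ * ‖q i‖ * ‖p' i‖) := by ring

/-- FAR.  `1 = ∑ p_s [z, q_s] p'_s`. Take `N` with `2 (κ+1)/N * ∑ ‖p_s‖‖q_s‖‖p'_s‖ < 1`. If not
`Full`, take a prime `M` of `D` (`exists_prime`, `C = ⊤`) containing all
`tent_a(z) q tent_b(z)`, `|a - b| ≥ κ`; by primeness the hypothesis of `loc` holds, so
`z = λ + m + r` with `‖r‖ ≤ (κ+1)/N` and `1 = (element of M) + (element of norm < 1)`,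
contradicting `far_one`. -/
theorem far_full {D : Type u} [CStarAlgebra D] (z : D) (hz : IsSelfAdjoint z) (hz1 : ‖z‖ ≤ 1)
    (h : Full {x : D | ∃ q, x = z * q - q * z}) (κ : ℕ) :
    ∃ N : ℕ, 0 < N ∧ Full {x : D | ∃ a b : ℤ, |a| ≤ N ∧ |b| ≤ N ∧ (κ : ℤ) ≤ |a - b| ∧
      ∃ q, x = cfc (tent N a) z * q * cfc (tent N b) z} := by
  obtain ⟨n, p, x, p', hx, e⟩ := h
  choose q hq using hx
  have e' : ∑ i, p i * (z * q i - q i * z) * p' i = 1 := by
    rw [← e]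
    exact Finset.sum_congr rfl fun i _ => by rw [← hq i]
  set Kc : ℝ := ∑ i, ‖p i‖ * ‖q i‖ * ‖p' i‖ with hKc
  have hKc0 : 0 ≤ Kc := Finset.sum_nonneg fun i _ => by positivity
  obtain ⟨N, hN⟩ := exists_nat_gt (2 * ((κ : ℝ) + 1) * Kc)
  have hN0 : 0 < N := by
    have h1 : (0 : ℝ) ≤ 2 * ((κ : ℝ) + 1) * Kc := by positivity
    have h2 : (0 : ℝ) < N := lt_of_le_of_lt h1 hN
    exact_mod_cast h2
  have hNr : (0 : ℝ) < N := by exact_mod_cast hN0
  refine ⟨N, hN0, ?_⟩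
  by_contra hcon
  set s : Set D := {x : D | ∃ a b : ℤ, |a| ≤ N ∧ |b| ≤ N ∧ (κ : ℤ) ≤ |a - b| ∧
      ∃ q, x = cfc (tent N a) z * q * cfc (tent N b) z} with hs
  have hnot : ¬ FullOn (((⊤ : Subalgebra ℂ D)) : Set D) s := fun hf => hcon hf.full
  obtain ⟨M, hM, hsM, -⟩ := exists_prime (⊤ : Subalgebra ℂ D) s (fun _ _ => by trivial) hnot
  obtain ⟨a, -, m, hm, hnorm⟩ := loc M hM N hN0 κ z hz hz1 (by
    intro a b ha hb hab
    refine hM.prime _ (by trivial) _ (by trivial) ?_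
    intro c _
    exact hsM ⟨a, b, ha, hb, hab, c, rfl⟩)
  have h1 := far_key hM hm hnorm p q p' e'
  rw [← hKc] at h1
  have h2 : 2 * (((κ : ℝ) + 1) / N) * Kc < 1 := by
    have h3 : 2 * (((κ : ℝ) + 1) / N) * Kc = (2 * ((κ : ℝ) + 1) * Kc) / N := by ring
    rw [h3, div_lt_one hNr]
    exact hN
  linarith

end Vale.Agent.P101K
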