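import Vale.Agent.P101K.Defs

namespace Vale.Agent.P101K

universe u

section ozp

variable {D : Type u} [CStarAlgebra D]

/-- the product of two maps, restricted to a subset of the indices -/
private noncomputable def ozp_chi {ι κ l : Type} [Fintype ι] [DecidableEq ι] [Fintype κ]
    [DecidableEq κ] [Fintype l] [DecidableEq l] (ψ : Matrix ι ι ℂ →ₗ[ℂ] D)
    (φ : Matrix κ κ ℂ →ₗ[ℂ] D) (f : l → ι × κ) : Matrix l l ℂ →ₗ[ℂ] D where
  toFun x := ∑ a, ∑ b, x a b • (ψ (eu (f a).1 (f b).1) * φ (eu (f a).2 (f b).2))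
  map_add' x y := by
    rw [← Finset.sum_add_distrib]
    refine Finset.sum_congr rfl fun a _ => ?_
    rw [← Finset.sum_add_distrib]
    refine Finset.sum_congr rfl fun b _ => ?_
    rw [Matrix.add_apply, add_smul]
  map_smul' c x := by
    rw [RingHom.id_apply, Finset.smul_sum]
    refine Finset.sum_congr rfl fun a _ => ?_
    rw [Finset.smul_sum]
    refine Finset.sum_congr rfl fun b _ => ?_
    rw [Matrix.smul_apply, smul_eq_mul, mul_smul]

private theorem ozp_chi_apply {ι κ l : Type} [Fintype ι] [DecidableEq ι] [Fintype κ]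
    [DecidableEq κ] [Fintype l] [DecidableEq l] (ψ : Matrix ι ι ℂ →ₗ[ℂ] D)
    (φ : Matrix κ κ ℂ →ₗ[ℂ] D) (f : l → ι × κ) (x : Matrix l l ℂ) :
    ozp_chi ψ φ f x = ∑ a, ∑ b, x a b • (ψ (eu (f a).1 (f b).1) * φ (eu (f a).2 (f b).2)) := rfl

private theorem ozp_eu_apply {l : Type} [DecidableEq l] (i j a b : l) :
    (eu i j : Matrix l l ℂ) a b = if i = a ∧ j = b then 1 else 0 := rfl

private theorem ozp_chi_eu {ι κ l : Type} [Fintype ι] [DecidableEq ι] [Fintype κ]
    [DecidableEq κ] [Fintype l] [DecidableEq l] (ψ : Matrix ι ι ℂ →ₗ[ℂ] D)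
    (φ : Matrix κ κ ℂ →ₗ[ℂ] D) (f : l → ι × κ) (i j : l) :
    ozp_chi ψ φ f (eu i j) = ψ (eu (f i).1 (f j).1) * φ (eu (f i).2 (f j).2) := by
  have h1 : ∀ a b : l, (eu i j : Matrix l l ℂ) a b = if i = a ∧ j = b then 1 else 0 :=
    fun a b => ozp_eu_apply i j a b
  rw [ozp_chi_apply, Finset.sum_eq_single i, Finset.sum_eq_single j]
  · rw [h1, if_pos ⟨rfl, rfl⟩, one_smul]
  · intro b _ hb
    rw [h1, if_neg (fun h => hb h.2.symm), zero_smul]
  · intro h; exact absurd (Finset.mem_univ _) h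
  · intro a _ ha
    refine Finset.sum_eq_zero fun b _ => ?_
    rw [h1, if_neg (fun h => ha h.1.symm), zero_smul]
  · intro h; exact absurd (Finset.mem_univ _) h

private theorem ozp_eu_star {ι : Type} [Fintype ι] [DecidableEq ι] (i j : ι) :
    (eu i j : Matrix ι ι ℂ).conjTranspose = eu j i := by
  rw [Matrix.conjTranspose_single, star_one]

private theorem ozp_chi_isOZ {ι κ l : Type} [Fintype ι] [DecidableEq ι] [Fintype κ]
    [DecidableEq κ] [Fintype l] [DecidableEq l] (ψ : Matrix ι ι ℂ →ₗ[ℂ] D)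
    (φ : Matrix κ κ ℂ →ₗ[ℂ] D) (f : l → ι × κ) (hf : Function.Injective f)
    (hψ : IsOZ ψ) (hφ : IsOZ φ) (hc : ∀ x y, Commute (ψ x) (φ y)) :
    IsOZ (ozp_chi ψ φ f) := by
  have hT : ∀ a b c d : l,
      (ψ (eu (f a).1 (f b).1) * φ (eu (f a).2 (f b).2)) *
        (ψ (eu (f c).1 (f d).1) * φ (eu (f c).2 (f d).2))
      = if b = c then (ψ 1 * φ 1) * (ψ (eu (f a).1 (f d).1) * φ (eu (f a).2 (f d).2)) else 0 := by
    intro a b c d
    have e1 : (ψ (eu (f a).1 (f b).1) * φ (eu (f a).2 (f b).2)) *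
        (ψ (eu (f c).1 (f d).1) * φ (eu (f c).2 (f d).2))
        = (ψ (eu (f a).1 (f b).1) * ψ (eu (f c).1 (f d).1)) *
          (φ (eu (f a).2 (f b).2) * φ (eu (f c).2 (f d).2)) := by
      rw [mul_assoc, mul_assoc, ← mul_assoc (φ _) (ψ _), ← (hc _ _).eq, mul_assoc]
    rw [e1, hψ.mul', hφ.mul']
    split_ifs with h
    · subst h
      rw [Matrix.single_mul_single_same, Matrix.single_mul_single_same, mul_one]
      rw [mul_assoc, mul_assoc, ← mul_assoc (φ _) (ψ _), ← (hc _ _).eq, mul_assoc]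
    · have h2 : f b ≠ f c := fun h3 => h (hf h3)
      by_cases h3 : (f b).1 = (f c).1
      · have h4 : (f b).2 ≠ (f c).2 := fun h5 => h2 (Prod.ext h3 h5)
        rw [Matrix.single_mul_single_of_ne _ _ _ _ h4, map_zero, mul_zero, mul_zero]
      · rw [Matrix.single_mul_single_of_ne _ _ _ _ h3, map_zero, mul_zero, zero_mul]
  have hmul : ∀ x y, ozp_chi ψ φ f x * ozp_chi ψ φ f y = (ψ 1 * φ 1) * ozp_chi ψ φ f (x * y) := by
    intro x y
    rw [ozp_chi_apply, ozp_chi_apply, ozp_chi_apply, Finset.sum_mul, Finset.mul_sum]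
    refine Finset.sum_congr rfl fun a _ => ?_
    rw [Finset.sum_mul, Finset.mul_sum]
    have e1 : ∀ b ∈ (Finset.univ : Finset l),
        (x a b • (ψ (eu (f a).1 (f b).1) * φ (eu (f a).2 (f b).2))) *
          (∑ c, ∑ d, y c d • (ψ (eu (f c).1 (f d).1) * φ (eu (f c).2 (f d).2)))
        = ∑ d, (x a b * y b d) •
          ((ψ 1 * φ 1) * (ψ (eu (f a).1 (f d).1) * φ (eu (f a).2 (f d).2))) := by
      intro b _
      rw [Finset.mul_sum, Finset.sum_eq_single b]
      · rw [Finset.mul_sum]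
        refine Finset.sum_congr rfl fun d _ => ?_
        rw [smul_mul_smul_comm, hT, if_pos rfl]
      · intro c _ hcb
        rw [Finset.mul_sum]
        refine Finset.sum_eq_zero fun d _ => ?_
        rw [smul_mul_smul_comm, hT, if_neg (Ne.symm hcb), smul_zero]
      · intro h; exact absurd (Finset.mem_univ _) h
    rw [Finset.sum_congr rfl e1, Finset.sum_comm]
    refine Finset.sum_congr rfl fun d _ => ?_
    rw [← Finset.sum_smul, mul_smul_comm, Matrix.mul_apply]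
  constructor
  · intro x
    rw [ozp_chi_apply, ozp_chi_apply, star_sum, Finset.sum_comm]
    refine Finset.sum_congr rfl fun a _ => ?_
    rw [star_sum]
    refine Finset.sum_congr rfl fun b _ => ?_
    rw [Matrix.conjTranspose_apply, star_smul, star_mul, ← hφ.star', ← hψ.star',
      ozp_eu_star, ozp_eu_star, (hc _ _).eq]
  · intro x y
    have h1 := hmul 1 (x * y)
    rw [one_mul] at h1
    rw [hmul, h1]

end ozp

section ozind

variable {D : Type u} [CStarAlgebra D] {A : Type u} [Ring A] [StarRing A] [Algebra ℂ A]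

private def ozp_f (q : ℕ) (a : Fin (q + 1 + 1)) : Fin (q + 1) × Fin 2 :=
  (⟨min a.1 q, Nat.lt_succ_of_le (min_le_right _ _)⟩, if a.1 = q + 1 then 1 else 0)

private theorem ozp_f_inj (q : ℕ) : Function.Injective (ozp_f q) := by
  intro a b hab
  unfold ozp_f at hab
  rw [Prod.mk.injEq, Fin.mk.injEq] at hab
  obtain ⟨h1, h2⟩ := hab
  apply Fin.ext
  have ha := a.2
  have hb := b.2
  split_ifs at h2 with h3 h4 h4
  · omega
  · exact absurd h2 (by decide)
  · exact absurd h2 (by decide)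
  · omega

private theorem ozp_f_zero (q : ℕ) : ozp_f q 0 = (0, 0) := by
  unfold ozp_f
  rw [Prod.mk.injEq]
  constructor
  · apply Fin.ext
    simp
  · simp

private theorem ozp_ind (θ : ℕ → (A →⋆ₐ[ℂ] D))
    (hθ : ∀ i j, i ≠ j → ∀ s t, Commute (θ i s) (θ j t))
    (φ : Matrix (Fin 2) (Fin 2) ℂ →ₗ[ℂ] A) (hφs : ∀ x, φ x.conjTranspose = star (φ x))
    (hφm : ∀ x y, φ x * φ y = φ 1 * φ (x * y)) (s : Fin 2 → A)
    (hs : ∀ j, φ (eu j j) = star (s j) * s j) (m : ℕ) (P P' : Fin m → A)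
    (hP : ∑ i, P i * φ (eu 0 0) * P' i = 1) (q : ℕ) :
    ∃ ψ : Matrix (Fin (q + 1)) (Fin (q + 1)) ℂ →ₗ[ℂ] D, IsOZ ψ ∧
      (∀ x, ∀ j, q ≤ j → ∀ t, Commute (ψ x) (θ j t)) ∧
      (∃ r : Fin (q + 1) → D, ∀ i, ψ (eu i i) = star (r i) * r i) ∧
      ∃ (n : ℕ) (p p' : Fin n → D), ∑ i, p i * ψ (eu 0 0) * p' i = 1 := by
  induction q with
  | zero =>
    refine ⟨{ toFun := fun x => x 0 0 • 1, map_add' := ?_, map_smul' := ?_ }, ⟨?_, ?_⟩, ?_, ?_, ?_⟩
    · intro x y
      rw [Matrix.add_apply, add_smul]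
    · intro c x
      rw [RingHom.id_apply, Matrix.smul_apply, smul_eq_mul, mul_smul]
    · intro x
      change x.conjTranspose 0 0 • (1 : D) = star (x 0 0 • (1 : D))
      rw [Matrix.conjTranspose_apply, star_smul, star_one]
    · intro x y
      change (x 0 0 • (1 : D)) * (y 0 0 • (1 : D)) = ((1 : Matrix _ _ ℂ) 0 0 • (1 : D)) *
        ((x * y) 0 0 • (1 : D))
      rw [Matrix.one_apply_eq, one_smul, one_mul, smul_mul_smul_comm, one_mul, Matrix.mul_apply]
      simp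
    · intro x j _ t
      change Commute (x 0 0 • (1 : D)) _
      exact (Commute.one_left _).smul_left _
    · refine ⟨fun _ => 1, fun i => ?_⟩
      change (eu i i : Matrix _ _ ℂ) 0 0 • (1 : D) = star 1 * 1
      have h0 : i = 0 := Fin.ext (by have := i.2; simp)
      subst h0
      rw [ozp_eu_apply, if_pos ⟨rfl, rfl⟩, one_smul, star_one, one_mul]
    · refine ⟨1, fun _ => 1, fun _ => 1, ?_⟩
      change ∑ i : Fin 1, (1 : D) * ((eu 0 0 : Matrix _ _ ℂ) 0 0 • (1 : D)) * 1 = 1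
      rw [ozp_eu_apply, if_pos ⟨rfl, rfl⟩, one_smul, one_mul, one_mul]
      simp
  | succ q ih =>
    obtain ⟨ψ, hψ, hψc, ⟨r, hr⟩, n, p, p', hp⟩ := ih
    have hφ1 : IsOZ ((θ q).toAlgHom.toLinearMap.comp φ) := by
      constructor
      · intro x
        change θ q (φ _) = star (θ q (φ x))
        rw [hφs, map_star]
      · intro x y
        change θ q (φ x) * θ q (φ y) = θ q (φ 1) * θ q (φ (x * y))
        rw [← map_mul, hφm, map_mul]
    have hcm : ∀ x y, Commute (ψ x) (((θ q).toAlgHom.toLinearMap.comp φ) y) := by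
      intro x y
      exact hψc x q le_rfl _
    refine ⟨ozp_chi ψ ((θ q).toAlgHom.toLinearMap.comp φ) (ozp_f q),
      ozp_chi_isOZ _ _ _ (ozp_f_inj q) hψ hφ1 hcm, ?_, ?_, ?_⟩
    · intro x j hj t
      rw [ozp_chi_apply]
      refine Commute.sum_left _ _ _ fun a _ => Commute.sum_left _ _ _ fun b _ =>
        Commute.smul_left ?_ _
      refine Commute.mul_left (hψc _ j (by omega) t) ?_
      exact hθ q j (by omega) _ _
    · refine ⟨fun i => r (ozp_f q i).1 * θ q (s (ozp_f q i).2), fun i => ?_⟩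
      rw [ozp_chi_eu]
      change ψ _ * θ q (φ _) = _
      rw [star_mul, mul_assoc, ← mul_assoc (star (r _)) (r _), ← hr, ← mul_assoc, ← map_star,
        ← (hψc _ q le_rfl _).eq, mul_assoc, ← map_mul, ← hs]
    · refine ⟨n * m, fun k => p (finProdFinEquiv.symm k).1 * θ q (P (finProdFinEquiv.symm k).2),
        fun k => θ q (P' (finProdFinEquiv.symm k).2) * p' (finProdFinEquiv.symm k).1, ?_⟩
      rw [← finProdFinEquiv.sum_comp]
      simp only [Equiv.symm_apply_apply]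
      rw [Fintype.sum_prod_type, ozp_chi_eu, ozp_f_zero]
      change ∑ x, ∑ y, p x * θ q (P y) * (ψ (eu 0 0) * θ q (φ (eu 0 0))) *
        (θ q (P' y) * p' x) = 1
      rw [← hp]
      refine Finset.sum_congr rfl fun x _ => ?_
      have e1 : ∀ y, p x * θ q (P y) * (ψ (eu 0 0) * θ q (φ (eu 0 0))) * (θ q (P' y) * p' x)
          = p x * ψ (eu 0 0) * θ q (P y * φ (eu 0 0) * P' y) * p' x := by
        intro y
        rw [map_mul, map_mul, mul_assoc (p x) (θ q (P y)), ← mul_assoc (θ q (P y)) (ψ _),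
          ← (hψc _ q le_rfl _).eq]
        simp only [mul_assoc]
      rw [Finset.sum_congr rfl fun y _ => e1 y, ← Finset.sum_mul, ← Finset.mul_sum, ← map_sum, hP,
        map_one, mul_one]

end ozind

/-- OZPOW.  `q` commuting copies `φ_i` of `φ`; `code a i = if i < a then 1 else 0`
(`a : Fin (q+1)`, `i : Fin q`) is injective; `ψ e_ab = ∏_i φ_i (e_(code a i, code b i))` (list
product), `ψ e_ab ψ e_cd = δ_bc H ψ e_ad`, `H = ∏ φ_i 1`; `ψ e_00 = ∏ φ_i e_00` is full. -/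
theorem oz_pow {D : Type u} [CStarAlgebra D] (hD : HasCopies D)
    (φ : Matrix (Fin 2) (Fin 2) ℂ →ₗ[ℂ] D) (hφ : IsOZ φ)
    (hp : ∀ j, ∃ r, φ (eu j j) = star r * r) (h : Full {φ (eu 0 0)}) (q : ℕ) :
    ∃ ψ : Matrix (Fin (q + 1)) (Fin (q + 1)) ℂ →ₗ[ℂ] D, IsOZ ψ ∧
      (∀ j, ∃ r, ψ (eu j j) = star r * r) ∧ Full {ψ (eu 0 0)} := by
  choose r hr using hp
  obtain ⟨m, p, x, p', hx, hsum⟩ := h
  set X : Set D := (Set.range fun p : Fin 2 × Fin 2 => φ (eu p.1 p.2)) ∪
    (Set.range r ∪ (Set.range p ∪ Set.range p')) with hX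
  have hXc : X.Countable := by
    rw [hX]
    exact (Set.countable_range _).union ((Set.countable_range _).union
      ((Set.countable_range _).union (Set.countable_range _)))
  obtain ⟨θ, hθ⟩ := hD X hXc
  have hsub : ∀ d ∈ X, d ∈ StarAlgebra.adjoin ℂ X := fun d hd => StarAlgebra.subset_adjoin ℂ X hd
  have hφX : ∀ y, φ y ∈ StarAlgebra.adjoin ℂ X := by
    intro y
    rw [Matrix.matrix_eq_sum_single y, map_sum]
    refine sum_mem (fun i _ => ?_)
    rw [map_sum]
    refine sum_mem (fun j _ => ?_)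
    have e : Matrix.single i j (y i j) = (y i j) • (eu i j : Matrix _ _ ℂ) := by
      rw [Matrix.smul_single, smul_eq_mul, mul_one]
    rw [e, map_smul]
    exact SMulMemClass.smul_mem _ (hsub _ (Or.inl ⟨(i, j), rfl⟩))
  obtain ⟨ψ, hψ, _, ⟨s, hs⟩, n, P, P', hP⟩ := ozp_ind θ hθ
    (φ.codRestrict (Subalgebra.toSubmodule (StarAlgebra.adjoin ℂ X).toSubalgebra) hφX)
    (fun x => Subtype.ext (hφ.star' x)) (fun x y => Subtype.ext (hφ.mul' x y))
    (fun j => ⟨r j, hsub _ (Or.inr (Or.inl ⟨j, rfl⟩))⟩)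
    (fun j => Subtype.ext (hr j)) m
    (fun i => ⟨p i, hsub _ (Or.inr (Or.inr (Or.inl ⟨i, rfl⟩)))⟩)
    (fun i => ⟨p' i, hsub _ (Or.inr (Or.inr (Or.inr ⟨i, rfl⟩)))⟩)
    (by
      apply Subtype.ext
      rw [AddSubmonoidClass.coe_finsetSum]
      change ∑ i, p i * φ (eu 0 0) * p' i = 1
      rw [← hsum]
      refine Finset.sum_congr rfl fun i _ => ?_
      rw [Set.mem_singleton_iff.1 (hx i)]) q
  exact ⟨ψ, hψ, fun j => ⟨s j, hs j⟩, n, P, fun _ => ψ (eu 0 0), P', fun _ => rfl, hP⟩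

end Vale.Agent.P101K
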