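import Vale.Agent.P101K.FullStar

namespace Vale.Agent.P101K

universe u

/-- algebraic data: `a = |y|`, `b = |y*|` -/
theorem OZ2_data {D : Type u} [CStarAlgebra D] (y : D) (hy : y * y = 0) :
    ∃ a b : D, (∃ r, a = star r * r) ∧ (∃ r, b = star r * r) ∧ star a = a ∧ star b = b ∧
      a * a = star y * y ∧ b * b = y * star y ∧ a * b = 0 ∧ b * a = 0 ∧ a * y = 0 ∧ y * b = 0 ∧
      b * star y = 0 ∧ star y * a = 0 ∧ y * a = b * y ∧ star y * b = a * star y := by
  let _ := CStarAlgebra.spectralOrder D
  let _ := CStarAlgebra.spectralOrderedRing D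
  have ha0 : 0 ≤ CFC.abs y := CFC.abs_nonneg y
  have hb0 : 0 ≤ CFC.abs (star y) := CFC.abs_nonneg (star y)
  have haa : CFC.abs y * CFC.abs y = star y * y := CFC.abs_mul_abs y
  have hbb : CFC.abs (star y) * CFC.abs (star y) = y * star y := by
    rw [CFC.abs_mul_abs, star_star]
  set a : D := CFC.abs y with ha
  set b : D := CFC.abs (star y) with hb
  have hsa : star a = a := (IsSelfAdjoint.of_nonneg ha0).star_eq
  have hsb : star b = b := (IsSelfAdjoint.of_nonneg hb0).star_eq
  have hyy : star y * star y = 0 := by rw [← star_mul, hy, star_zero]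
  have z1 : ∀ x : D, star x * x = 0 → x = 0 := fun x hx =>
    (CStarRing.star_mul_self_eq_zero_iff x).1 hx
  have z2 : ∀ x : D, x * star x = 0 → x = 0 := fun x hx =>
    (CStarRing.mul_star_self_eq_zero_iff x).1 hx
  have hay : a * y = 0 := by
    apply z1
    rw [star_mul, hsa]
    calc star y * a * (a * y) = star y * (a * a) * y := by noncomm_ring
      _ = (star y * star y) * y * y := by rw [haa]; noncomm_ring
      _ = 0 := by rw [hyy, zero_mul, zero_mul]
  have hyb : y * b = 0 := by
    apply z2
    rw [star_mul, hsb]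
    calc y * b * (b * star y) = y * (b * b) * star y := by noncomm_ring
      _ = (y * y) * star y * star y := by rw [hbb]; noncomm_ring
      _ = 0 := by rw [hy, zero_mul, zero_mul]
  have hby : b * star y = 0 := by
    have := congrArg star hyb
    rwa [star_mul, hsb, star_zero] at this
  have hya : star y * a = 0 := by
    have := congrArg star hay
    rwa [star_mul, hsa, star_zero] at this
  have hab2 : a * (b * b) = 0 := by rw [hbb, ← mul_assoc, hay, zero_mul]
  have hab : a * b = 0 := by
    apply z2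
    rw [star_mul, hsa, hsb]
    calc a * b * (b * a) = (a * (b * b)) * a := by noncomm_ring
      _ = 0 := by rw [hab2, zero_mul]
  have hba : b * a = 0 := by
    have := congrArg star hab
    rwa [star_mul, hsa, hsb, star_zero] at this
  -- commutation
  have hX : CFC.abs (y + star y) = a + b := by
    unfold CFC.abs
    apply CFC.sqrt_unique _ (add_nonneg ha0 hb0)
    have e1 : star (y + star y) = y + star y := by rw [star_add, star_star, add_comm]
    rw [e1, add_mul, mul_add, mul_add, add_mul, mul_add, mul_add, haa, hbb, hab, hba, hy, hyy]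
    abel
  have hN : IsStarNormal (y + star y) := by
    have : IsSelfAdjoint (y + star y) := by
      change star (y + star y) = y + star y
      rw [star_add, star_star, add_comm]
    exact this.isStarNormal
  have hc : (a + b) * (y + star y) = (y + star y) * (a + b) := by
    have := CFC.commute_abs_self (y + star y) hN
    rw [hX] at this
    exact this.eq
  rw [add_mul, mul_add, mul_add, add_mul, mul_add, mul_add, hay, hby, hyb, hya] at hc
  -- `a y* + b y = y a + y* b`
  have hd : y * a - b * y = a * star y - star y * b := by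
    have h1 : (0 : D) + a * star y + (b * y + 0) = y * a + 0 + (0 + star y * b) := hc
    rw [zero_add, add_zero, add_zero, zero_add] at h1
    rw [sub_eq_sub_iff_add_eq_add, ← h1, add_comm]
  have hd0 : y * a - b * y = 0 := by
    apply z1
    have e1 : star (y * a - b * y) = y * a - b * y := by
      rw [star_sub, star_mul, star_mul, hsa, hsb, hd]
    rw [e1]
    calc (y * a - b * y) * (y * a - b * y)
        = y * (a * y) * a - y * (a * b) * y - b * (y * y) * a + b * (y * b) * y := by
          noncomm_ring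
      _ = 0 := by rw [hay, hab, hy, hyb]; simp
  refine ⟨a, b, ⟨CFC.sqrt a, ?_⟩, ⟨CFC.sqrt b, ?_⟩, hsa, hsb, haa, hbb, hab, hba, hay, hyb, hby,
    hya, sub_eq_zero.1 hd0, ?_⟩
  · rw [(IsSelfAdjoint.of_nonneg (CFC.sqrt_nonneg a)).star_eq, CFC.sqrt_mul_sqrt_self a ha0]
  · rw [(IsSelfAdjoint.of_nonneg (CFC.sqrt_nonneg b)).star_eq, CFC.sqrt_mul_sqrt_self b hb0]
  · rw [hd0] at hd
    exact (sub_eq_zero.1 hd.symm).symm

/-- OZ2.  `φ e00 = |y|`, `φ e10 = y`, `φ e01 = y*`, `φ e11 = |y*|` (`|y| = sqrt (y* y)`), using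
`y |y| = |y*| y`, `|y| |y*| = 0`, `|y*| y* = 0`, `|y| y = 0`. -/
theorem oz_two {D : Type u} [CStarAlgebra D] (y : D) (hy : y * y = 0) (h : Full {y}) :
    ∃ φ : Matrix (Fin 2) (Fin 2) ℂ →ₗ[ℂ] D, IsOZ φ ∧ (∀ j, ∃ r, φ (eu j j) = star r * r) ∧
      Full {φ (eu 0 0)} := by
  obtain ⟨a, b, ⟨ra, hra⟩, ⟨rb, hrb⟩, hsa, hsb, haa, hbb, hab, hba, hay, hyb, hby, hya, hya2, hyb2⟩ :=
    OZ2_data y hy
  have hyy : star y * star y = 0 := by rw [← star_mul, hy, star_zero]
  let φ : Matrix (Fin 2) (Fin 2) ℂ →ₗ[ℂ] D :=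
    { toFun := fun x => x 0 0 • a + x 0 1 • star y + x 1 0 • y + x 1 1 • b
      map_add' := fun x z => by simp only [Matrix.add_apply, add_smul]; abel
      map_smul' := fun c x => by
        simp only [Matrix.smul_apply, smul_eq_mul, mul_smul, RingHom.id_apply, smul_add] }
  have hφ : ∀ x, φ x = x 0 0 • a + x 0 1 • star y + x 1 0 • y + x 1 1 • b := fun _ => rfl
  have h00 : φ (eu 0 0) = a := by
    rw [hφ]; simp [eu, Matrix.single]
  have h11 : φ (eu 1 1) = b := by
    rw [hφ]; simp [eu, Matrix.single]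
  have h1 : φ 1 = a + b := by
    rw [hφ]; simp
  refine ⟨φ, ⟨?_, ?_⟩, ?_, ?_⟩
  · intro x
    rw [hφ, hφ]
    simp only [Matrix.conjTranspose_apply, star_add, star_smul, hsa, hsb, star_star]
    abel
  · intro x z
    rw [h1, hφ, hφ, hφ]
    simp only [Matrix.mul_apply, Fin.sum_univ_two]
    simp only [add_mul, mul_add, smul_mul_assoc, mul_smul_comm, haa, hbb, hab, hba, hay, hyb,
      hby, hya, hya2, hyb2, hyy, hy, smul_zero, add_zero, zero_add]
    module
  · intro j
    fin_cases j
    · exact ⟨ra, by rw [← hra]; exact h00⟩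
    · exact ⟨rb, by rw [← hrb]; exact h11⟩
  · rw [h00]
    obtain ⟨n, p, x, p', hx, hs⟩ := full_star_mul y h
    refine ⟨n, fun i => p i * a, fun _ => a, p', fun _ => rfl, ?_⟩
    rw [← hs]
    refine Finset.sum_congr rfl fun i _ => ?_
    have := hx i
    rw [Set.mem_singleton_iff] at this
    rw [this, ← haa]
    noncomm_ring

end Vale.Agent.P101K
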