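import Mathlib

namespace Vale.Agent.P101K

/-- the two classes of index vectors: the sum is in a window modulo `2 (2N + 3r + 1)` -/
def PP (N r : ℕ) (j : ℕ) : Set (Fin r → ℤ) :=
  {e | (∀ i, |e i| ≤ N) ∧
    (∑ i, e i - j * (2 * N + 3 * r + 1)) % (2 * (2 * N + 3 * r + 1)) < 2 * N}

/-- CHAIN.  The sums `S_l` of the vectors `(hi_1, …, hi_l, lo_(l+1), …, lo_r)` increase with steps
in `[7, 2N]` and total length `≥ 7 r ≥ 2 (2N + 3r + 1)`; the first one that is `≥ j W + m L` (the
first such number above `S_0`) is in the window. -/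
theorem chain {N r : ℕ} (hN : 0 < N) (hr : r = 4 * N + 2) (j : ℕ) (lo hi : Fin r → ℤ)
    (hlo : ∀ i, |lo i| ≤ N) (hhi : ∀ i, |hi i| ≤ N) (hd : ∀ i, lo i + 7 ≤ hi i) :
    ∃ e ∈ PP N r j, ∀ i, e i = lo i ∨ e i = hi i := by
  classical
  set W : ℤ := 2 * N + 3 * r + 1 with hW
  have hW0 : (0 : ℤ) < 2 * W := by positivity
  let v : ℕ → Fin r → ℤ := fun l i => if i.1 < l then hi i else lo i
  let S : ℕ → ℤ := fun l => ∑ i, v l i
  set a : ℤ := S 0 - j * W with ha
  set T : ℤ := S 0 + (-a) % (2 * W) with hT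
  have hmod0 : 0 ≤ (-a) % (2 * W) := Int.emod_nonneg _ hW0.ne'
  have hmod1 : (-a) % (2 * W) < 2 * W := Int.emod_lt_of_pos _ hW0
  -- step
  have hstep : ∀ l, S (l + 1) ≤ S l + 2 * N := by
    intro l
    by_cases hl : l < r
    · have h1 : S (l + 1) = S l + (hi ⟨l, hl⟩ - lo ⟨l, hl⟩) := by
        have h2 : ∀ i : Fin r, v (l + 1) i = v l i + (if i = ⟨l, hl⟩ then
            (hi ⟨l, hl⟩ - lo ⟨l, hl⟩) else 0) := by
          intro i
          simp only [v]
          by_cases h3 : i = ⟨l, hl⟩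
          · subst h3
            simp
          · have h4 : i.1 ≠ l := fun h5 => h3 (Fin.ext h5)
            rw [if_neg h3]
            by_cases h5 : i.1 < l
            · rw [if_pos (by omega), if_pos h5]; ring
            · rw [if_neg (by omega), if_neg h5]; ring
        simp only [S]
        rw [Finset.sum_congr rfl fun i _ => h2 i, Finset.sum_add_distrib]
        simp
      rw [h1]
      have h5 := abs_le.1 (hhi ⟨l, hl⟩)
      have h6 := abs_le.1 (hlo ⟨l, hl⟩)
      linarith [h5.2, h6.1]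
    · have h1 : S (l + 1) = S l := by
        simp only [S]
        refine Finset.sum_congr rfl fun i _ => ?_
        simp only [v]
        have := i.2
        rw [if_pos (by omega), if_pos (by omega)]
      rw [h1]
      have : (0 : ℤ) ≤ 2 * N := by positivity
      linarith
  -- total
  have htot : S 0 + 7 * r ≤ S r := by
    have h1 : S r = ∑ i, hi i := by
      simp only [S]
      exact Finset.sum_congr rfl fun i _ => if_pos i.2
    have h0 : S 0 = ∑ i, lo i := by
      simp only [S]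
      exact Finset.sum_congr rfl fun i _ => if_neg (by omega)
    rw [h1, h0]
    have h2 : ∑ i : Fin r, (lo i + 7) ≤ ∑ i, hi i := Finset.sum_le_sum fun i _ => hd i
    rw [Finset.sum_add_distrib] at h2
    simp only [Finset.sum_const, Finset.card_univ, Fintype.card_fin, nsmul_eq_mul] at h2
    linarith
  have hex : ∃ l, T ≤ S l := by
    refine ⟨r, ?_⟩
    have hr' : (r : ℤ) = 4 * N + 2 := by rw [hr]; push_cast; ring
    have : 2 * W ≤ 7 * r := by rw [hW, hr']; ring_nf; linarith
    linarith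
  have hTa : (T - j * W) % (2 * W) = 0 := by
    have h1 : T - j * W = a + (-a) % (2 * W) := by rw [hT, ha]; ring
    have h3 := Int.emod_add_mul_ediv (-a) (2 * W)
    have h2 : a + (-a) % (2 * W) = (2 * W) * (-(-a / (2 * W))) := by linarith
    rw [h1, h2]
    exact Int.mul_emod_right _ _
  have hlast : 0 ≤ S (Nat.find hex) - T ∧ S (Nat.find hex) - T < 2 * N := by
    have h1 := Nat.find_spec hex
    refine ⟨by linarith, ?_⟩
    rcases Nat.eq_zero_or_pos (Nat.find hex) with h0 | h0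
    · have h2 : S (Nat.find hex) = S 0 := by rw [h0]
      have h3 : (0 : ℤ) < 2 * N := by positivity
      rw [h2] at h1 ⊢
      linarith
    · obtain ⟨k, hk⟩ : ∃ k, Nat.find hex = k + 1 := ⟨Nat.find hex - 1, by omega⟩
      have h2 : ¬ T ≤ S k := Nat.find_min hex (by omega)
      rw [hk]
      have h3 := hstep k
      push Not at h2
      linarith
  refine ⟨v (Nat.find hex), ⟨fun i => ?_, ?_⟩, fun i => ?_⟩
  · simp only [v]
    split_ifs
    · exact hhi i
    · exact hlo i
  · have h1 : (∑ i, v (Nat.find hex) i) - j * W = (S (Nat.find hex) - T) + (T - j * W) := by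
      simp only [S]; ring
    show ((∑ i, v (Nat.find hex) i) - j * W) % (2 * W) < 2 * N
    rw [h1]
    obtain ⟨c, hc⟩ := Int.dvd_of_emod_eq_zero hTa
    rw [hc, Int.add_mul_emod_self_left, Int.emod_eq_of_lt hlast.1]
    · exact hlast.2
    · have : 2 * (N : ℤ) < 2 * W := by rw [hW]; have : (0 : ℤ) ≤ r := by positivity
                                       linarith
      linarith [hlast.2]
  · simp only [v]
    split_ifs
    · exact Or.inr rfl
    · exact Or.inl rfl

/-- SEP.  The sums differ by at least `W - 2N + 1 = 3r + 2` in absolute value. -/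
theorem sep {N r : ℕ} (e e' : Fin r → ℤ) (he : e ∈ PP N r 0) (he' : e' ∈ PP N r 1) :
    ∃ i, 4 ≤ |e i - e' i| := by
  by_contra hcon
  push Not at hcon
  set W : ℤ := 2 * N + 3 * r + 1 with hW
  have hW0 : (0 : ℤ) < 2 * W := by positivity
  have h1 : (∑ i, e i - ((0 : ℕ) : ℤ) * W) % (2 * W) < 2 * N := he.2
  have h2 : (∑ i, e' i - ((1 : ℕ) : ℤ) * W) % (2 * W) < 2 * N := he'.2
  have h3 : |∑ i, e i - ∑ i, e' i| ≤ 3 * r := by
    rw [← Finset.sum_sub_distrib]
    refine (Finset.abs_sum_le_sum_abs _ _).trans ?_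
    have h4 : ∑ i : Fin r, |e i - e' i| ≤ ∑ _i : Fin r, (3 : ℤ) :=
      Finset.sum_le_sum fun i _ => by have := hcon i; omega
    refine h4.trans ?_
    simp
    linarith
  have a1 := Int.emod_nonneg (∑ i, e i - ((0 : ℕ) : ℤ) * W) hW0.ne'
  have a2 := Int.emod_nonneg (∑ i, e' i - ((1 : ℕ) : ℤ) * W) hW0.ne'
  have b1 := Int.emod_add_mul_ediv (∑ i, e i - ((0 : ℕ) : ℤ) * W) (2 * W)
  have b2 := Int.emod_add_mul_ediv (∑ i, e' i - ((1 : ℕ) : ℤ) * W) (2 * W)
  set x := (∑ i, e i - ((0 : ℕ) : ℤ) * W) % (2 * W)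
  set y := (∑ i, e' i - ((1 : ℕ) : ℤ) * W) % (2 * W)
  set k := (∑ i, e i - ((0 : ℕ) : ℤ) * W) / (2 * W)
  set l := (∑ i, e' i - ((1 : ℕ) : ℤ) * W) / (2 * W)
  obtain ⟨h5, h6⟩ := abs_le.1 h3
  push_cast at b1 b2
  have h7 : ∑ i, e i - ∑ i, e' i = x - y + W * (2 * (k - l) - 1) := by linarith
  rw [h7] at h5 h6
  have h8 : W = 2 * N + 3 * r + 1 := hW
  have hN0 : (0 : ℤ) ≤ N := by positivity
  have hr0 : (0 : ℤ) ≤ r := by positivity
  rcases le_or_gt (k - l) 0 with h9 | h9
  · have : W * (2 * (k - l) - 1) ≤ W * (-1) := mul_le_mul_of_nonneg_left (by linarith) (by linarith)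
    linarith
  · have : W * 1 ≤ W * (2 * (k - l) - 1) := mul_le_mul_of_nonneg_left (by omega) (by linarith)
    linarith

end Vale.Agent.P101K
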