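import Vale.Agent.P101K.Defs

namespace Vale.Agent.P101K

universe u

variable {R : Type u} [Ring R] [Algebra ℂ R]

theorem PRIMEC_iSup_eq {ι : Type} (B : ι → Subalgebra ℂ R) :
    (⨆ j, B j) = Algebra.adjoin ℂ (⋃ j, (B j : Set R)) := by
  rw [Algebra.adjoin_iUnion]
  exact iSup_congr fun j => (Algebra.adjoin_eq (B j)).symm

theorem PRIMEC_aux {ι : Type} (B : ι → Subalgebra ℂ R)
    (hB : ∀ i j, i ≠ j → ∀ x ∈ B i, ∀ y ∈ B j, Commute x y) {M : Set R}
    (hM : PrimeOn (⨆ i, B i) M) (i : ι) {y : R}
    (hc : ∀ b ∈ B i, Commute b y) (c : R) (hcC : c ∈ ⨆ j, B j) :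
    ∀ x ∈ B i, x * y ∈ M → x * c * y ∈ M := by
  have hle : ∀ j, B j ≤ ⨆ j, B j := fun j => le_iSup B j
  have hspan : c ∈ Submodule.span ℂ (Submonoid.closure (⋃ j, (B j : Set R)) : Set R) := by
    rw [← Algebra.adjoin_eq_span, ← PRIMEC_iSup_eq]
    exact hcC
  clear hcC
  induction hspan using Submodule.span_induction with
  | mem w hw =>
    induction hw using Submonoid.closure_induction_left with
    | one =>
      intro x hx hxy
      simpa using hxy
    | mul_left w hw c hcl ih =>
      intro x hx hxy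
      obtain ⟨j, hj⟩ := Set.mem_iUnion.1 hw
      have hj : w ∈ B j := hj
      by_cases hij : i = j
      · subst hij
        have h1 : x * w * y ∈ M := by
          have : x * w * y = x * y * w := by
            rw [mul_assoc, (hc w hj).eq, mul_assoc]
          rw [this]
          exact hM.right w (hle i hj) _ hxy
        have h2 := ih (x * w) (mul_mem hx hj) h1
        have : x * (w * c) * y = x * w * c * y := by noncomm_ring
        rw [this]
        exact h2
      · have h2 := ih x hx hxy
        have : x * (w * c) * y = w * (x * c * y) := by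
          rw [← mul_assoc x w c, (hB i j hij x hx w hj).eq]
          noncomm_ring
        rw [this]
        exact hM.left w (hle j hj) _ h2
  | zero =>
    intro x hx hxy
    simpa using hM.zero
  | add a b _ _ iha ihb =>
    intro x hx hxy
    have : x * (a + b) * y = x * a * y + x * b * y := by noncomm_ring
    rw [this]
    exact hM.add _ (iha x hx hxy) _ (ihb x hx hxy)
  | smul k a _ iha =>
    intro x hx hxy
    have : x * (k • a) * y = algebraMap ℂ R k * (x * a * y) := by
      rw [mul_smul_comm, smul_mul_assoc, Algebra.smul_def]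
    rw [this]
    exact hM.left _ (Subalgebra.algebraMap_mem _ k) _ (iha x hx hxy)

/-- PRIMEC.  Show `x * c * y ∈ M` for all `c` in `⨆ B j` (so for all `x ∈ B i` with `x * y ∈ M`),
by induction over words in the letters from the `B j` (`⨆ B j = Algebra.adjoin (⋃ B j)`): a first
letter `w ∈ B j`, `j ≠ i`, commutes with `x`; a first letter `w ∈ B i` is absorbed,
`(x w) y = x y w ∈ M`. -/
theorem PrimeOn.comm {ι : Type} (B : ι → Subalgebra ℂ R)
    (hB : ∀ i j, i ≠ j → ∀ x ∈ B i, ∀ y ∈ B j, Commute x y) {M : Set R}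
    (hM : PrimeOn (⨆ i, B i) M) (i : ι) {x y : R} (hx : x ∈ B i) (hy : y ∈ ⨆ j, B j)
    (hc : ∀ b ∈ B i, Commute b y) (hxy : x * y ∈ M) : x ∈ M ∨ y ∈ M := by
  refine hM.prime x (le_iSup B i hx) y hy fun c hcC => ?_
  exact PRIMEC_aux B hB hM i hc c hcC x hx hxy

theorem PRIMEC_list {ι : Type} (B : ι → Subalgebra ℂ R)
    (hB : ∀ i j, i ≠ j → ∀ x ∈ B i, ∀ y ∈ B j, Commute x y) {M : Set R}
    (hM : PrimeOn (⨆ i, B i) M) (x : ι → R) (hx : ∀ i, x i ∈ B i) (l : List ι) (hl : l.Nodup)
    (h : (l.map x).prod ∈ M) : ∃ i, x i ∈ M := by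
  induction l with
  | nil =>
    exact absurd (by simpa using h) hM.one
  | cons a l ih =>
    rw [List.nodup_cons] at hl
    rw [List.map_cons, List.prod_cons] at h
    have hmem : (l.map x).prod ∈ ⨆ j, B j := by
      apply Subalgebra.list_prod_mem
      intro z hz
      obtain ⟨j, _, rfl⟩ := List.mem_map.1 hz
      exact le_iSup B j (hx j)
    have hcomm : ∀ b ∈ B a, Commute b (l.map x).prod := by
      intro b hb
      apply Commute.list_prod_right
      intro z hz
      obtain ⟨j, hj, rfl⟩ := List.mem_map.1 hz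
      refine hB a j ?_ b hb _ (hx j)
      rintro rfl
      exact hl.1 hj
    rcases PrimeOn.comm B hB hM a (hx a) hmem hcomm h with h1 | h1
    · exact ⟨a, h1⟩
    · exact ih hl.2 h1

/-- PRIMEC2.  Induction with `PrimeOn.comm` (the product of the tail commutes with `B 0`). State a
more general version for a list of distinct indices if convenient. -/
theorem PrimeOn.ofFn {r : ℕ} (B : Fin r → Subalgebra ℂ R)
    (hB : ∀ i j, i ≠ j → ∀ x ∈ B i, ∀ y ∈ B j, Commute x y) {M : Set R}
    (hM : PrimeOn (⨆ i, B i) M) (x : Fin r → R) (hx : ∀ i, x i ∈ B i)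
    (h : (List.ofFn x).prod ∈ M) : ∃ i, x i ∈ M := by
  refine PRIMEC_list B hB hM x hx (List.finRange r) (List.nodup_finRange r) ?_
  rwa [← List.ofFn_eq_map]

end Vale.Agent.P101K
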