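import Vale.Agent.P101K.Prime
import Vale.Agent.P101K.PrimeC
import Vale.Agent.P101K.Chain

namespace Vale.Agent.P101K

universe u

section aux

variable {R : Type u} [Ring R]

theorem orthc_mul : ∀ {n : ℕ} (x y : Fin n → R), (∀ i j, i ≠ j → Commute (x i) (y j)) →
    (List.ofFn x).prod * (List.ofFn y).prod = (List.ofFn (fun i => x i * y i)).prod
  | 0, x, y, _ => by simp
  | n + 1, x, y, h => by
    have ih := orthc_mul (fun i => x i.succ) (fun i => y i.succ)
      (fun i j hij => h _ _ (fun e => hij (Fin.succ_injective _ e)))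
    rw [List.ofFn_succ, List.ofFn_succ, List.ofFn_succ, List.prod_cons, List.prod_cons,
      List.prod_cons, ← ih]
    have hc : Commute ((List.ofFn (fun i => x i.succ)).prod) (y 0) := by
      apply Commute.list_prod_left
      intro z hz
      rw [List.mem_ofFn] at hz
      obtain ⟨i, rfl⟩ := hz
      exact h _ _ (Fin.succ_ne_zero i)
    calc x 0 * (List.ofFn fun i => x i.succ).prod * (y 0 * (List.ofFn fun i => y i.succ).prod)
        = x 0 * ((List.ofFn fun i => x i.succ).prod * y 0) * (List.ofFn fun i => y i.succ).prod := by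
          simp only [mul_assoc]
      _ = x 0 * (y 0 * (List.ofFn fun i => x i.succ).prod) * (List.ofFn fun i => y i.succ).prod := by
          rw [hc.eq]
      _ = _ := by simp only [mul_assoc]

theorem orthc_comm {m n : ℕ} (x : Fin m → R) (y : Fin n → R) (h : ∀ i j, Commute (x i) (y j)) :
    Commute (List.ofFn x).prod (List.ofFn y).prod := by
  apply Commute.list_prod_left
  intro z hz
  rw [List.mem_ofFn] at hz
  obtain ⟨i, rfl⟩ := hz
  apply Commute.list_prod_right
  intro w hw
  rw [List.mem_ofFn] at hw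
  obtain ⟨j, rfl⟩ := hw
  exact h i j

theorem orthc_c1 {ι : Type} (g : ι → R) (y : R) : ∀ L : List ι, (∀ e ∈ L, g e * y = 0) →
    (L.map (fun e => 1 - g e)).prod * y = y
  | [], _ => by simp
  | a :: L, h => by
    rw [List.map_cons, List.prod_cons, mul_assoc,
      orthc_c1 g y L (fun e he => h e (List.mem_cons_of_mem _ he)), sub_mul, one_mul,
      h a List.mem_cons_self, sub_zero]

theorem orthc_c2 {ι : Type} (g : ι → R) (y : R) : ∀ L : List ι, (∀ e ∈ L, y * g e = 0) →
    y * (L.map (fun e => 1 - g e)).prod = y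
  | [], _ => by simp
  | a :: L, h => by
    rw [List.map_cons, List.prod_cons, ← mul_assoc, mul_sub, mul_one,
      h a List.mem_cons_self, sub_zero]
    exact orthc_c2 g y L (fun e he => h e (List.mem_cons_of_mem _ he))

theorem orthc_c3 {ι : Type} (g : ι → R) (y : R) (e : ι) (hc : ∀ a, Commute y (g a))
    (he : y * g e = y) : ∀ L : List ι, e ∈ L → y * (L.map (fun e => 1 - g e)).prod = 0
  | [], h => by simp at h
  | a :: L, h => by
    rw [List.map_cons, List.prod_cons, ← mul_assoc]
    rcases List.mem_cons.1 h with rfl | h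
    · rw [mul_sub, mul_one, he, sub_self, zero_mul]
    · rw [((Commute.one_right y).sub_right (hc a)).eq, mul_assoc, orthc_c3 g y e hc he L h,
        mul_zero]

theorem orthc_zero {E0 P1 : R} (h : E0 * P1 = E0) : E0 * (1 - P1) = 0 := by
  rw [mul_sub, mul_one, h, sub_self]

end aux

theorem orthc_fin (N r j : ℕ) : ∃ L : List (Fin r → ℤ), ∀ e, e ∈ L ↔ e ∈ PP N r j := by
  classical
  refine ⟨((Fintype.piFinset (fun _ : Fin r => Finset.Icc (-(N : ℤ)) N)).filter
    (fun e => e ∈ PP N r j)).toList, ?_⟩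
  intro e
  rw [Finset.mem_toList, Finset.mem_filter, Fintype.mem_piFinset]
  constructor
  · exact fun h => h.2
  · intro h
    refine ⟨fun i => ?_, h⟩
    rw [Finset.mem_Icc]
    exact abs_le.1 (h.1 i)

/-- ORTHC.  `E j = 1 - ∏_(e ∈ PP N r j) (1 - Fh e)`, `Fh e = ∏_i fh i (e i)` (list products, all
factors commute; `PP` is finite). `Fh e * Fh e' = 0` for `e ∈ PP 0`, `e' ∈ PP 1` (`sep`, `h4`), so
`E 0 * E 1 = 0 = E 1 * E 0`. With `F e = ∏_i f i (e i)`: `F e * E j = F e` for `e ∈ PP j`. If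
`E j * E j` is in a prime `M` of `⨆ B` (`exists_prime`), then by `hfar` for each `i` there are far
`a, b` with `f i a, f i b ∉ M`; `chain` gives `e ∈ PP j` with all `f i (e i) ∉ M`; but
`F e = F e * E j * E j ∈ M`, contradicting `PrimeOn.ofFn`. -/
theorem orth_core {R : Type u} [Ring R] [Algebra ℂ R] (N r : ℕ) (hN : 0 < N)
    (hr : r = 4 * N + 2) (B : Fin r → Subalgebra ℂ R)
    (hB : ∀ i j, i ≠ j → ∀ x ∈ B i, ∀ y ∈ B j, Commute x y) (f fh : Fin r → ℤ → R)
    (hf : ∀ i a, f i a ∈ B i) (hfh : ∀ i a, fh i a ∈ B i)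
    (h1 : ∀ i a, f i a * fh i a = f i a) (h2 : ∀ i a b, Commute (f i a) (fh i b))
    (h3 : ∀ i a b, Commute (fh i a) (fh i b))
    (h4 : ∀ i a b, 4 ≤ |a - b| → fh i a * fh i b = 0)
    (hfar : ∀ i, FullOn (B i : Set R) {x | ∃ a b : ℤ, |a| ≤ N ∧ |b| ≤ N ∧ 7 ≤ |a - b| ∧
      ∃ q ∈ B i, x = f i a * q * f i b}) :
    ∃ E : Fin 2 → R, E 0 * E 1 = 0 ∧ E 1 * E 0 = 0 ∧ Full {E 0 * E 0} ∧ Full {E 1 * E 1} := by
  classical
  choose L hL using fun j : ℕ => orthc_fin N r j
  set Fh : (Fin r → ℤ) → R := fun e => (List.ofFn (fun i => fh i (e i))).prod with hFh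
  set F : (Fin r → ℤ) → R := fun e => (List.ofFn (fun i => f i (e i))).prod with hF
  set P : ℕ → R := fun j => ((L j).map (fun e => 1 - Fh e)).prod with hP
  have hC : ∀ i, B i ≤ ⨆ i, B i := fun i => le_iSup B i
  have hFhC : ∀ e, Fh e ∈ ⨆ i, B i := by
    intro e
    apply Subalgebra.list_prod_mem
    intro x hx
    rw [List.mem_ofFn] at hx
    obtain ⟨i, rfl⟩ := hx
    exact hC i (hfh i _)
  have hFC : ∀ e, F e ∈ ⨆ i, B i := by
    intro e
    apply Subalgebra.list_prod_mem
    intro x hx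
    rw [List.mem_ofFn] at hx
    obtain ⟨i, rfl⟩ := hx
    exact hC i (hf i _)
  have hPC : ∀ j, P j ∈ ⨆ i, B i := by
    intro j
    apply Subalgebra.list_prod_mem
    intro x hx
    rw [List.mem_map] at hx
    obtain ⟨e, -, rfl⟩ := hx
    exact Subalgebra.sub_mem _ (Subalgebra.one_mem _) (hFhC e)
  have hcomm1 : ∀ i j a b, Commute (f i a) (fh j b) := by
    intro i j a b
    by_cases hij : i = j
    · subst hij
      exact h2 i a b
    · exact hB i j hij _ (hf i a) _ (hfh j b)
  have hcomm2 : ∀ i j a b, Commute (fh i a) (fh j b) := by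
    intro i j a b
    by_cases hij : i = j
    · subst hij
      exact h3 i a b
    · exact hB i j hij _ (hfh i a) _ (hfh j b)
  have hFFh : ∀ e e', Commute (F e) (Fh e') := fun e e' =>
    orthc_comm _ _ (fun i j => hcomm1 i j _ _)
  have hFhFh : ∀ e e', Commute (Fh e) (Fh e') := fun e e' =>
    orthc_comm _ _ (fun i j => hcomm2 i j _ _)
  have hFe : ∀ e, F e * Fh e = F e := by
    intro e
    show (List.ofFn (fun i => f i (e i))).prod * (List.ofFn (fun i => fh i (e i))).prod = _
    rw [orthc_mul _ _ (fun i j _ => hcomm1 i j _ _)]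
    have : (fun i => f i (e i) * fh i (e i)) = fun i => f i (e i) := by
      funext i
      exact h1 i (e i)
    rw [this]
  have hz : ∀ e ∈ PP N r 0, ∀ e' ∈ PP N r 1, Fh e * Fh e' = 0 := by
    intro e he e' he'
    show (List.ofFn (fun i => fh i (e i))).prod * (List.ofFn (fun i => fh i (e' i))).prod = _
    rw [orthc_mul _ _ (fun i j _ => hcomm2 i j _ _)]
    obtain ⟨i, hi⟩ := sep e e' he he'
    apply List.prod_eq_zero
    rw [List.mem_ofFn]
    exact ⟨i, h4 i _ _ hi⟩
  have hz' : ∀ e ∈ PP N r 0, ∀ e' ∈ PP N r 1, Fh e' * Fh e = 0 := by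
    intro e he e' he'
    rw [(hFhFh e' e).eq]
    exact hz e he e' he'
  have hFP : ∀ j, ∀ e ∈ PP N r j, F e * P j = 0 := by
    intro j e he
    exact orthc_c3 Fh (F e) e (fun a => hFFh e a) (hFe e) (L j) ((hL j e).2 he)
  have hfull : ∀ j, Full {(1 - P j) * (1 - P j)} := by
    intro j
    by_contra hcon
    have hcon2 : ¬ FullOn (((⨆ i, B i : Subalgebra ℂ R)) : Set R) {(1 - P j) * (1 - P j)} :=
      fun h => hcon h.full
    have hmem : ({(1 - P j) * (1 - P j)} : Set R) ⊆ ((⨆ i, B i : Subalgebra ℂ R) : Set R) := by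
      intro x hx
      rw [Set.mem_singleton_iff] at hx
      subst hx
      have h5 : 1 - P j ∈ ⨆ i, B i := Subalgebra.sub_mem _ (Subalgebra.one_mem _) (hPC j)
      exact Subalgebra.mul_mem _ h5 h5
    obtain ⟨M, hM, hsM, -⟩ := exists_prime (⨆ i, B i) _ hmem hcon2
    have hx : ∀ i, ∃ a b : ℤ, |a| ≤ N ∧ |b| ≤ N ∧ 7 ≤ |a - b| ∧ f i a ∉ M ∧ f i b ∉ M := by
      intro i
      by_contra hno
      push Not at hno
      obtain ⟨n, p, x, p', hp, hxx, hp', hsum⟩ := hfar i
      have hmemx : ∀ s, x s ∈ M := by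
        intro s
        obtain ⟨a, b, ha, hb, hab, q, hq, e⟩ := hxx s
        rw [e]
        by_cases hfa : f i a ∈ M
        · apply hM.right _ (hC i (hf i b))
          exact hM.right _ (hC i hq) _ hfa
        · have hfb := hno a b ha hb hab hfa
          exact hM.left _ (Subalgebra.mul_mem _ (hC i (hf i a)) (hC i hq)) _ hfb
      have hone : (1 : R) ∈ M := by
        rw [← hsum]
        apply Finset.sum_induction _ (fun y => y ∈ M)
        · exact fun a b ha hb => hM.add a ha b hb
        · exact hM.zero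
        · intro s _
          exact hM.right _ (hC i (hp' s)) _ (hM.left _ (hC i (hp s)) _ (hmemx s))
      exact hM.one hone
    choose a b ha hb hab hfa hfb using hx
    obtain ⟨e, he, hee⟩ := chain hN hr j (fun i => min (a i) (b i)) (fun i => max (a i) (b i))
      (by
        intro i
        rcases min_choice (a i) (b i) with h | h <;> rw [h]
        · exact ha i
        · exact hb i)
      (by
        intro i
        rcases max_choice (a i) (b i) with h | h <;> rw [h]
        · exact ha i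
        · exact hb i)
      (by
        intro i
        have := hab i
        rcases le_total (a i) (b i) with h | h
        · rw [min_eq_left h, max_eq_right h]
          rw [abs_of_nonpos (by linarith)] at this
          linarith
        · rw [min_eq_right h, max_eq_left h]
          rw [abs_of_nonneg (by linarith)] at this
          linarith)
    have hnot : ∀ i, f i (e i) ∉ M := by
      intro i
      have h5 : e i = a i ∨ e i = b i := by
        rcases hee i with h | h
        · rcases min_choice (a i) (b i) with h' | h'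
          · left
            rw [h, h']
          · right
            rw [h, h']
        · rcases max_choice (a i) (b i) with h' | h'
          · left
            rw [h, h']
          · right
            rw [h, h']
      rcases h5 with h5 | h5 <;> rw [h5]
      · exact hfa i
      · exact hfb i
    have hFM : F e ∈ M := by
      have h5 : F e * ((1 - P j) * (1 - P j)) = F e := by
        have h6 : F e * (1 - P j) = F e := by rw [mul_sub, mul_one, hFP j e he, sub_zero]
        rw [← mul_assoc, h6, h6]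
      rw [← h5]
      exact hM.left _ (hFC e) _ (hsM (Set.mem_singleton _))
    obtain ⟨i, hi⟩ := PrimeOn.ofFn B hB hM (fun i => f i (e i)) (fun i => hf i _) hFM
    exact hnot i hi
  refine ⟨fun k => 1 - P k.1, ?_, ?_, ?_, ?_⟩
  · show (1 - P 0) * (1 - P 1) = 0
    apply orthc_zero
    apply orthc_c2
    intro e' he'
    rw [sub_mul, one_mul, orthc_c1 Fh (Fh e') (L 0)
      (fun e he => hz e ((hL 0 e).1 he) e' ((hL 1 e').1 he')), sub_self]
  · show (1 - P 1) * (1 - P 0) = 0
    apply orthc_zero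
    apply orthc_c2
    intro e he
    rw [sub_mul, one_mul, orthc_c1 Fh (Fh e) (L 1)
      (fun e' he' => hz' e ((hL 0 e).1 he) e' ((hL 1 e').1 he')), sub_self]
  · exact hfull 0
  · exact hfull 1

theorem orth_tent_hat (N : ℕ) (a : ℤ) (t : ℝ) : tent N a t * hat N a t = tent N a t := by
  unfold tent hat
  rcases le_total (1 - |(N : ℝ) * t - a|) 0 with h | h
  · rw [max_eq_left h, zero_mul]
  · rw [max_eq_right (by linarith : (0 : ℝ) ≤ 2 - |(N : ℝ) * t - a|),
      min_eq_left (by linarith), mul_one]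

theorem orth_hat_hat (N : ℕ) (a b : ℤ) (h : 4 ≤ |a - b|) (t : ℝ) :
    hat N a t * hat N b t = 0 := by
  unfold hat
  have h1 : (4 : ℝ) ≤ |(a : ℝ) - b| := by
    have : (4 : ℤ) ≤ |a - b| := h
    exact_mod_cast this
  have h2 : |(a : ℝ) - b| ≤ |(N : ℝ) * t - a| + |(N : ℝ) * t - b| := by
    calc |(a : ℝ) - b| = |((N : ℝ) * t - b) - ((N : ℝ) * t - a)| := by congr 1; ring
      _ ≤ |(N : ℝ) * t - b| + |(N : ℝ) * t - a| := abs_sub _ _
      _ = _ := add_comm _ _
  rcases le_total 2 (|(N : ℝ) * t - a|) with h3 | h3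
  · rw [max_eq_left (by linarith : 2 - |(N : ℝ) * t - a| ≤ 0)]
    simp
  · rw [max_eq_left (by linarith : 2 - |(N : ℝ) * t - b| ≤ 0)]
    simp

theorem orth_cont_tent (N : ℕ) (a : ℤ) : Continuous (tent N a) := by
  unfold tent
  fun_prop

theorem orth_cont_hat (N : ℕ) (a : ℤ) : Continuous (hat N a) := by
  unfold hat
  fun_prop

/-- ORTH.  Copies (`HasCopies`) of the finitely many elements `tent_a(z)`, `hat_a(z)` (`|a| ≤ N`;
outside use `0`… or take all `a : ℤ`, countably many) and the elements of the finite sum; then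
`orth_core`. -/
theorem exists_orth {D : Type u} [CStarAlgebra D] (hD : HasCopies D) (z : D)
    (hz : IsSelfAdjoint z) (N : ℕ) (hN : 0 < N)
    (h : Full {x : D | ∃ a b : ℤ, |a| ≤ N ∧ |b| ≤ N ∧ ((7 : ℕ) : ℤ) ≤ |a - b| ∧
      ∃ q, x = cfc (tent N a) z * q * cfc (tent N b) z}) :
    ∃ E : Fin 2 → D, E 0 * E 1 = 0 ∧ E 1 * E 0 = 0 ∧ Full {E 0 * E 0} ∧ Full {E 1 * E 1} := by
  obtain ⟨n, p, x, p', hx, hsum⟩ := h
  choose a b ha hb hab q hq using hx
  set X : Set D := (Set.range (fun c : ℤ => cfc (tent N c) z)) ∪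
    (Set.range (fun c : ℤ => cfc (hat N c) z)) ∪ Set.range p ∪ Set.range q ∪ Set.range p' with hX
  have hXc : X.Countable := by
    rw [hX]
    exact ((((Set.countable_range _).union (Set.countable_range _)).union
      (Set.countable_range _)).union (Set.countable_range _)).union (Set.countable_range _)
  obtain ⟨θ, hθ⟩ := hD X hXc
  have hsub : X ⊆ (StarAlgebra.adjoin ℂ X : Set D) := StarAlgebra.subset_adjoin ℂ X
  have mt : ∀ c : ℤ, cfc (tent N c) z ∈ StarAlgebra.adjoin ℂ X := by
    intro c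
    apply hsub
    rw [hX]
    left; left; left; left
    exact ⟨c, rfl⟩
  have mh : ∀ c : ℤ, cfc (hat N c) z ∈ StarAlgebra.adjoin ℂ X := by
    intro c
    apply hsub
    rw [hX]
    left; left; left; right
    exact ⟨c, rfl⟩
  have mp : ∀ s, p s ∈ StarAlgebra.adjoin ℂ X := by
    intro s
    apply hsub
    rw [hX]
    left; left; right
    exact ⟨s, rfl⟩
  have mq : ∀ s, q s ∈ StarAlgebra.adjoin ℂ X := by
    intro s
    apply hsub
    rw [hX]
    left; right
    exact ⟨s, rfl⟩
  have mp' : ∀ s, p' s ∈ StarAlgebra.adjoin ℂ X := by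
    intro s
    apply hsub
    rw [hX]
    right
    exact ⟨s, rfl⟩
  have th : ∀ c : ℤ, cfc (tent N c) z * cfc (hat N c) z = cfc (tent N c) z := by
    intro c
    rw [← cfc_mul (tent N c) (hat N c) z (orth_cont_tent N c).continuousOn
      (orth_cont_hat N c).continuousOn]
    congr 1
    funext t
    exact orth_tent_hat N c t
  have hh : ∀ c d : ℤ, 4 ≤ |c - d| → cfc (hat N c) z * cfc (hat N d) z = 0 := by
    intro c d hcd
    rw [← cfc_mul (hat N c) (hat N d) z (orth_cont_hat N c).continuousOn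
      (orth_cont_hat N d).continuousOn]
    have : (fun t => hat N c t * hat N d t) = fun _ => (0 : ℝ) := by
      funext t
      exact orth_hat_hat N c d hcd t
    rw [this]
    simp
  set r : ℕ := 4 * N + 2 with hr
  refine orth_core N r hN hr (fun i => ((θ i.1 : StarAlgebra.adjoin ℂ X →⋆ₐ[ℂ] D) :
      StarAlgebra.adjoin ℂ X →ₐ[ℂ] D).range) ?_
    (fun i c => θ i.1 ⟨cfc (tent N c) z, mt c⟩) (fun i c => θ i.1 ⟨cfc (hat N c) z, mh c⟩)
    ?_ ?_ ?_ ?_ ?_ ?_ ?_
  · rintro i j hij _ ⟨s, rfl⟩ _ ⟨t, rfl⟩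
    exact hθ i.1 j.1 (fun e => hij (Fin.ext e)) s t
  · intro i c
    exact ⟨_, rfl⟩
  · intro i c
    exact ⟨_, rfl⟩
  · intro i c
    show θ i.1 _ * θ i.1 _ = θ i.1 _
    rw [← map_mul]
    congr 1
    exact Subtype.ext (th c)
  · intro i c d
    show θ i.1 _ * θ i.1 _ = θ i.1 _ * θ i.1 _
    rw [← map_mul, ← map_mul]
    congr 1
    exact Subtype.ext (cfc_commute_cfc (tent N c) (hat N d) z).eq
  · intro i c d
    show θ i.1 _ * θ i.1 _ = θ i.1 _ * θ i.1 _
    rw [← map_mul, ← map_mul]
    congr 1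
    exact Subtype.ext (cfc_commute_cfc (hat N c) (hat N d) z).eq
  · intro i c d hcd
    show θ i.1 _ * θ i.1 _ = 0
    rw [← map_mul]
    have : (⟨cfc (hat N c) z, mh c⟩ * ⟨cfc (hat N d) z, mh d⟩ : StarAlgebra.adjoin ℂ X) = 0 :=
      Subtype.ext (hh c d hcd)
    rw [this, map_zero]
  · intro i
    refine ⟨n, fun s => θ i.1 ⟨p s, mp s⟩,
      fun s => θ i.1 ⟨cfc (tent N (a s)) z, mt _⟩ * θ i.1 ⟨q s, mq s⟩ *
        θ i.1 ⟨cfc (tent N (b s)) z, mt _⟩, fun s => θ i.1 ⟨p' s, mp' s⟩, ?_, ?_, ?_, ?_⟩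
    · intro s
      exact ⟨_, rfl⟩
    · intro s
      exact ⟨a s, b s, ha s, hb s, by simpa using hab s, _, ⟨_, rfl⟩, rfl⟩
    · intro s
      exact ⟨_, rfl⟩
    · simp only [← map_mul, ← map_sum]
      have : (∑ s, (⟨p s, mp s⟩ : StarAlgebra.adjoin ℂ X) *
          (⟨cfc (tent N (a s)) z, mt _⟩ * ⟨q s, mq s⟩ * ⟨cfc (tent N (b s)) z, mt _⟩) *
            ⟨p' s, mp' s⟩) = 1 := by
        apply Subtype.ext
        rw [OneMemClass.coe_one, ← hsum]
        simp only [hq]
        push_cast
        rfl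
      rw [this, map_one]

end Vale.Agent.P101K
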