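import Vale.Agent.P101K.Defs

namespace Vale.Agent.P101K

universe u

section aux

variable {R : Type u} [Ring R]

theorem sqz_full {ι : Type} [Fintype ι] {s : Set R} (p x p' : ι → R) (hx : ∀ i, x i ∈ s)
    (h : ∑ i, p i * x i * p' i = 1) : Full s := by
  refine ⟨Fintype.card ι, p ∘ (Fintype.equivFin ι).symm, x ∘ (Fintype.equivFin ι).symm,
    p' ∘ (Fintype.equivFin ι).symm, fun i => hx _, ?_⟩
  rw [← h]
  exact Equiv.sum_comp (Fintype.equivFin ι).symm (fun i => p i * x i * p' i)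

theorem sqz_fullOn {ι : Type} [Fintype ι] {C s : Set R} (p x p' : ι → R) (hp : ∀ i, p i ∈ C)
    (hx : ∀ i, x i ∈ s) (hp' : ∀ i, p' i ∈ C) (h : ∑ i, p i * x i * p' i = 1) : FullOn C s := by
  refine ⟨Fintype.card ι, p ∘ (Fintype.equivFin ι).symm, x ∘ (Fintype.equivFin ι).symm,
    p' ∘ (Fintype.equivFin ι).symm, fun i => hp _, fun i => hx _, fun i => hp' _, ?_⟩
  rw [← h]
  exact Equiv.sum_comp (Fintype.equivFin ι).symm (fun i => p i * x i * p' i)

theorem sqz_mul : ∀ {n : ℕ} (x y : Fin n → R), (∀ i j, i ≠ j → Commute (x i) (y j)) →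
    (List.ofFn x).prod * (List.ofFn y).prod = (List.ofFn (fun i => x i * y i)).prod
  | 0, x, y, _ => by simp
  | n + 1, x, y, h => by
    have ih := sqz_mul (fun i => x i.succ) (fun i => y i.succ)
      (fun i j hij => h _ _ (fun e => hij (Fin.succ_injective _ e)))
    rw [List.ofFn_succ, List.ofFn_succ, List.ofFn_succ, List.prod_cons, List.prod_cons,
      List.prod_cons, ← ih]
    have hc : Commute ((List.ofFn (fun i => x i.succ)).prod) (y 0) := by
      apply Commute.list_prod_left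
      intro z hz
      rw [List.mem_ofFn] at hz
      obtain ⟨i, rfl⟩ := hz
      exact h _ _ (Fin.succ_ne_zero i)
    calc x 0 * (List.ofFn fun i => x i.succ).prod * (y 0 * (List.ofFn fun i => y i.succ).prod)
        = x 0 * ((List.ofFn fun i => x i.succ).prod * y 0) * (List.ofFn fun i => y i.succ).prod := by
          simp only [mul_assoc]
      _ = x 0 * (y 0 * (List.ofFn fun i => x i.succ).prod) * (List.ofFn fun i => y i.succ).prod := by
          rw [hc.eq]
      _ = _ := by simp only [mul_assoc]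

/-- products over commuting copies are full -/
theorem sqz_prod : ∀ {l : ℕ} (x : Fin l → R) (C : Fin l → Set R) (K : Submonoid R),
    (∀ t, C t ⊆ K) → (∀ t t', t ≠ t' → ∀ c ∈ C t, ∀ c' ∈ C t', Commute c c') →
    (∀ t, x t ∈ C t) → (∀ t, FullOn (C t) {x t}) → FullOn (K : Set R) {(List.ofFn x).prod}
  | 0, x, C, K, _, _, _, _ => by
    refine sqz_fullOn (ι := Unit) (fun _ => 1) (fun _ => (List.ofFn x).prod) (fun _ => 1)
      (fun _ => K.one_mem) (fun _ => rfl) (fun _ => K.one_mem) ?_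
    simp
  | l + 1, x, C, K, hK, hc, hx, hf => by
    obtain ⟨n, P, X, P', hP, hX, hP', hs⟩ := sqz_prod (fun t => x t.succ) (fun t => C t.succ)
      (K ⊓ Submonoid.centralizer (C 0))
      (by
        intro t c hcc
        refine ⟨hK _ hcc, ?_⟩
        rw [SetLike.mem_coe, Submonoid.mem_centralizer_iff]
        intro g hg
        exact (hc 0 t.succ (Fin.succ_ne_zero t).symm g hg c hcc).eq)
      (fun t t' htt => hc _ _ (fun e => htt (Fin.succ_injective _ e)))
      (fun t => hx _) (fun t => hf _)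
    obtain ⟨m, p, y, p', hp, hy, hp', hs'⟩ := hf 0
    have hX' : ∀ s, X s = (List.ofFn (fun t => x (Fin.succ t))).prod := fun s => hX s
    have hy' : ∀ i, y i = x 0 := fun i => hy i
    refine sqz_fullOn (ι := Fin m × Fin n) (fun q => p q.1 * P q.2)
      (fun _ => (List.ofFn x).prod) (fun q => P' q.2 * p' q.1)
      (fun q => K.mul_mem (hK 0 (hp q.1)) (hP q.2).1) (fun _ => rfl)
      (fun q => K.mul_mem (hP' q.2).1 (hK 0 (hp' q.1))) ?_
    rw [Fintype.sum_prod_type, ← hs']
    apply Finset.sum_congr rfl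
    intro i _
    have h1 : ∀ s, p i * P s * (List.ofFn x).prod * (P' s * p' i)
        = (p i * y i) * (P s * X s * P' s) * p' i := by
      intro s
      have h2 : P s * x 0 = x 0 * P s := by
        have := (hP s).2
        rw [SetLike.mem_coe, Submonoid.mem_centralizer_iff] at this
        exact (this (x 0) (hx 0)).symm
      rw [List.ofFn_succ, List.prod_cons, hX', hy']
      calc p i * P s * (x 0 * (List.ofFn fun t => x (Fin.succ t)).prod) * (P' s * p' i)
          = p i * (P s * x 0) * (List.ofFn fun t => x (Fin.succ t)).prod * P' s * p' i := by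
            simp only [mul_assoc]
        _ = p i * (x 0 * P s) * (List.ofFn fun t => x (Fin.succ t)).prod * P' s * p' i := by
            rw [h2]
        _ = _ := by simp only [mul_assoc]
    simp only [h1]
    rw [← Finset.sum_mul, ← Finset.mul_sum, hs, mul_one]

end aux

/-- SQZ.  `1 = (∑ α E1 E1 β)(∑ γ E0 E0 δ)` gives `1 = ∑_(j<M) α'_j (E1 β_j E0) γ_j` with finitely many
`β_j` in `D`. Take copies of all these elements; copy `0` for `E`, `β`; `l` further copies,
`2^l ≥ M`, `G_w = ∏_i E^(i)_(w_i)` (`w : Fin l → Fin 2`): `G_w G_w' = 0` for `w ≠ w'`, `Full {G_w G_w}`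
(product over commuting copies). `y = ∑_j E1^(0) β_j^(0) E0^(0) G_(w j)`: `y * y = 0` because
`E0 E1 = 0`, and `G_(w j) y = E1 β_j E0 G_(w j) G_(w j)`, so `y` is full. -/
theorem exists_sqz {D : Type u} [CStarAlgebra D] (hD : HasCopies D) (E : Fin 2 → D)
    (h01 : E 0 * E 1 = 0) (h10 : E 1 * E 0 = 0) (h0 : Full {E 0 * E 0}) (h1 : Full {E 1 * E 1}) :
    ∃ y : D, y * y = 0 ∧ Full {y} := by
  classical
  obtain ⟨n0, α0, ξ0, β0, hξ0, s0⟩ := h0
  obtain ⟨n1, α1, ξ1, β1, hξ1, s1⟩ := h1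
  have hξ0' : ∀ i, ξ0 i = E 0 * E 0 := fun i => hξ0 i
  have hξ1' : ∀ i, ξ1 i = E 1 * E 1 := fun i => hξ1 i
  simp only [hξ0'] at s0
  simp only [hξ1'] at s1
  set X : Set D := Set.range α0 ∪ Set.range β0 ∪ Set.range α1 ∪ Set.range β1 ∪ Set.range E with hX
  have hXc : X.Countable := by
    rw [hX]
    exact ((((Set.countable_range _).union (Set.countable_range _)).union
      (Set.countable_range _)).union (Set.countable_range _)).union (Set.countable_range _)
  obtain ⟨θ, hθ⟩ := hD X hXc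
  have hsub : X ⊆ (StarAlgebra.adjoin ℂ X : Set D) := StarAlgebra.subset_adjoin ℂ X
  have m1 : ∀ i, α0 i ∈ StarAlgebra.adjoin ℂ X := fun i => hsub (by
    rw [hX]; left; left; left; left; exact ⟨i, rfl⟩)
  have m2 : ∀ i, β0 i ∈ StarAlgebra.adjoin ℂ X := fun i => hsub (by
    rw [hX]; left; left; left; right; exact ⟨i, rfl⟩)
  have m3 : ∀ i, α1 i ∈ StarAlgebra.adjoin ℂ X := fun i => hsub (by
    rw [hX]; left; left; right; exact ⟨i, rfl⟩)
  have m4 : ∀ i, β1 i ∈ StarAlgebra.adjoin ℂ X := fun i => hsub (by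
    rw [hX]; left; right; exact ⟨i, rfl⟩)
  have m5 : ∀ i, E i ∈ StarAlgebra.adjoin ℂ X := fun i => hsub (by
    rw [hX]; right; exact ⟨i, rfl⟩)
  set a0 : Fin n0 → StarAlgebra.adjoin ℂ X := fun i => ⟨α0 i, m1 i⟩ with ha0
  set b0 : Fin n0 → StarAlgebra.adjoin ℂ X := fun i => ⟨β0 i, m2 i⟩ with hb0
  set a1 : Fin n1 → StarAlgebra.adjoin ℂ X := fun i => ⟨α1 i, m3 i⟩ with ha1
  set b1 : Fin n1 → StarAlgebra.adjoin ℂ X := fun i => ⟨β1 i, m4 i⟩ with hb1
  set e : Fin 2 → StarAlgebra.adjoin ℂ X := fun i => ⟨E i, m5 i⟩ with he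
  have t0 : ∑ i, a0 i * (e 0 * e 0) * b0 i = 1 := by
    apply Subtype.ext
    rw [OneMemClass.coe_one, ← s0]
    push_cast
    rfl
  have t1 : ∑ i, a1 i * (e 1 * e 1) * b1 i = 1 := by
    apply Subtype.ext
    rw [OneMemClass.coe_one, ← s1]
    push_cast
    rfl
  have e01 : e 0 * e 1 = 0 := Subtype.ext h01
  have e10 : e 1 * e 0 = 0 := Subtype.ext h10
  have ezero : ∀ i j : Fin 2, i ≠ j → e i * e j = 0 := by
    intro i j hij
    fin_cases i <;> fin_cases j
    · exact absurd rfl hij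
    · exact e01
    · exact e10
    · exact absurd rfl hij
  have efull : ∀ (k : Fin 2) (t : ℕ), FullOn (Set.range (θ t)) {θ t (e k * e k)} := by
    intro k t
    fin_cases k
    · refine ⟨n0, fun i => θ t (a0 i), fun _ => θ t (e 0 * e 0), fun i => θ t (b0 i),
        fun i => ⟨_, rfl⟩, fun i => rfl, fun i => ⟨_, rfl⟩, ?_⟩
      simp only [← map_mul, ← map_sum]
      rw [t0, map_one]
    · refine ⟨n1, fun i => θ t (a1 i), fun _ => θ t (e 1 * e 1), fun i => θ t (b1 i),
        fun i => ⟨_, rfl⟩, fun i => rfl, fun i => ⟨_, rfl⟩, ?_⟩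
      simp only [← map_mul, ← map_sum]
      rw [t1, map_one]
  let J : Type := Fin n1 × Fin n0
  set l : ℕ := Fintype.card J with hl
  let w : J → Fin l → Fin 2 := fun j t => if Fintype.equivFin J j = t then 1 else 0
  have hw : ∀ j k : J, j ≠ k → ∃ t, w j t ≠ w k t := by
    intro j k hjk
    refine ⟨Fintype.equivFin J j, ?_⟩
    show (if Fintype.equivFin J j = Fintype.equivFin J j then (1 : Fin 2) else 0)
      ≠ (if Fintype.equivFin J k = Fintype.equivFin J j then (1 : Fin 2) else 0)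
    rw [if_pos rfl, if_neg (fun h => hjk ((Fintype.equivFin J).injective h).symm)]
    decide
  set G : J → D := fun j => (List.ofFn (fun t : Fin l => θ (t.1 + 1) (e (w j t)))).prod with hG
  have hGmul : ∀ j k, G j * G k
      = (List.ofFn (fun t : Fin l => θ (t.1 + 1) (e (w j t) * e (w k t)))).prod := by
    intro j k
    show (List.ofFn (fun t : Fin l => θ (t.1 + 1) (e (w j t)))).prod *
      (List.ofFn (fun t : Fin l => θ (t.1 + 1) (e (w k t)))).prod = _
    rw [sqz_mul _ _ (fun s t hst => hθ _ _ (fun h => hst (Fin.ext (by omega))) _ _)]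
    simp only [map_mul]
  have hGG : ∀ j k, j ≠ k → G j * G k = 0 := by
    intro j k hjk
    rw [hGmul]
    obtain ⟨t, ht⟩ := hw j k hjk
    apply List.prod_eq_zero
    rw [List.mem_ofFn]
    exact ⟨t, by rw [ezero _ _ ht, map_zero]⟩
  set K : Submonoid D := Submonoid.centralizer (Set.range (θ 0)) with hKdef
  have hKmem : ∀ x, x ∈ K ↔ ∀ s, Commute (θ 0 s) x := by
    intro x
    rw [hKdef, Submonoid.mem_centralizer_iff]
    constructor
    · intro h s
      exact h _ ⟨s, rfl⟩
    · rintro h _ ⟨s, rfl⟩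
      exact (h s).eq
  have hGK : ∀ j, G j ∈ K := by
    intro j
    apply Submonoid.list_prod_mem
    intro x hx
    rw [List.mem_ofFn] at hx
    obtain ⟨t, rfl⟩ := hx
    rw [hKmem]
    intro s
    exact hθ _ _ (by omega) _ _
  have hGfull : ∀ j, FullOn (K : Set D) {G j * G j} := by
    intro j
    rw [hGmul]
    apply sqz_prod (fun t : Fin l => θ (t.1 + 1) (e (w j t) * e (w j t)))
      (fun t : Fin l => Set.range (θ (t.1 + 1))) K
    · rintro t _ ⟨s, rfl⟩
      rw [SetLike.mem_coe, hKmem]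
      intro s'
      exact hθ _ _ (by omega) _ _
    · rintro t t' htt _ ⟨s, rfl⟩ _ ⟨s', rfl⟩
      exact hθ _ _ (fun h => htt (Fin.ext (by omega))) _ _
    · intro t
      exact ⟨_, rfl⟩
    · intro t
      exact efull _ _
  choose n P Y P' hP hY hP' hsum using hGfull
  have hY' : ∀ j s, Y j s = G j * G j := fun j s => hY j s
  set c : J → D := fun j => θ 0 (e 1 * b1 j.1 * a0 j.2 * e 0) with hc
  set y : D := ∑ j, c j * G j with hy
  have hcc : ∀ j k, c j * c k = 0 := by
    intro j k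
    show θ 0 _ * θ 0 _ = 0
    rw [← map_mul]
    have : e 1 * b1 j.1 * a0 j.2 * e 0 * (e 1 * b1 k.1 * a0 k.2 * e 0) = 0 := by
      calc e 1 * b1 j.1 * a0 j.2 * e 0 * (e 1 * b1 k.1 * a0 k.2 * e 0)
          = e 1 * b1 j.1 * a0 j.2 * (e 0 * e 1) * b1 k.1 * a0 k.2 * e 0 := by
            simp only [mul_assoc]
        _ = 0 := by rw [e01]; simp
    rw [this, map_zero]
  have hcG : ∀ j k, G j * c k = c k * G j := by
    intro j k
    exact (((hKmem _).1 (hGK j)) _).symm.eq
  have hGy : ∀ j, G j * y = c j * (G j * G j) := by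
    intro j
    rw [hy, Finset.mul_sum, Finset.sum_eq_single j]
    · rw [← mul_assoc, hcG, mul_assoc]
    · intro k _ hkj
      rw [← mul_assoc, hcG, mul_assoc, hGG j k hkj.symm, mul_zero]
    · intro h
      exact absurd (Finset.mem_univ j) h
  refine ⟨y, ?_, ?_⟩
  · have : ∀ j, c j * G j * y = 0 := by
      intro j
      rw [mul_assoc, hGy, ← mul_assoc, hcc, zero_mul]
    calc y * y = (∑ j, c j * G j) * y := by rw [← hy]
      _ = ∑ j, c j * G j * y := Finset.sum_mul _ _ _
      _ = 0 := Finset.sum_eq_zero (fun j _ => this j)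
  · refine sqz_full (ι := (j : J) × Fin (n j))
      (fun q => θ 0 (a1 q.1.1 * e 1) * P q.1 q.2 * G q.1) (fun _ => y)
      (fun q => P' q.1 q.2 * θ 0 (e 0 * b0 q.1.2)) (fun _ => rfl) ?_
    rw [Fintype.sum_sigma]
    have h3 : ∀ (j : J) (s : Fin (n j)),
        θ 0 (a1 j.1 * e 1) * P j s * G j * y * (P' j s * θ 0 (e 0 * b0 j.2))
          = (θ 0 (a1 j.1 * e 1) * c j) * (P j s * Y j s * P' j s) * θ 0 (e 0 * b0 j.2) := by
      intro j s
      have h4 : P j s * c j = c j * P j s := (((hKmem _).1 (hP j s)) _).symm.eq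
      rw [hY']
      calc θ 0 (a1 j.1 * e 1) * P j s * G j * y * (P' j s * θ 0 (e 0 * b0 j.2))
          = θ 0 (a1 j.1 * e 1) * P j s * (G j * y) * P' j s * θ 0 (e 0 * b0 j.2) := by
            simp only [mul_assoc]
        _ = θ 0 (a1 j.1 * e 1) * (P j s * c j) * (G j * G j) * P' j s * θ 0 (e 0 * b0 j.2) := by
            rw [hGy]
            simp only [mul_assoc]
        _ = θ 0 (a1 j.1 * e 1) * (c j * P j s) * (G j * G j) * P' j s * θ 0 (e 0 * b0 j.2) := by
            rw [h4]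
        _ = _ := by simp only [mul_assoc]
    have h5 : ∀ j : J, ∑ s, θ 0 (a1 j.1 * e 1) * P j s * G j * y * (P' j s * θ 0 (e 0 * b0 j.2))
        = θ 0 ((a1 j.1 * (e 1 * e 1) * b1 j.1) * (a0 j.2 * (e 0 * e 0) * b0 j.2)) := by
      intro j
      simp only [h3]
      rw [← Finset.sum_mul, ← Finset.mul_sum, hsum, mul_one]
      show θ 0 (a1 j.1 * e 1) * θ 0 (e 1 * b1 j.1 * a0 j.2 * e 0) * θ 0 (e 0 * b0 j.2) = _
      rw [← map_mul, ← map_mul]
      congr 1
      simp only [mul_assoc]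
    calc ∑ j : J, ∑ s, θ 0 (a1 j.1 * e 1) * P j s * G j * y * (P' j s * θ 0 (e 0 * b0 j.2))
        = ∑ j : J, θ 0 ((a1 j.1 * (e 1 * e 1) * b1 j.1) * (a0 j.2 * (e 0 * e 0) * b0 j.2)) :=
          Finset.sum_congr rfl (fun j _ => h5 j)
      _ = θ 0 (∑ j : J, (a1 j.1 * (e 1 * e 1) * b1 j.1) * (a0 j.2 * (e 0 * e 0) * b0 j.2)) := by
          rw [map_sum]
      _ = θ 0 ((∑ i, a1 i * (e 1 * e 1) * b1 i) * (∑ i, a0 i * (e 0 * e 0) * b0 i)) := by
          congr 1
          rw [Finset.sum_mul_sum, ← Fintype.sum_prod_type']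
      _ = 1 := by rw [t0, t1, mul_one, map_one]

end Vale.Agent.P101K
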