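import Vale.Agent.P101K.Loc
import Vale.Agent.P101K.Prime

namespace Vale.Agent.P101K

universe u

/-- CLOS.  For every set `s` with `¬ Full s` there is a PRIME ideal of `D` containing `s` which is
norm closed (a maximal proper two-sided ideal: its closure is still proper, `far_one`). -/
theorem exists_prime_closed {D : Type u} [CStarAlgebra D] (s : Set D) (h : ¬ Full s) :
    ∃ M : Set D, PrimeOn ⊤ M ∧ IsClosed M ∧ s ⊆ M := by
  obtain ⟨M, hM, hs, hmax⟩ := exists_prime (⊤ : Subalgebra ℂ D) s (fun x _ => trivial)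
    (fun hf => h hf.full)
  refine ⟨M, hM, ?_, hs⟩
  have hadd : ∀ x ∈ closure M, ∀ y ∈ closure M, x + y ∈ closure M := fun x hx y hy =>
    map_mem_closure₂ continuous_add hx hy (fun a ha b hb => hM.add a ha b hb)
  have hmul : ∀ a b : D, ∀ x ∈ closure M, a * x * b ∈ closure M := fun a b x hx =>
    map_mem_closure (f := fun x => a * x * b)
      ((continuous_const.mul continuous_id).mul continuous_const) hx
      (fun y hy => hM.right b trivial _ (hM.left a trivial y hy))
  rw [← closure_subset_iff_isClosed]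
  intro x hx
  by_contra hxM
  obtain ⟨n, p, z, p', -, hz, -, e⟩ := hmax x trivial hxM
  have h1 : (1 : D) ∈ closure M := by
    rw [← e]
    refine Finset.sum_induction _ (fun y => y ∈ closure M) (fun a b ha hb => hadd a ha b hb)
      (subset_closure hM.zero) ?_
    intro i _
    apply hmul
    rcases hz i with hh | hh
    · rw [hh]
      exact hx
    · exact subset_closure hh
  rw [Metric.mem_closure_iff] at h1
  obtain ⟨m, hm, hd⟩ := h1 1 one_pos
  rw [dist_eq_norm] at hd
  exact absurd (PrimeOn.far_one M hM m hm) (not_le.2 hd)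

private theorem wit_tent_continuous (N : ℕ) (a : ℤ) : Continuous (tent N a) := by
  unfold tent
  fun_prop

private theorem wit_tent_mul (N : ℕ) (a b : ℤ) (hab : (2 : ℤ) ≤ |a - b|) (t : ℝ) :
    tent N a t * tent N b t = 0 := by
  unfold tent
  by_cases h1 : |(N : ℝ) * t - a| < 1
  · by_cases h2 : |(N : ℝ) * t - b| < 1
    · exfalso
      have h3 : (2 : ℝ) ≤ |(a : ℝ) - b| := by exact_mod_cast hab
      have h4 : |(a : ℝ) - b| ≤ |(N : ℝ) * t - b| + |(N : ℝ) * t - a| := by
        have : (a : ℝ) - b = ((N : ℝ) * t - b) - ((N : ℝ) * t - a) := by ring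
        rw [this]
        exact abs_sub _ _
      linarith
    · have : max 0 (1 - |(N : ℝ) * t - b|) = 0 := max_eq_left (by linarith [not_lt.1 h2])
      rw [this, mul_zero]
  · have : max 0 (1 - |(N : ℝ) * t - a|) = 0 := max_eq_left (by linarith [not_lt.1 h1])
    rw [this, zero_mul]

private theorem wit_tent_cfc_mul {D : Type u} [CStarAlgebra D] (N : ℕ) (a b : ℤ)
    (hab : (2 : ℤ) ≤ |a - b|) (z : D) :
    cfc (tent N a) z * cfc (tent N b) z = 0 := by
  rw [← cfc_mul (tent N a) (tent N b) z (wit_tent_continuous N a).continuousOn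
    (wit_tent_continuous N b).continuousOn]
  have : (fun t => tent N a t * tent N b t) = fun _ => (0 : ℝ) := by
    funext t
    exact wit_tent_mul N a b hab t
  rw [this]
  exact cfc_const_zero ℝ z

private theorem wit_smul {D : Type u} [CStarAlgebra D] {M : Set D} (hM : PrimeOn ⊤ M) (c : ℂ)
    {x : D} (hx : x ∈ M) : c • x ∈ M := by
  have := hM.left (algebraMap ℂ D c) trivial x hx
  rwa [← Algebra.smul_def] at this

private theorem wit_neg {D : Type u} [CStarAlgebra D] {M : Set D} (hM : PrimeOn ⊤ M)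
    {x : D} (hx : x ∈ M) : -x ∈ M := by
  have := wit_smul hM (-1) hx
  simpa using this

private theorem wit_sub {D : Type u} [CStarAlgebra D] {M : Set D} (hM : PrimeOn ⊤ M)
    {x y : D} (hx : x ∈ M) (hy : y ∈ M) : x - y ∈ M := by
  rw [sub_eq_add_neg]
  exact hM.add _ hx _ (wit_neg hM hy)

private theorem wit_uniq {D : Type u} [CStarAlgebra D] {M : Set D} (hM : PrimeOn ⊤ M)
    {x : D} {l m : ℂ} (hl : x - algebraMap ℂ D l ∈ M) (hm : x - algebraMap ℂ D m ∈ M) :
    l = m := by
  by_contra hne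
  have h1 : algebraMap ℂ D (l - m) ∈ M := by
    have := wit_sub hM hm hl
    have e : x - algebraMap ℂ D m - (x - algebraMap ℂ D l) = algebraMap ℂ D (l - m) := by
      rw [map_sub]; abel
    rwa [e] at this
  have h2 := wit_smul hM (l - m)⁻¹ h1
  rw [Algebra.smul_def, ← map_mul, inv_mul_cancel₀ (sub_ne_zero.2 hne), map_one] at h2
  exact hM.one h2

private theorem wit_unit {D : Type u} [CStarAlgebra D] {M : Set D} (hM : PrimeOn ⊤ M)
    (hcl : IsClosed M) (hc : ∀ c d : D, IsSelfAdjoint c → c * d - d * c ∈ M)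
    (z : D) (hz : IsSelfAdjoint z) (hz1 : ‖z‖ ≤ 1) :
    ∃ r : ℝ, z - algebraMap ℂ D (r : ℂ) ∈ M := by
  have key : ∀ N : ℕ, ∃ r : ℝ, r ∈ Set.Icc (-1 : ℝ) 1 ∧ ∃ m ∈ M,
      ‖z - algebraMap ℂ D (r : ℂ) - m‖ ≤ 3 / ((N : ℝ) + 1) := by
    intro N
    obtain ⟨a, ha, m, hm, hb⟩ := loc M hM (N + 1) (Nat.succ_pos N) 2 z hz hz1 (by
      intro a b _ _ hab
      apply hM.prime _ trivial _ trivial
      intro c _
      have e : cfc (tent (N + 1) a) z * c * cfc (tent (N + 1) b) z
          = (cfc (tent (N + 1) a) z * c - c * cfc (tent (N + 1) a) z)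
            * cfc (tent (N + 1) b) z := by
        rw [sub_mul, mul_assoc c, wit_tent_cfc_mul (N + 1) a b (by exact_mod_cast hab) z,
          mul_zero, sub_zero]
      rw [e]
      exact hM.right _ trivial _ (hc _ _ (cfc_predicate (tent (N + 1) a) z)))
    have hN0 : (0 : ℝ) < (N : ℝ) + 1 := by positivity
    refine ⟨(a : ℝ) / ((N : ℝ) + 1), ?_, m, hm, ?_⟩
    · have h1 : |(a : ℝ)| ≤ (N : ℝ) + 1 := by
        have : |a| ≤ (N : ℤ) + 1 := by exact_mod_cast ha
        exact_mod_cast this
      rw [Set.mem_Icc, ← abs_le, abs_div, abs_of_pos hN0]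
      exact (div_le_one hN0).2 h1
    · have e1 : ((((a : ℝ) / ((N : ℝ) + 1) : ℝ)) : ℂ) = (a : ℂ) / ((N + 1 : ℕ) : ℂ) := by
        push_cast; ring
      rw [e1]
      refine hb.trans (le_of_eq ?_)
      push_cast
      norm_num
  choose r hr m hm hb using key
  obtain ⟨r0, -, φ, hφ, hlim⟩ := isCompact_Icc.tendsto_subseq hr
  refine ⟨r0, ?_⟩
  have hten : Filter.Tendsto (fun k => m (φ k)) Filter.atTop
      (nhds (z - algebraMap ℂ D (r0 : ℂ))) := by
    rw [tendsto_iff_norm_sub_tendsto_zero]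
    have hbd : ∀ k, ‖m (φ k) - (z - algebraMap ℂ D (r0 : ℂ))‖
        ≤ 3 / (((φ k : ℕ) : ℝ) + 1) + |r (φ k) - r0| * ‖(1 : D)‖ := by
      intro k
      have e : m (φ k) - (z - algebraMap ℂ D (r0 : ℂ))
          = -(z - algebraMap ℂ D ((r (φ k) : ℝ) : ℂ) - m (φ k))
            - algebraMap ℂ D (((r (φ k) - r0 : ℝ)) : ℂ) := by
        rw [Complex.ofReal_sub, (algebraMap ℂ D).map_sub]
        abel
      rw [e]
      refine (norm_sub_le _ _).trans ?_
      rw [norm_neg]
      refine add_le_add (hb _) (le_of_eq ?_)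
      rw [norm_algebraMap, Complex.norm_real, Real.norm_eq_abs]
    refine squeeze_zero (fun _ => norm_nonneg _) hbd ?_
    have t1 : Filter.Tendsto (fun k => 3 / (((φ k : ℕ) : ℝ) + 1)) Filter.atTop (nhds 0) := by
      have h0 : Filter.Tendsto (fun n : ℕ => (3 : ℝ) / ((n : ℝ) + 1)) Filter.atTop (nhds 0) := by
        have := (tendsto_one_div_add_atTop_nhds_zero_nat (𝕜 := ℝ)).const_mul 3
        simpa [div_eq_mul_inv] using this
      exact h0.comp hφ.tendsto_atTop
    have t2 : Filter.Tendsto (fun k => |r (φ k) - r0| * ‖(1 : D)‖) Filter.atTop (nhds 0) := by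
      have h1 : Filter.Tendsto (fun k => r (φ k) - r0) Filter.atTop (nhds 0) := by
        have := hlim.sub_const r0
        simpa using this
      have := (h1.abs).mul_const ‖(1 : D)‖
      simpa using this
    simpa using t1.add t2
  exact hcl.mem_of_tendsto hten (Filter.Eventually.of_forall fun k => hm _)

private theorem wit_real {D : Type u} [CStarAlgebra D] {M : Set D} (hM : PrimeOn ⊤ M)
    (hcl : IsClosed M) (hc : ∀ c d : D, IsSelfAdjoint c → c * d - d * c ∈ M)
    (z : D) (hz : IsSelfAdjoint z) :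
    ∃ r : ℝ, z - algebraMap ℂ D (r : ℂ) ∈ M := by
  have hpos : (0 : ℝ) < ‖z‖ + 1 := by positivity
  obtain ⟨r, hr⟩ := wit_unit hM hcl hc ((‖z‖ + 1)⁻¹ • z) ((IsSelfAdjoint.all _).smul hz) (by
    rw [norm_smul, norm_inv, Real.norm_eq_abs, abs_of_pos hpos, inv_mul_le_iff₀ hpos]
    linarith)
  refine ⟨(‖z‖ + 1) * r, ?_⟩
  have h1 := wit_smul hM (((‖z‖ + 1 : ℝ)) : ℂ) hr
  have e : (((‖z‖ + 1 : ℝ)) : ℂ) • ((‖z‖ + 1)⁻¹ • z - algebraMap ℂ D (r : ℂ))
      = z - algebraMap ℂ D (((‖z‖ + 1) * r : ℝ) : ℂ) := by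
    rw [smul_sub, Algebra.smul_def _ (algebraMap ℂ D (r : ℂ)), ← map_mul]
    congr 1
    · rw [Complex.coe_smul, smul_smul, mul_inv_cancel₀ hpos.ne', one_smul]
    · push_cast; rfl
  rwa [e] at h1

private theorem wit_total {D : Type u} [CStarAlgebra D] {M : Set D} (hM : PrimeOn ⊤ M)
    (hcl : IsClosed M) (hc : ∀ c d : D, IsSelfAdjoint c → c * d - d * c ∈ M)
    (x : D) : ∃ l : ℂ, x - algebraMap ℂ D l ∈ M ∧ star x - algebraMap ℂ D (star l) ∈ M := by
  obtain ⟨r, hr⟩ := wit_real hM hcl hc (realPart x : D) (realPart x).2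
  obtain ⟨s, hs⟩ := wit_real hM hcl hc (imaginaryPart x : D) (imaginaryPart x).2
  have hx := realPart_add_I_smul_imaginaryPart x
  have hsx : star x = (realPart x : D) - Complex.I • (imaginaryPart x : D) := by
    conv_lhs => rw [← hx]
    rw [star_add, star_smul, (realPart x).2.star_eq, (imaginaryPart x).2.star_eq]
    simp [sub_eq_add_neg]
  refine ⟨(r : ℂ) + Complex.I * s, ?_, ?_⟩
  · have := hM.add _ hr _ (wit_smul hM Complex.I hs)
    have e : (realPart x : D) - algebraMap ℂ D (r : ℂ)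
        + Complex.I • ((imaginaryPart x : D) - algebraMap ℂ D (s : ℂ))
        = x - algebraMap ℂ D ((r : ℂ) + Complex.I * s) := by
      rw [smul_sub, Algebra.smul_def _ (algebraMap ℂ D (s : ℂ)), ← map_mul, map_add]
      conv_rhs => rw [← hx]
      abel
    rwa [e] at this
  · have := wit_sub hM hr (wit_smul hM Complex.I hs)
    have e : (realPart x : D) - algebraMap ℂ D (r : ℂ)
        - Complex.I • ((imaginaryPart x : D) - algebraMap ℂ D (s : ℂ))
        = star x - algebraMap ℂ D (star ((r : ℂ) + Complex.I * s)) := by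
      have e2 : star ((r : ℂ) + Complex.I * s) = (r : ℂ) - Complex.I * s := by
        simp [sub_eq_add_neg]
      rw [e2, smul_sub, Algebra.smul_def _ (algebraMap ℂ D (s : ℂ)), ← map_mul, map_sub, hsx]
      abel
    rwa [e] at this

/-- WIT.  No characters: `1` is in the ideal generated by the commutators with self-adjoint
elements. Otherwise take `M` as in `exists_prime_closed`; all commutators are in `M`, so
`tent_a(z) tent_b(z) = 0` for `|a - b| ≥ 2` and primeness give the hypothesis of `loc` with `κ = 2`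
for all `N`: every self-adjoint `z` (first `‖z‖ ≤ 1`, then scale) has a (unique) real `λ` with
`z - λ ∈ M` (`M` closed, Cauchy); so `D = ℂ 1 + M` and `x ↦ λ` is a character (`D →⋆ₐ[ℂ] ℂ`). -/
theorem exists_witness {D : Type u} [CStarAlgebra D] [Nontrivial D]
    (h : IsEmpty (D →⋆ₐ[ℂ] ℂ)) :
    Full {x : D | ∃ c d : D, IsSelfAdjoint c ∧ x = c * d - d * c} := by
  by_contra hnot
  obtain ⟨M, hM, hcl, hs⟩ := exists_prime_closed _ hnot
  have hc : ∀ c d : D, IsSelfAdjoint c → c * d - d * c ∈ M :=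
    fun c d hcs => hs ⟨c, d, hcs, rfl⟩
  have htot := wit_total hM hcl hc
  choose f hf hfs using htot
  have key : ∀ (x : D) (l : ℂ), x - algebraMap ℂ D l ∈ M → f x = l :=
    fun x l hl => wit_uniq hM (hf x) hl
  refine h.elim
    { toFun := f
      map_one' := key _ _ (by simpa using hM.zero)
      map_mul' := fun x y => key _ _ ?_
      map_zero' := key _ _ (by simpa using hM.zero)
      map_add' := fun x y => key _ _ ?_
      commutes' := fun l => key _ _ (by simpa using hM.zero)
      map_star' := fun x => key _ _ (hfs x) }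
  · have h1 := hM.right y trivial _ (hf x)
    have h2 := hM.left (algebraMap ℂ D (f x)) trivial _ (hf y)
    have h3 := hM.add _ h1 _ h2
    have e : (x - algebraMap ℂ D (f x)) * y + algebraMap ℂ D (f x) * (y - algebraMap ℂ D (f y))
        = x * y - algebraMap ℂ D (f x * f y) := by
      rw [map_mul, sub_mul, mul_sub]
      abel
    rwa [e] at h3
  · have h3 := hM.add _ (hf x) _ (hf y)
    have e : (x - algebraMap ℂ D (f x)) + (y - algebraMap ℂ D (f y))
        = x + y - algebraMap ℂ D (f x + f y) := by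
      rw [map_add]
      abel
    rwa [e] at h3

end Vale.Agent.P101K
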