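import Vale.Agent.P101K.Prime
import Vale.Agent.P101K.PrimeC

namespace Vale.Agent.P101K

universe u

/-- VAND.  Vandermonde (`Matrix.det_vandermonde_ne_zero_iff`). -/
theorem vandermonde_mem {V : Type u} [AddCommGroup V] [Module ℂ V] (M : Submodule ℂ V) (m : ℕ)
    (x : Fin m → V) (t : Fin m → ℂ) (ht : Function.Injective t)
    (h : ∀ a, ∑ j : Fin m, t a ^ (j : ℕ) • x j ∈ M) : ∀ j, x j ∈ M := by
  intro j
  have hdet : IsUnit (Matrix.vandermonde t).det :=
    isUnit_iff_ne_zero.2 (Matrix.det_vandermonde_ne_zero_iff.2 ht)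
  have hinv := Matrix.nonsing_inv_mul (Matrix.vandermonde t) hdet
  have h1 : x j = ∑ a, (Matrix.vandermonde t)⁻¹ j a • ∑ k : Fin m, t a ^ (k : ℕ) • x k := by
    simp only [Finset.smul_sum, smul_smul]
    rw [Finset.sum_comm]
    simp only [← Finset.sum_smul]
    have h2 : ∀ k : Fin m, ∑ a, (Matrix.vandermonde t)⁻¹ j a * t a ^ (k : ℕ) =
        (1 : Matrix (Fin m) (Fin m) ℂ) j k := by
      intro k
      rw [← hinv, Matrix.mul_apply]
      rfl
    simp only [h2, Matrix.one_apply, ite_smul, one_smul, zero_smul, Finset.sum_ite_eq,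
      Finset.mem_univ, if_true]
  rw [h1]
  exact Submodule.sum_mem _ fun a _ => Submodule.smul_mem _ _ (h a)

/-- MANY.  `2m(2m-1)/2 > 2m(m-1)` pairs, so some `i` wins against `m` others. -/
theorem exists_many (m : ℕ) (hm : 0 < m) (P : Fin (2 * m) → Fin (2 * m) → Prop)
    (h : ∀ i j, i ≠ j → P i j ∨ P j i) :
    ∃ i, ∃ f : Fin m → Fin (2 * m), Function.Injective f ∧ ∀ a, f a ≠ i ∧ P i (f a) := by
  classical
  let S : Fin (2 * m) → Finset (Fin (2 * m)) := fun i =>
    Finset.univ.filter fun j => j ≠ i ∧ P i j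
  have hS : ∃ i, m ≤ (S i).card := by
    by_contra hcon
    push Not at hcon
    have h1 : ∑ i, (S i).card ≤ ∑ _i : Fin (2 * m), (m - 1) :=
      Finset.sum_le_sum fun i _ => by
        have := hcon i
        omega
    rw [Finset.sum_const, Finset.card_univ, Fintype.card_fin, smul_eq_mul] at h1
    have h2 : ∀ i, (S i).card = ∑ j, if j ≠ i ∧ P i j then 1 else 0 := fun i =>
      Finset.card_filter _ _
    have h3 : ∑ i, (S i).card = ∑ i, ∑ j, if i ≠ j ∧ P j i then 1 else 0 := by
      rw [Finset.sum_comm]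
      exact Finset.sum_congr rfl fun i _ => h2 i
    have h4 : ∑ i : Fin (2 * m), ∑ j : Fin (2 * m), (if j ≠ i then 1 else 0) ≤
        ∑ i, (S i).card + ∑ i, (S i).card := by
      nth_rewrite 2 [h3]
      rw [← Finset.sum_add_distrib]
      refine Finset.sum_le_sum fun i _ => ?_
      rw [h2, ← Finset.sum_add_distrib]
      refine Finset.sum_le_sum fun j _ => ?_
      by_cases hij : j ≠ i
      · rcases h i j hij.symm with h5 | h5
        · rw [if_pos hij, if_pos ⟨hij, h5⟩]
          exact Nat.le_add_right _ _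
        · rw [if_pos hij, if_pos (c := i ≠ j ∧ P j i) ⟨hij.symm, h5⟩]
          exact Nat.le_add_left _ _
      · rw [if_neg hij]
        exact Nat.zero_le _
    have h5 : ∀ i : Fin (2 * m), ∑ j : Fin (2 * m), (if j ≠ i then 1 else 0) = 2 * m - 1 := by
      intro i
      rw [← Finset.card_filter, Finset.filter_ne', Finset.card_erase_of_mem (Finset.mem_univ i),
        Finset.card_univ, Fintype.card_fin]
    rw [Finset.sum_congr rfl fun i _ => h5 i, Finset.sum_const, Finset.card_univ,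
      Fintype.card_fin, smul_eq_mul] at h4
    obtain ⟨k, rfl⟩ := Nat.exists_eq_add_of_le' hm
    have e1 : 2 * (k + 1) - 1 = 2 * k + 1 := by omega
    have e2 : k + 1 - 1 = k := by omega
    rw [e1] at h4
    rw [e2] at h1
    nlinarith
  obtain ⟨i, hi⟩ := hS
  have hc : Fintype.card (Fin m) ≤ Fintype.card (S i) := by
    rw [Fintype.card_fin, Fintype.card_coe]
    exact hi
  obtain ⟨e⟩ := Function.Embedding.nonempty_of_card_le hc
  refine ⟨i, fun a => (e a).1, fun a b hab => e.injective (Subtype.ext hab), fun a => ?_⟩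
  exact (Finset.mem_filter.1 (e a).2).2

/-- helper for `z_double_comm` -/
theorem zcomm_sum {R : Type u} [Ring R] {k : ℕ} (f : Fin k → Fin k → R)
    (s : Fin k → Finset (Fin k)) (c d : R) :
    ((∑ i, ∑ j ∈ s i, f i j) * c - c * ∑ i, ∑ j ∈ s i, f i j) * d
      - d * ((∑ i, ∑ j ∈ s i, f i j) * c - c * ∑ i, ∑ j ∈ s i, f i j)
      = ∑ i, ∑ j ∈ s i, ((f i j * c - c * f i j) * d - d * (f i j * c - c * f i j)) := by
  simp only [Finset.sum_mul, Finset.mul_sum, ← Finset.sum_sub_distrib]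

/-- ZCOMM.  Only the term of the pair `{a, b}` survives the double commutator. -/
theorem z_double_comm {R : Type u} [Ring R] {k : ℕ} (g : Fin k → Fin k → R) (a b : Fin k)
    (hab : a ≠ b) (c d : R) (hg : ∀ i j i' j', i ≠ i' → Commute (g i j) (g i' j'))
    (h1 : ∀ i j, i ≠ a → Commute (g i j) c) (h2 : ∀ i j, i ≠ b → Commute (g i j) d)
    (hcd : Commute c d) :
    ((∑ i, ∑ j ∈ Finset.univ.filter (fun j => i < j), g i j * g j i) * c
        - c * ∑ i, ∑ j ∈ Finset.univ.filter (fun j => i < j), g i j * g j i) * d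
      - d * ((∑ i, ∑ j ∈ Finset.univ.filter (fun j => i < j), g i j * g j i) * c
        - c * ∑ i, ∑ j ∈ Finset.univ.filter (fun j => i < j), g i j * g j i)
      = (g a b * c - c * g a b) * (g b a * d - d * g b a) := by
  rw [zcomm_sum (fun i j => g i j * g j i)]
  have hz1 : ∀ i j, i ≠ a → j ≠ a →
      ((g i j * g j i) * c - c * (g i j * g j i)) * d
        - d * ((g i j * g j i) * c - c * (g i j * g j i)) = 0 := by
    intro i j hi hj
    have hc : Commute (g i j * g j i) c := (h1 i j hi).mul_left (h1 j i hj)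
    rw [hc.eq, sub_self, zero_mul, mul_zero, sub_self]
  have hz2 : ∀ i j, i ≠ b → j ≠ b →
      ((g i j * g j i) * c - c * (g i j * g j i)) * d
        - d * ((g i j * g j i) * c - c * (g i j * g j i)) = 0 := by
    intro i j hi hj
    have hd : Commute (g i j * g j i) d := (h2 i j hi).mul_left (h2 j i hj)
    have hx : Commute ((g i j * g j i) * c - c * (g i j * g j i)) d :=
      (hd.mul_left hcd).sub_left (hcd.mul_left hd)
    rw [hx.eq, sub_self]
  have hab' : ((g a b * g b a) * c - c * (g a b * g b a)) * d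
        - d * ((g a b * g b a) * c - c * (g a b * g b a))
        = (g a b * c - c * g a b) * (g b a * d - d * g b a) := by
    have e1 : g b a * c = c * g b a := (h1 b a hab.symm).eq
    have e2 : Commute (g a b) d := h2 a b hab
    have e3 : (g a b * g b a) * c - c * (g a b * g b a) = (g a b * c - c * g a b) * g b a := by
      rw [mul_assoc, e1, sub_mul, mul_assoc, mul_assoc]
    have e4 : Commute (g a b * c - c * g a b) d :=
      (e2.mul_left hcd).sub_left (hcd.mul_left e2)
    rw [e3, mul_sub, ← mul_assoc d, ← e4.eq, mul_assoc, mul_assoc]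
  have hba' : ((g b a * g a b) * c - c * (g b a * g a b)) * d
        - d * ((g b a * g a b) * c - c * (g b a * g a b))
        = (g a b * c - c * g a b) * (g b a * d - d * g b a) := by
    rw [(hg b a a b hab.symm).eq]
    exact hab'
  have hvan : ∀ i j : Fin k, i ≠ j → ¬ (i = a ∧ j = b) → ¬ (i = b ∧ j = a) →
      ((g i j * g j i) * c - c * (g i j * g j i)) * d
        - d * ((g i j * g j i) * c - c * (g i j * g j i)) = 0 := by
    intro i j hij n1 n2
    by_cases hia : i = a
    · have hjb : j ≠ b := fun h => n1 ⟨hia, h⟩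
      exact hz2 i j (by rw [hia]; exact hab) hjb
    · by_cases hja : j = a
      · have hib : i ≠ b := fun h => n2 ⟨h, hja⟩
        exact hz2 i j hib (by rw [hja]; exact hab)
      · exact hz1 i j hia hja
  rcases lt_or_gt_of_ne hab with hlt | hlt
  · rw [Finset.sum_eq_single a, Finset.sum_eq_single b]
    · exact hab'
    · intro j hj hjb
      rw [Finset.mem_filter] at hj
      exact hvan a j hj.2.ne (fun h => hjb h.2) (fun h => hab h.1)
    · intro h
      exact absurd (Finset.mem_filter.mpr ⟨Finset.mem_univ b, hlt⟩) h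
    · intro i _ hia
      refine Finset.sum_eq_zero fun j hj => ?_
      rw [Finset.mem_filter] at hj
      refine hvan i j hj.2.ne (fun h => hia h.1) (fun h => ?_)
      have h3 := hj.2
      rw [h.1, h.2] at h3
      exact absurd h3 (not_lt.mpr hlt.le)
    · intro h
      exact absurd (Finset.mem_univ a) h
  · rw [Finset.sum_eq_single b, Finset.sum_eq_single a]
    · exact hba'
    · intro j hj hja
      rw [Finset.mem_filter] at hj
      exact hvan b j hj.2.ne (fun h => hab h.1.symm) (fun h => hja h.2)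
    · intro h
      exact absurd (Finset.mem_filter.mpr ⟨Finset.mem_univ a, hlt⟩) h
    · intro i _ hib
      refine Finset.sum_eq_zero fun j hj => ?_
      rw [Finset.mem_filter] at hj
      refine hvan i j hj.2.ne (fun h => ?_) (fun h => hib h.1)
      have h3 := hj.2
      rw [h.1, h.2] at h3
      exact absurd h3 (not_lt.mpr hlt.le)
    · intro h
      exact absurd (Finset.mem_univ b) h

/-- the quadratic element `z = ∑_(i<j) g i j * g j i`, `g i j = ∑_l (j+1)^l • c i l` -/
noncomputable def zed {R : Type u} [Ring R] [Algebra ℂ R] (m : ℕ) (c : Fin (2 * m) → Fin m → R) :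
    R :=
  ∑ i : Fin (2 * m), ∑ j ∈ Finset.univ.filter (fun j : Fin (2 * m) => i < j),
    (∑ l : Fin m, (((j.1 : ℕ) : ℂ) + 1) ^ (l : ℕ) • c i l)
      * (∑ l : Fin m, (((i.1 : ℕ) : ℂ) + 1) ^ (l : ℕ) • c j l)

/-- a prime ideal as a complex subspace -/
def zcoreSub {R : Type u} [Ring R] [Algebra ℂ R] {C : Subalgebra ℂ R} {M : Set R}
    (hM : PrimeOn C M) : Submodule ℂ R where
  carrier := M
  add_mem' := fun {x y} hx hy => hM.add x hx y hy
  zero_mem' := hM.zero
  smul_mem' := fun c x hx => by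
    rw [Algebra.smul_def]
    exact hM.left _ (C.algebraMap_mem c) x hx

/-- ZCORE.  The ring version.
If not `FullOn (⨆ B)` for the commutators `z q - q z`, `q ∈ ⨆ B`, take `M` (`exists_prime`); by
`z_double_comm` and `PrimeOn.comm`, for `i ≠ j` either all `[g i j, B i] ⊆ M` or all
`[g j i, B j] ⊆ M`; `exists_many` and `vandermonde_mem` give `i` with `[c i l, d] ∈ M` for all `l`,
`d ∈ B i`, contradicting `hfull`. -/
theorem z_core {R : Type u} [Ring R] [Algebra ℂ R] (m : ℕ) (hm : 0 < m)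
    (B : Fin (2 * m) → Subalgebra ℂ R)
    (hB : ∀ i j, i ≠ j → ∀ x ∈ B i, ∀ y ∈ B j, Commute x y) (c : Fin (2 * m) → Fin m → R)
    (hc : ∀ i l, c i l ∈ B i)
    (hfull : ∀ i, FullOn (B i : Set R) {x | ∃ l, ∃ d ∈ B i, x = c i l * d - d * c i l}) :
    Full {x : R | ∃ q, x = zed m c * q - q * zed m c} := by
  by_contra hnot
  obtain ⟨g, hgdef⟩ : ∃ g : Fin (2 * m) → Fin (2 * m) → R,
      g = fun i j => ∑ l : Fin m, (((j.1 : ℕ) : ℂ) + 1) ^ (l : ℕ) • c i l := ⟨_, rfl⟩
  have hz : zed m c = ∑ i, ∑ j ∈ Finset.univ.filter (fun j => i < j), g i j * g j i := by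
    rw [hgdef]
    rfl
  have hgB : ∀ i j, g i j ∈ B i := by
    intro i j
    rw [hgdef]
    exact Subalgebra.sum_mem _ fun l _ => Subalgebra.smul_mem _ (hc i l) _
  have hle : ∀ i, B i ≤ ⨆ i, B i := fun i => le_iSup B i
  have hzC : zed m c ∈ ⨆ i, B i := by
    rw [hz]
    refine Subalgebra.sum_mem _ fun i _ => Subalgebra.sum_mem _ fun j _ => ?_
    exact Subalgebra.mul_mem _ (hle i (hgB i j)) (hle j (hgB j i))
  have hnot2 : ¬ FullOn ((⨆ i, B i : Subalgebra ℂ R) : Set R)
      {x : R | ∃ q ∈ (⨆ i, B i : Subalgebra ℂ R), x = zed m c * q - q * zed m c} := by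
    intro h
    apply hnot
    obtain ⟨n, p, x, p', -, hx, -, e⟩ := h
    refine ⟨n, p, x, p', fun i => ?_, e⟩
    obtain ⟨q, -, hq⟩ := hx i
    exact ⟨q, hq⟩
  obtain ⟨M, hM, hsM, -⟩ := exists_prime (⨆ i, B i : Subalgebra ℂ R) _ (by
    rintro x ⟨q, hq, rfl⟩
    exact Subalgebra.sub_mem _ (Subalgebra.mul_mem _ hzC hq) (Subalgebra.mul_mem _ hq hzC)) hnot2
  have hPM : ∀ i j, i ≠ j → (∀ d ∈ B i, g i j * d - d * g i j ∈ M) ∨
      (∀ d ∈ B j, g j i * d - d * g j i ∈ M) := by
    intro i j hij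
    by_cases h : ∀ d ∈ B i, g i j * d - d * g i j ∈ M
    · exact Or.inl h
    · right
      push Not at h
      obtain ⟨c0, hc0, hx⟩ := h
      intro d hd
      have hzz := z_double_comm g i j hij c0 d
        (fun i1 j1 i2 j2 h12 => hB i1 i2 h12 _ (hgB i1 j1) _ (hgB i2 j2))
        (fun i1 j1 h1 => hB i1 i h1 _ (hgB i1 j1) _ hc0)
        (fun i1 j1 h1 => hB i1 j h1 _ (hgB i1 j1) _ hd)
        (hB i j hij _ hc0 _ hd)
      rw [← hz] at hzz
      have h1 : zed m c * c0 - c0 * zed m c ∈ M := hsM ⟨c0, hle i hc0, rfl⟩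
      have h2 : (zed m c * c0 - c0 * zed m c) * d - d * (zed m c * c0 - c0 * zed m c) ∈ M :=
        (zcoreSub hM).sub_mem (hM.right d (hle j hd) _ h1) (hM.left d (hle j hd) _ h1)
      rw [hzz] at h2
      have hxB : g i j * c0 - c0 * g i j ∈ B i :=
        Subalgebra.sub_mem _ (Subalgebra.mul_mem _ (hgB i j) hc0) (Subalgebra.mul_mem _ hc0 (hgB i j))
      have hyB : g j i * d - d * g j i ∈ B j :=
        Subalgebra.sub_mem _ (Subalgebra.mul_mem _ (hgB j i) hd) (Subalgebra.mul_mem _ hd (hgB j i))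
      rcases PrimeOn.comm B hB hM i hxB (hle j hyB) (fun b hb => hB i j hij b hb _ hyB) h2 with h3 | h3
      · exact absurd h3 hx
      · exact h3
  obtain ⟨i, f, hf, hfa⟩ := exists_many m hm (fun i j => ∀ d ∈ B i, g i j * d - d * g i j ∈ M) hPM
  have hcM : ∀ d ∈ B i, ∀ l, c i l * d - d * c i l ∈ M := by
    intro d hd
    refine vandermonde_mem (zcoreSub hM) m (fun l => c i l * d - d * c i l)
      (fun a => ((f a).1 : ℂ) + 1) ?_ ?_
    · intro a a' h
      have h2 : (((f a).1 : ℕ) : ℂ) = (((f a').1 : ℕ) : ℂ) := add_right_cancel h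
      have h3 : (f a).1 = (f a').1 := by exact_mod_cast h2
      exact hf (Fin.ext h3)
    · intro a
      have h := (hfa a).2 d hd
      have e : ∑ l : Fin m, (((f a).1 : ℂ) + 1) ^ (l : ℕ) • (c i l * d - d * c i l)
          = g i (f a) * d - d * g i (f a) := by
        rw [hgdef]
        simp only [Finset.sum_mul, Finset.mul_sum, smul_sub, smul_mul_assoc, mul_smul_comm,
          Finset.sum_sub_distrib]
      rw [e]
      exact h
  obtain ⟨n, p, x, p', hp, hx, hp', e⟩ := hfull i
  apply hM.one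
  rw [← e]
  refine (zcoreSub hM).sum_mem fun a _ => ?_
  obtain ⟨l, d, hd, hxd⟩ := hx a
  have h1 : x a ∈ M := by
    rw [hxd]
    exact hcM d hd l
  exact hM.right _ (hle i (hp' a)) _ (hM.left _ (hle i (hp a)) _ h1)

/-- ZED.  Copies of the finitely many elements of the witness (`HasCopies`), then `z_core`
(`B i` = subalgebra generated by the `i`-th copy), `z` is self-adjoint (real coefficients, the copies
commute); divide `z` by `‖z‖` (if `z = 0` then `Full {0}`-type argument: `1 = 0`, trivial). -/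
theorem exists_z {D : Type u} [CStarAlgebra D] (hD : HasCopies D)
    (h : Full {x : D | ∃ c d : D, IsSelfAdjoint c ∧ x = c * d - d * c}) :
    ∃ z : D, IsSelfAdjoint z ∧ ‖z‖ ≤ 1 ∧ Full {x : D | ∃ q, x = z * q - q * z} := by
  obtain ⟨m, p, x, p', hx, hsum⟩ := h
  rcases Nat.eq_zero_or_pos m with hm0 | hm
  · subst hm0
    have h01 : (0 : D) = 1 := by simpa using hsum
    exact ⟨0, IsSelfAdjoint.zero D, by simp, 0, Fin.elim0, Fin.elim0, Fin.elim0,
      fun i => i.elim0, by simpa using h01⟩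
  choose cc dd hcc hxx using hx
  -- the finite set of the elements of the witness
  set X : Set D := Set.range cc ∪ Set.range dd ∪ (Set.range p ∪ Set.range p') with hX
  have hXc : X.Countable :=
    ((Set.countable_range _).union (Set.countable_range _)).union
      ((Set.countable_range _).union (Set.countable_range _))
  obtain ⟨θ, hθ⟩ := hD X hXc
  have mc : ∀ l, cc l ∈ StarAlgebra.adjoin ℂ X := fun l =>
    StarAlgebra.subset_adjoin ℂ X (Or.inl (Or.inl ⟨l, rfl⟩))
  have md : ∀ l, dd l ∈ StarAlgebra.adjoin ℂ X := fun l =>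
    StarAlgebra.subset_adjoin ℂ X (Or.inl (Or.inr ⟨l, rfl⟩))
  have mp : ∀ l, p l ∈ StarAlgebra.adjoin ℂ X := fun l =>
    StarAlgebra.subset_adjoin ℂ X (Or.inr (Or.inl ⟨l, rfl⟩))
  have mp' : ∀ l, p' l ∈ StarAlgebra.adjoin ℂ X := fun l =>
    StarAlgebra.subset_adjoin ℂ X (Or.inr (Or.inr ⟨l, rfl⟩))
  set B : Fin (2 * m) → Subalgebra ℂ D := fun i => (θ i.1).toAlgHom.range with hB
  have memB : ∀ (i : Fin (2 * m)) (a : StarAlgebra.adjoin ℂ X), θ i.1 a ∈ B i := fun i a =>
    ⟨a, rfl⟩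
  have hBcomm : ∀ i j, i ≠ j → ∀ x ∈ B i, ∀ y ∈ B j, Commute x y := by
    rintro i j hij _ ⟨a, rfl⟩ _ ⟨b, rfl⟩
    exact hθ i.1 j.1 (fun h => hij (Fin.ext h)) a b
  set c : Fin (2 * m) → Fin m → D := fun i l => θ i.1 ⟨cc l, mc l⟩ with hc
  have hcB : ∀ i l, c i l ∈ B i := fun i l => memB i _
  have hcsa : ∀ i l, star (c i l) = c i l := by
    intro i l
    rw [hc]
    simp only
    rw [← map_star]
    congr 1
    exact Subtype.ext (hcc l)
  have hfull : ∀ i, FullOn (B i : Set D) {x | ∃ l, ∃ d ∈ B i, x = c i l * d - d * c i l} := by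
    intro i
    refine ⟨m, fun l => θ i.1 ⟨p l, mp l⟩, fun l => c i l * θ i.1 ⟨dd l, md l⟩ -
      θ i.1 ⟨dd l, md l⟩ * c i l, fun l => θ i.1 ⟨p' l, mp' l⟩, fun l => memB i _,
      fun l => ⟨l, _, memB i _, rfl⟩, fun l => memB i _, ?_⟩
    have h1 : (∑ l, (⟨p l, mp l⟩ : StarAlgebra.adjoin ℂ X) *
        ((⟨cc l, mc l⟩ : StarAlgebra.adjoin ℂ X) * ⟨dd l, md l⟩ - ⟨dd l, md l⟩ * ⟨cc l, mc l⟩) *
          ⟨p' l, mp' l⟩) = 1 := by
      apply Subtype.ext
      rw [AddSubmonoidClass.coe_finsetSum]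
      simp only [MulMemClass.coe_mul, AddSubgroupClass.coe_sub, OneMemClass.coe_one]
      rw [← hsum]
      exact Finset.sum_congr rfl fun l _ => by rw [hxx l]
    have h2 := congrArg (θ i.1) h1
    rw [map_sum, map_one] at h2
    rw [← h2]
    refine Finset.sum_congr rfl fun l _ => ?_
    rw [map_mul, map_mul, map_sub, map_mul, map_mul]
  have hz := z_core m hm B hBcomm c hcB hfull
  -- the element z is self-adjoint
  have hg : ∀ i j : Fin (2 * m), star (∑ l : Fin m, (((j.1 : ℕ) : ℂ) + 1) ^ (l : ℕ) • c i l) =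
      ∑ l : Fin m, (((j.1 : ℕ) : ℂ) + 1) ^ (l : ℕ) • c i l := by
    intro i j
    rw [star_sum]
    refine Finset.sum_congr rfl fun l _ => ?_
    rw [star_smul, hcsa]
    congr 1
    simp
  have hgB : ∀ i j : Fin (2 * m), (∑ l : Fin m, (((j.1 : ℕ) : ℂ) + 1) ^ (l : ℕ) • c i l) ∈ B i :=
    fun i j => Subalgebra.sum_mem _ fun l _ => Subalgebra.smul_mem _ (hcB i l) _
  have hsa : IsSelfAdjoint (zed m c) := by
    rw [IsSelfAdjoint, zed, star_sum]
    refine Finset.sum_congr rfl fun i _ => ?_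
    rw [star_sum]
    refine Finset.sum_congr rfl fun j hj => ?_
    rw [Finset.mem_filter] at hj
    rw [star_mul, hg, hg]
    exact (hBcomm i j hj.2.ne _ (hgB i j) _ (hgB j i)).symm.eq
  -- normalization
  set t : ℝ := max ‖zed m c‖ 1 with ht
  have ht0 : 0 < t := lt_of_lt_of_le one_pos (le_max_right _ _)
  have htc : (t : ℂ) ≠ 0 := by exact_mod_cast ht0.ne'
  refine ⟨((t⁻¹ : ℝ) : ℂ) • zed m c, ?_, ?_, ?_⟩
  · rw [IsSelfAdjoint, star_smul, hsa.star_eq]
    congr 1
    simp
  · rw [norm_smul, Complex.norm_real, Real.norm_eq_abs, abs_of_pos (inv_pos.2 ht0),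
      inv_mul_le_iff₀ ht0, mul_one]
    exact le_max_left _ _
  · obtain ⟨k, a, y, b, hy, hsum'⟩ := hz
    refine ⟨k, a, y, b, fun i => ?_, hsum'⟩
    obtain ⟨q, hq⟩ := hy i
    refine ⟨(t : ℂ) • q, ?_⟩
    rw [hq, smul_mul_smul_comm, smul_mul_smul_comm, Complex.ofReal_inv, inv_mul_cancel₀ htc,
      mul_inv_cancel₀ htc, one_smul, one_smul]

end Vale.Agent.P101K
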