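import Vale.Agent.P101K.Root
import Vale.Agent.P101K.Wit
import Vale.Agent.P101K.Zed
import Vale.Agent.P101K.Far
import Vale.Agent.P101K.Orth
import Vale.Agent.P101K.Sqz
import Vale.Agent.P101K.OZTwo
import Vale.Agent.P101K.OZPow
import Vale.Agent.P101K.BlkEx

namespace Vale.Agent.P101K

universe u

/-- RW.  From a family of commuting blocks to the Rordam-Winter data. -/
theorem rw_data {D : Type u} [CStarAlgebra D] [PartialOrder D] [StarOrderedRing D] {q n : ℕ}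
    {ε : ℝ} (F : Fam q n ε D) (hε : 0 < ε) (hε1 : ε ≤ 1) (hq : 1 ≤ q) :
    ∃ Φ : Matrix (Fin (q + 1)) (Fin (q + 1)) ℂ →ₗ[ℂ] D, IsOZ Φ ∧ 0 ≤ Φ 1 ∧ Φ 1 ≤ 1 ∧
      ∃ v : D, star v * v = 1 - Φ 1 ∧ Φ (eu 0 0) * v = v := by
  obtain ⟨s, code, hc, h0⟩ := exists_code n q hq
  obtain ⟨p1, p2, p3⟩ := phi_spec F hε hε1 s
  have hnn : 0 ≤ 1 - Phi F s 1 := sub_nonneg.2 p3
  obtain ⟨w, hw1, hw2⟩ : ∃ w : D, star w = w ∧ w * w = 1 - Phi F s 1 :=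
    ⟨CFC.sqrt (1 - Phi F s 1), (CFC.sqrt_nonneg _).isSelfAdjoint.star_eq,
      CFC.sqrt_mul_sqrt_self _ hnn⟩
  have hK : ∀ p : List (Fin n), p ≠ [] → p.length ≤ s → (F.β (node p)).K * w = 0 := by
    intro p hp hps
    have h1 := phi_kid F hε hε1 s p hp hps
    rw [← CStarRing.mul_star_self_eq_zero_iff, star_mul, hw1]
    have : (F.β (node p)).K * w * (w * star (F.β (node p)).K)
        = (F.β (node p)).K * (w * w) * star (F.β (node p)).K := by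
      simp only [mul_assoc]
    rw [this, hw2, h1, zero_mul]
  refine ⟨Phi F s, p1, p2, p3, (∑ ℓ, ul F code ℓ) * w, ?_, ?_⟩
  · rw [v_sum F code hc h0 w hw1 hK, hw2]
  · rw [← mul_assoc, Finset.mul_sum]
    congr 1
    refine Finset.sum_congr rfl fun ℓ _ => ?_
    unfold ul
    rw [List.ofFn_succ, List.prod_cons, ← mul_assoc, ← mul_assoc]
    have e1 : pre ℓ ((0 : Fin (s + 1)) : ℕ) = [] := by simp [pre]
    rw [e1, h0, phi_root F hε hε1 s]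

/-- MAIN (abstract form). -/
theorem main_abstract {D : Type u} [CStarAlgebra D] [PartialOrder D] [StarOrderedRing D]
    [Nontrivial D] (hD : HasCopies D) (h : IsEmpty (D →⋆ₐ[ℂ] ℂ)) (q : ℕ) (hq : 1 ≤ q) :
    ∃ Φ : Matrix (Fin (q + 1)) (Fin (q + 1)) ℂ →ₗ[ℂ] D, IsOZ Φ ∧ 0 ≤ Φ 1 ∧ Φ 1 ≤ 1 ∧
      ∃ v : D, star v * v = 1 - Φ 1 ∧ Φ (eu 0 0) * v = v := by
  obtain ⟨z, hz, hz1, hzf⟩ := exists_z hD (exists_witness h)
  obtain ⟨N, hN, hf⟩ := far_full z hz hz1 hzf 7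
  obtain ⟨E, h01, h10, h0, h1⟩ := exists_orth hD z hz N hN hf
  obtain ⟨y, hy, hyf⟩ := exists_sqz hD E h01 h10 h0 h1
  obtain ⟨φ, hφ, hp, hφf⟩ := oz_two y hy hyf
  obtain ⟨ψ, hψ, hp', hψf⟩ := oz_pow hD φ hφ hp hφf q
  obtain ⟨n, ε, hε, hε1, ⟨β⟩⟩ := blk_exists ψ hψ hp' hψf
  obtain ⟨F⟩ := blk_copies hD β
  exact rw_data F hε hε1 hq

end Vale.Agent.P101K
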