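import Mathlib

namespace Vale.Agent.P101K

open Matrix

/-- the dimension drop algebra `{f ∈ C([0,1], M_ι ⊗ M_κ) : f(0) ∈ M_ι ⊗ 1, f(1) ∈ 1 ⊗ M_κ}` -/
def DimDrop (ι κ : Type) [Fintype ι] [DecidableEq ι] [Fintype κ] [DecidableEq κ] :
    StarSubalgebra ℂ C(unitInterval, Matrix (ι × κ) (ι × κ) ℂ) where
  carrier := {f | (∃ x : Matrix ι ι ℂ, f 0 = Matrix.kroneckerMap (· * ·) x (1 : Matrix κ κ ℂ)) ∧
    ∃ y : Matrix κ κ ℂ, f 1 = Matrix.kroneckerMap (· * ·) (1 : Matrix ι ι ℂ) y}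
  mul_mem' := by
    rintro f g ⟨⟨x, hx⟩, ⟨y, hy⟩⟩ ⟨⟨x', hx'⟩, ⟨y', hy'⟩⟩
    refine ⟨⟨x * x', ?_⟩, ⟨y * y', ?_⟩⟩
    · rw [ContinuousMap.mul_apply, hx, hx']
      have := Matrix.mul_kronecker_mul x x' (1 : Matrix κ κ ℂ) (1 : Matrix κ κ ℂ)
      rw [mul_one] at this
      exact this.symm
    · rw [ContinuousMap.mul_apply, hy, hy']
      have := Matrix.mul_kronecker_mul (1 : Matrix ι ι ℂ) (1 : Matrix ι ι ℂ) y y'
      rw [mul_one] at this
      exact this.symm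
  add_mem' := by
    rintro f g ⟨⟨x, hx⟩, ⟨y, hy⟩⟩ ⟨⟨x', hx'⟩, ⟨y', hy'⟩⟩
    refine ⟨⟨x + x', ?_⟩, ⟨y + y', ?_⟩⟩
    · rw [ContinuousMap.add_apply, hx, hx']
      exact (Matrix.add_kronecker x x' (1 : Matrix κ κ ℂ)).symm
    · rw [ContinuousMap.add_apply, hy, hy']
      exact (Matrix.kronecker_add (1 : Matrix ι ι ℂ) y y').symm
  algebraMap_mem' := by
    intro r
    refine ⟨⟨algebraMap ℂ _ r, ?_⟩, ⟨algebraMap ℂ _ r, ?_⟩⟩
    · show algebraMap ℂ (Matrix (ι × κ) (ι × κ) ℂ) r = _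
      ext ⟨i, a⟩ ⟨j, b⟩
      rw [Matrix.kroneckerMap_apply, Matrix.algebraMap_matrix_apply,
        Matrix.algebraMap_matrix_apply, Matrix.one_apply]
      by_cases h1 : i = j <;> by_cases h2 : a = b <;> simp [h1, h2]
    · show algebraMap ℂ (Matrix (ι × κ) (ι × κ) ℂ) r = _
      ext ⟨i, a⟩ ⟨j, b⟩
      rw [Matrix.kroneckerMap_apply, Matrix.algebraMap_matrix_apply,
        Matrix.algebraMap_matrix_apply, Matrix.one_apply]
      by_cases h1 : i = j <;> by_cases h2 : a = b <;> simp [h1, h2]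
  star_mem' := by
    rintro f ⟨⟨x, hx⟩, ⟨y, hy⟩⟩
    refine ⟨⟨star x, ?_⟩, ⟨star y, ?_⟩⟩
    · rw [ContinuousMap.star_apply, hx]
      have := Matrix.conjTranspose_kronecker x (1 : Matrix κ κ ℂ)
      rw [Matrix.conjTranspose_one] at this
      exact this
    · rw [ContinuousMap.star_apply, hy]
      have := Matrix.conjTranspose_kronecker (1 : Matrix ι ι ℂ) y
      rw [Matrix.conjTranspose_one] at this
      exact this

end Vale.Agent.P101K
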