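import Vale.Agent.P101K.Scn

/-! P101K, modules INV and DENSE (used in `Ext.lean`). -/

namespace Vale.Agent.P101K

open Matrix Filter Topology

variable {ι : Type} [Fintype ι] [DecidableEq ι]

omit [Fintype ι] [DecidableEq ι] in
private theorem inv_wsw (p : ι × Option ι) : wsw (wsw p) = p := by
  rcases p with ⟨a, _ | j⟩ <;> rfl

private def invW : ι × Option ι ≃ ι × Option ι := ⟨wsw, wsw, inv_wsw, inv_wsw⟩

private theorem inv_lt1_mul (x y : Matrix ι ι ℂ) : lt1 (x * y) = lt1 x * lt1 y := by
  ext p r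
  rw [Matrix.mul_apply, Fintype.sum_prod_type_right]
  simp only [lt1, Matrix.of_apply]
  rw [Finset.sum_eq_single p.2]
  · by_cases h : p.2 = r.2
    · simp [h, Matrix.mul_apply]
    · simp [h]
  · intro μ _ hμ
    exact Finset.sum_eq_zero fun a _ => by rw [if_neg (Ne.symm hμ), zero_mul]
  · intro h
    exact absurd (Finset.mem_univ _) h

private theorem inv_lt1_one : lt1 (1 : Matrix ι ι ℂ) = 1 := by
  ext p r
  simp only [lt1, Matrix.of_apply, Matrix.one_apply]
  by_cases h : p.2 = r.2
  · by_cases h' : p.1 = r.1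
    · rw [if_pos h, if_pos h', if_pos (Prod.ext h' h)]
    · rw [if_pos h, if_neg h', if_neg (fun e => h' (by rw [e]))]
  · rw [if_neg h, if_neg (fun e => h (by rw [e]))]

theorem inv_Pim_mul (x y : Matrix ι ι ℂ) : Pim (x * y) = Pim x * Pim y := by
  ext p r
  rw [Matrix.mul_apply]
  simp only [Pim, Matrix.of_apply]
  rw [inv_lt1_mul, Matrix.mul_apply]
  exact (invW.sum_comp (fun q => lt1 x (wsw p) q * lt1 y q (wsw r))).symm

theorem inv_Pim_one : Pim (1 : Matrix ι ι ℂ) = 1 := by
  ext p r
  simp only [Pim, Matrix.of_apply, inv_lt1_one, Matrix.one_apply]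
  by_cases h : p = r
  · rw [if_pos h, if_pos (by rw [h])]
  · rw [if_neg h, if_neg (fun e => h (by rw [← inv_wsw p, e, inv_wsw]))]

theorem inv_Pim_inj {x : Matrix ι ι ℂ} (h : Pim x = 0) : x = 0 := by
  ext a b
  have h1 := congrFun (congrFun h (a, none)) (b, none)
  simpa [Pim, lt1, wsw] using h1

theorem inv_rt1_mul (x y : Matrix (Option ι) (Option ι) ℂ) : rt1 (ι := ι) (x * y) = rt1 x * rt1 y := by
  ext p r
  rw [Matrix.mul_apply, Fintype.sum_prod_type]
  simp only [rt1, Matrix.of_apply]
  rw [Finset.sum_eq_single p.1]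
  · by_cases h : p.1 = r.1
    · simp [h, Matrix.mul_apply]
    · simp [h]
  · intro μ _ hμ
    exact Finset.sum_eq_zero fun a _ => by rw [if_neg (Ne.symm hμ), zero_mul]
  · intro h
    exact absurd (Finset.mem_univ _) h

theorem inv_rt1_one : rt1 (ι := ι) (1 : Matrix (Option ι) (Option ι) ℂ) = 1 := by
  ext p r
  simp only [rt1, Matrix.of_apply, Matrix.one_apply]
  by_cases h : p.1 = r.1
  · by_cases h' : p.2 = r.2
    · rw [if_pos h, if_pos h', if_pos (Prod.ext h h')]
    · rw [if_pos h, if_neg h', if_neg (fun e => h' (by rw [e]))]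
  · rw [if_neg h, if_neg (fun e => h (by rw [e]))]

theorem inv_rt1_inj [Nonempty ι] {y : Matrix (Option ι) (Option ι) ℂ} (h : rt1 (ι := ι) y = 0) :
    y = 0 := by
  obtain ⟨i⟩ := ‹Nonempty ι›
  ext a b
  have h1 := congrFun (congrFun h (i, a)) (i, b)
  simpa [rt1] using h1

/-- inverses in a faithful matrix algebra -/
private theorem inv_alg {κ τ : Type} [Fintype κ] [DecidableEq κ] [Fintype τ] [DecidableEq τ]
    (φ : Matrix κ κ ℂ → Matrix τ τ ℂ) (hm : ∀ x y, φ (x * y) = φ x * φ y) (h1 : φ 1 = 1)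
    (hi : ∀ x, φ x = 0 → x = 0) (h0 : φ 0 = 0) (x : Matrix κ κ ℂ) (z : Matrix τ τ ℂ)
    (hz : z * φ x = 1) : ∃ y, z = φ y := by
  have hinj : Function.Injective (LinearMap.mulLeft ℂ x) := by
    rw [← LinearMap.ker_eq_bot, LinearMap.ker_eq_bot']
    intro y hy
    apply hi
    have h2 : φ x * φ y = 0 := by
      rw [← hm]
      have : x * y = 0 := hy
      rw [this, h0]
    calc φ y = (z * φ x) * φ y := by rw [hz, one_mul]
      _ = 0 := by rw [mul_assoc, h2, mul_zero]
  have hsurj : Function.Surjective (LinearMap.mulLeft ℂ x) :=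
    LinearMap.injective_iff_surjective.mp hinj
  obtain ⟨y, hy⟩ := hsurj 1
  refine ⟨y, ?_⟩
  have h3 : φ x * φ y = 1 := by
    rw [← hm]
    have : x * y = 1 := hy
    rw [this, h1]
  calc z = z * (φ x * φ y) := by rw [h3, mul_one]
    _ = φ y := by rw [← mul_assoc, hz, one_mul]

/-- the inverse of a function in `scnSet` is in `scnSet` -/
theorem inv_scn [Nonempty ι] {F G : CM ι} (hF : F ∈ scnSet ι) (h1 : F * G = 1) (h2 : G * F = 1) :
    G ∈ scnSet ι := by
  obtain ⟨⟨δ, hδ, h0, h3⟩, ⟨x, hx⟩, ⟨y, hy⟩⟩ := hF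
  have e1 : ∀ t, F t * G t = 1 := fun t => by
    have := congrArg (fun H : CM ι => H t) h1
    simpa using this
  have e2 : ∀ t, G t * F t = 1 := fun t => by
    have := congrArg (fun H : CM ι => H t) h2
    simpa using this
  have huniq : ∀ t s, F t = F s → G t = G s := by
    intro t s h
    calc G t = G t * (F s * G s) := by rw [e1, mul_one]
      _ = (G t * F t) * G s := by rw [mul_assoc, h]
      _ = G s := by rw [e2, one_mul]
  refine ⟨⟨δ, hδ, fun t ht => huniq _ _ (h0 t ht), fun t ht => huniq _ _ (h3 t ht)⟩, ?_, ?_⟩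
  · refine inv_alg Pim inv_Pim_mul inv_Pim_one (fun _ => inv_Pim_inj) ?_ x (G 0) ?_
    · ext p r; simp [Pim, lt1]
    · rw [← hx]; exact e2 0
  · refine inv_alg rt1 inv_rt1_mul inv_rt1_one (fun _ => inv_rt1_inj) ?_ y (G 1) ?_
    · ext p r; simp [rt1]
    · rw [← hy]; exact e2 1

/-- reparametrization of `[0,1]` constant near the ends -/
private noncomputable def denR (c : ℝ) : C(unitInterval, unitInterval) :=
  ⟨fun t => Set.projIcc 0 1 zero_le_one ((1 + 2 * c) * (t : ℝ) - c), by fun_prop⟩

private theorem denR_val (c : ℝ) (t : unitInterval) :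
    ((denR c t : unitInterval) : ℝ) = max 0 (min 1 ((1 + 2 * c) * (t : ℝ) - c)) := rfl

private theorem denR_dist {c : ℝ} (hc : 0 ≤ c) (t : unitInterval) : dist t (denR c t) ≤ c := by
  rw [Subtype.dist_eq, Real.dist_eq, denR_val]
  have h0 := t.2.1
  have h1 := t.2.2
  rw [abs_le]
  constructor
  · have : max 0 (min 1 ((1 + 2 * c) * (t : ℝ) - c)) ≤ (t : ℝ) + c := by
      refine max_le (by linarith) ((min_le_right _ _).trans ?_)
      nlinarith
    linarith
  · have : (t : ℝ) - c ≤ max 0 (min 1 ((1 + 2 * c) * (t : ℝ) - c)) := by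
      refine le_max_of_le_right (le_min (by linarith) ?_)
      nlinarith
    linarith

/-- reparametrized functions are in `scnSet` -/
private theorem den_mem (F : CM ι) (h0 : ∃ x, F 0 = Pim x) (h1 : ∃ y, F 1 = rt1 y) {c : ℝ}
    (hc : 0 < c) : F.comp (denR c) ∈ scnSet ι := by
  have hz : denR c 0 = 0 := by
    apply Subtype.ext
    rw [denR_val]
    simp [hc.le]
  have ho : denR c 1 = 1 := by
    apply Subtype.ext
    rw [denR_val]
    simp only [Set.Icc.coe_one, mul_one]
    rw [min_eq_left (by linarith)]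
    simp
  have hpos : 0 < 1 + 2 * c := by linarith
  refine ⟨⟨c / (1 + 2 * c), by positivity, fun t ht => ?_, fun t ht => ?_⟩, ?_, ?_⟩
  · have h2 : denR c t = denR c 0 := by
      rw [hz]
      apply Subtype.ext
      rw [denR_val]
      have h3 : (1 + 2 * c) * (t : ℝ) ≤ c := by
        rw [le_div_iff₀ hpos] at ht
        linarith
      rw [min_eq_right (by linarith), max_eq_left (by linarith)]
      rfl
    change F (denR c t) = F (denR c 0)
    rw [h2]
  · have h2 : denR c t = denR c 1 := by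
      rw [ho]
      apply Subtype.ext
      rw [denR_val]
      have h3 : 1 + c ≤ (1 + 2 * c) * (t : ℝ) := by
        have h4 : (1 + 2 * c) * (1 - c / (1 + 2 * c)) ≤ (1 + 2 * c) * (t : ℝ) :=
          mul_le_mul_of_nonneg_left ht hpos.le
        have h5 : (1 + 2 * c) * (1 - c / (1 + 2 * c)) = 1 + c := by
          field_simp
          ring
        linarith
      rw [min_eq_left (by linarith), max_eq_right (by linarith)]
      rfl
    change F (denR c t) = F (denR c 1)
    rw [h2]
  · change ∃ x, F (denR c 0) = Pim x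
    rw [hz]; exact h0
  · change ∃ y, F (denR c 1) = rt1 y
    rw [ho]; exact h1

/-- density -/
theorem den_closure (F : CM ι) (h0 : ∃ x, F 0 = Pim x) (h1 : ∃ y, F 1 = rt1 y) :
    F ∈ closure (scnSet ι) := by
  have hlim : Tendsto (fun n : ℕ => denR (1 / ((n : ℝ) + 1))) atTop
      (𝓝 (ContinuousMap.id unitInterval)) := by
    rw [ContinuousMap.tendsto_iff_tendstoUniformly, Metric.tendstoUniformly_iff]
    intro e he
    obtain ⟨N, hN⟩ := exists_nat_one_div_lt he
    filter_upwards [eventually_ge_atTop N] with n hn t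
    have h2 : (1 : ℝ) / ((n : ℝ) + 1) ≤ 1 / ((N : ℝ) + 1) := by
      apply one_div_le_one_div_of_le (by positivity)
      have : (N : ℝ) ≤ n := by exact_mod_cast hn
      linarith
    exact (denR_dist (by positivity) t).trans_lt (h2.trans_lt hN)
  have hcomp : Tendsto (fun n : ℕ => F.comp (denR (1 / ((n : ℝ) + 1)))) atTop (𝓝 F) := by
    have h := ((ContinuousMap.continuous_postcomp F).tendsto (ContinuousMap.id unitInterval)).comp hlim
    rw [ContinuousMap.comp_id] at h
    exact h
  exact mem_closure_of_tendsto hcomp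
    (Eventually.of_forall fun n => den_mem F h0 h1 (by positivity))

end Vale.Agent.P101K
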