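import Vale.Agent.P101K.Scn
import Vale.Agent.P101K.ExtInv
import Vale.Agent.P101K.DimDrop

namespace Vale.Agent.P101K

open Matrix
open scoped Matrix.Norms.L2Operator

universe u v

/-- CONT.  A unital star homomorphism on an inverse closed star subalgebra is contractive (spectrum
of a self-adjoint element, spectral radius, C*-identity). -/
theorem contractive_of_inverse_closed {C : Type u} {D : Type v} [CStarAlgebra C] [CStarAlgebra D]
    (B : StarSubalgebra ℂ C) (hB : ∀ x : B, IsUnit (x : C) → IsUnit x) (E : B →⋆ₐ[ℂ] D) (x : B) :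
    ‖E x‖ ≤ ‖(x : C)‖ := by
  have hspec : ∀ a : B, spectrum ℂ (E a) ⊆ spectrum ℂ (a : C) := by
    intro a
    refine (AlgHom.spectrum_apply_subset E a).trans ?_
    intro z hz
    rw [spectrum.mem_iff] at hz ⊢
    intro hu
    exact hz (hB _ (by simpa using hu))
  have hrad : ∀ a : B, spectralRadius ℂ (E a) ≤ spectralRadius ℂ (a : C) := by
    intro a
    exact biSup_mono (hspec a)
  have hsa : IsSelfAdjoint (E (star x * x)) := by
    rw [map_mul, map_star]
    exact IsSelfAdjoint.star_mul_self (E x)
  have hsa' : IsSelfAdjoint ((star x * x : B) : C) := by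
    show IsSelfAdjoint (star (x : C) * (x : C))
    exact IsSelfAdjoint.star_mul_self (x : C)
  have h := hrad (star x * x)
  rw [hsa.spectralRadius_eq_nnnorm, hsa'.spectralRadius_eq_nnnorm] at h
  have h' : ‖E (star x * x)‖ ≤ ‖((star x * x : B) : C)‖ := by
    exact_mod_cast h
  rw [map_mul, map_star, CStarRing.norm_star_mul_self] at h'
  have h2 : ‖((star x * x : B) : C)‖ = ‖(x : C)‖ * ‖(x : C)‖ := by
    show ‖star (x : C) * (x : C)‖ = _
    exact CStarRing.norm_star_mul_self
  rw [h2] at h'
  exact (mul_self_le_mul_self_iff (norm_nonneg _) (norm_nonneg _)).mpr h'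

/-- EXT.  Extension to the closure. -/
theorem extend_hom {C : Type u} {D : Type v} [CStarAlgebra C] [CStarAlgebra D]
    (B : StarSubalgebra ℂ C) (E : B →⋆ₐ[ℂ] D) (hE : ∀ x : B, ‖E x‖ ≤ ‖(x : C)‖) :
    Nonempty (B.topologicalClosure →⋆ₐ[ℂ] D) := by
  let i : B →⋆ₐ[ℂ] B.topologicalClosure := StarSubalgebra.inclusion B.le_topologicalClosure
  have hiso : Isometry i := Isometry.of_dist_eq (fun x y => rfl)
  have hui : IsUniformInducing (i : B →+* B.topologicalClosure) := hiso.isUniformInducing
  have hdr : DenseRange (i : B →+* B.topologicalClosure) := by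
    rw [Metric.denseRange_iff]
    rintro ⟨y, hy⟩ r hr
    have hy' : y ∈ closure (B : Set C) := hy
    obtain ⟨b, hb, hd⟩ := Metric.mem_closure_iff.1 hy' r hr
    exact ⟨⟨b, hb⟩, hd⟩
  have hEu : UniformContinuous (E : B →+* D) := by
    have h : LipschitzWith 1 (E : B →+* D) := by
      refine LipschitzWith.of_dist_le_mul fun x y => ?_
      rw [dist_eq_norm, dist_eq_norm, NNReal.coe_one, one_mul]
      have h1 := hE (x - y)
      rw [map_sub] at h1
      exact h1
    exact h.uniformContinuous
  let F : B.topologicalClosure →+* D := IsDenseInducing.extendRingHom hui hdr hEu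
  have hF : ∀ x : B, F (i x) = E x := fun x =>
    IsDenseInducing.extend_eq (hui.isDenseInducing hdr) hEu.continuous x
  have hFc : Continuous F := (uniformContinuous_uniformly_extend hui hdr hEu).continuous
  refine ⟨{ F with
            commutes' := ?_
            map_star' := ?_ }⟩
  · intro r
    have h1 : algebraMap ℂ B.topologicalClosure r = i (algebraMap ℂ B r) :=
      (AlgHomClass.commutes i r).symm
    change F (algebraMap ℂ B.topologicalClosure r) = algebraMap ℂ D r
    rw [h1, hF, AlgHomClass.commutes]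
  · intro x
    change F (star x) = star (F x)
    refine DenseRange.induction_on hdr x ?_ ?_
    · exact isClosed_eq (hFc.comp continuous_star) (continuous_star.comp hFc)
    · intro b
      change F (star (i b)) = star (F (i b))
      rw [← map_star, hF, hF, map_star]

variable {ι : Type} [Fintype ι] [DecidableEq ι]

/-- INV.  The functions in `scnSet` are inverse closed. -/
theorem scn_inverse_closed [Nonempty ι] (B : StarSubalgebra ℂ (CM ι))
    (hB : (B : Set (CM ι)) = scnSet ι) (x : B) (hx : IsUnit (x : CM ι)) : IsUnit x := by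
  obtain ⟨u, hu⟩ := hx
  have hxm : (x : CM ι) ∈ scnSet ι := by rw [← hB]; exact x.2
  have h1 : (x : CM ι) * (↑u⁻¹ : CM ι) = 1 := by rw [← hu]; exact u.mul_inv
  have h2 : (↑u⁻¹ : CM ι) * (x : CM ι) = 1 := by rw [← hu]; exact u.inv_mul
  have hG : (↑u⁻¹ : CM ι) ∈ B := by
    have := inv_scn hxm h1 h2
    rw [← hB] at this
    exact this
  exact ⟨⟨x, ⟨_, hG⟩, Subtype.ext h1, Subtype.ext h2⟩, rfl⟩

/-- DENSE.  Reparametrize: `F ∘ ρ_n`, `ρ_n(t)` = `0` for `t ≤ 1/n`, `1` for `t ≥ 1 - 1/n`, linear in
between, converges uniformly to `F`. -/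
theorem scn_dense (B : StarSubalgebra ℂ (CM ι)) (hB : (B : Set (CM ι)) = scnSet ι) (F : CM ι)
    (h0 : ∃ x, F 0 = Pim x) (h1 : ∃ y, F 1 = rt1 y) : F ∈ B.topologicalClosure := by
  have h := den_closure F h0 h1
  rw [← hB] at h
  exact h

theorem rot_wsw_wsw {ι : Type} (p : ι × Option ι) : wsw (wsw p) = p := by
  rcases p with ⟨a, (_ | j)⟩ <;> rfl

/-- ROT.  A path of unitaries from the flip `W` to `1`: `c 1 + s W`-type formula, e.g.
`U t = ((1 + e^(iπt))/2) • 1 + ((1 - e^(iπt))/2) • W` up to orientation. -/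
theorem exists_path (ι : Type) [Fintype ι] [DecidableEq ι] :
    ∃ U : CM ι, star U * U = 1 ∧ U * star U = 1 ∧
      (∀ x : Matrix ι ι ℂ, U 0 * lt1 x * star (U 0) = Pim x) ∧ U 1 = 1 := by
  classical
  let W : Matrix (ι × Option ι) (ι × Option ι) ℂ := Matrix.of fun p r => if r = wsw p then 1 else 0
  have hmul : ∀ M : Matrix (ι × Option ι) (ι × Option ι) ℂ, ∀ p r, (W * M) p r = M (wsw p) r := by
    intro M p r
    simp [W, Matrix.mul_apply]
  have hmul' : ∀ M : Matrix (ι × Option ι) (ι × Option ι) ℂ, ∀ p r, (M * W) p r = M p (wsw r) := by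
    intro M p r
    have : ∀ q : ι × Option ι, (r = wsw q) = (q = wsw r) := by
      intro q
      apply propext
      constructor
      · intro h; rw [h, rot_wsw_wsw]
      · intro h; rw [h, rot_wsw_wsw]
    simp [W, Matrix.mul_apply, this]
  have hWW : W * W = 1 := by
    ext p r
    rw [hmul]
    simp only [W, Matrix.of_apply, Matrix.one_apply, rot_wsw_wsw]
    by_cases h : p = r
    · simp [h]
    · rw [if_neg h, if_neg (fun h' => h h'.symm)]
  have hWs : star W = W := by
    ext p r
    simp only [W, Matrix.star_apply, Matrix.of_apply]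
    by_cases h : r = wsw p
    · have h2 : p = wsw r := by rw [h, rot_wsw_wsw]
      rw [if_pos h, if_pos h2]; simp
    · have h2 : ¬ p = wsw r := by
        intro h'; apply h; rw [h', rot_wsw_wsw]
      rw [if_neg h, if_neg h2]; simp
  let z : unitInterval → ℂ := fun t => Complex.exp (((Real.pi * (1 - (t : ℝ)) : ℝ) : ℂ) * Complex.I)
  have hz : ∀ t, star (z t) * z t = 1 := by
    intro t
    have h1 : ‖z t‖ = 1 := Complex.norm_exp_ofReal_mul_I _
    have h2 : star (z t) * z t = ((‖z t‖ ^ 2 : ℝ) : ℂ) := by
      have := Complex.conj_mul' (z t)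
      simpa using this
    rw [h2, h1]; norm_num
  have hzc : Continuous z := by
    simp only [z]
    fun_prop
  have hz0 : z 0 = -1 := by
    simp only [z]
    simp [Complex.exp_pi_mul_I]
  have hz1 : z 1 = 1 := by
    simp [z]
  let U : CM ι := ⟨fun t => ((1 + z t) / 2) • (1 : Matrix (ι × Option ι) (ι × Option ι) ℂ)
    + ((1 - z t) / 2) • W, by
      apply Continuous.add
      · exact ((continuous_const.add hzc).div_const 2).smul continuous_const
      · exact ((continuous_const.sub hzc).div_const 2).smul continuous_const⟩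
  have hU : ∀ t, U t = ((1 + z t) / 2) • (1 : Matrix (ι × Option ι) (ι × Option ι) ℂ)
    + ((1 - z t) / 2) • W := fun t => rfl
  have hUs : ∀ t, star (U t) = (star ((1 + z t) / 2)) • (1 : Matrix (ι × Option ι) (ι × Option ι) ℂ)
    + (star ((1 - z t) / 2)) • W := by
    intro t
    rw [hU, star_add, star_smul, star_smul, hWs, star_one]
  have e1 : ∀ t, star ((1 + z t) / 2) * ((1 + z t) / 2) + star ((1 - z t) / 2) * ((1 - z t) / 2) = 1 := by
    intro t
    have := hz t
    simp only [star_div₀, star_add, star_sub, star_one] at *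
    have h2 : star (2 : ℂ) = 2 := by simp
    rw [h2]
    linear_combination (1 / 2 : ℂ) * this
  have e2 : ∀ t, star ((1 + z t) / 2) * ((1 - z t) / 2) + star ((1 - z t) / 2) * ((1 + z t) / 2) = 0 := by
    intro t
    have := hz t
    simp only [star_div₀, star_add, star_sub, star_one] at *
    have h2 : star (2 : ℂ) = 2 := by simp
    rw [h2]
    linear_combination (-1 / 2 : ℂ) * this
  have hprod : ∀ a b c d : ℂ, (a • (1 : Matrix (ι × Option ι) (ι × Option ι) ℂ) + b • W)
      * (c • (1 : Matrix (ι × Option ι) (ι × Option ι) ℂ) + d • W)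
      = (a * c + b * d) • (1 : Matrix (ι × Option ι) (ι × Option ι) ℂ) + (a * d + b * c) • W := by
    intro a b c d
    rw [Matrix.add_mul, Matrix.mul_add, Matrix.mul_add]
    simp only [Matrix.smul_mul, Matrix.mul_smul, smul_smul, hWW, Matrix.one_mul, Matrix.mul_one]
    rw [add_smul, add_smul, mul_comm c a, mul_comm d a, mul_comm c b, mul_comm d b]
    abel
  refine ⟨U, ?_, ?_, ?_, ?_⟩
  · apply ContinuousMap.ext
    intro t
    show star (U t) * U t = 1
    rw [hUs, hU, hprod, e1, e2, one_smul, zero_smul, add_zero]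
  · apply ContinuousMap.ext
    intro t
    show U t * star (U t) = 1
    rw [hUs, hU, hprod, mul_comm ((1 + z t) / 2) (star ((1 + z t) / 2)),
      mul_comm ((1 - z t) / 2) (star ((1 - z t) / 2)), e1, add_comm,
      mul_comm ((1 - z t) / 2) (star ((1 + z t) / 2)), mul_comm ((1 + z t) / 2) (star ((1 - z t) / 2)),
      add_comm (star ((1 - z t) / 2) * ((1 + z t) / 2)), e2, one_smul, zero_smul, zero_add]
  · intro x
    have hU0 : U 0 = W := by
      rw [hU, hz0]; norm_num
    rw [hU0, hWs]
    ext p r
    rw [hmul', hmul]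
    rfl
  · rw [hU, hz1]; norm_num

/-- DDF.  `f ↦ U f U*` maps `DimDrop ι (Option ι)` into the closure of `B`. -/
theorem dimdrop_hom [Nonempty ι] {D : Type u} [CStarAlgebra D] (S : PS ι D) :
    Nonempty (DimDrop ι (Option ι) →⋆ₐ[ℂ] D) := by
  obtain ⟨B, hB⟩ := exists_scn ι
  obtain ⟨E⟩ := exists_Ev S B hB
  have hE := contractive_of_inverse_closed B (fun x hx => scn_inverse_closed B hB x hx) E
  obtain ⟨F⟩ := extend_hom B E hE
  obtain ⟨U, hU1, hU2, hU0, hUone⟩ := exists_path ι
  have hmem : ∀ f : DimDrop ι (Option ι), U * (f : CM ι) * star U ∈ B.topologicalClosure := by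
    intro f
    obtain ⟨⟨x, hx⟩, y, hy⟩ := f.2
    refine scn_dense B hB _ ⟨x, ?_⟩ ⟨y, ?_⟩
    · show U 0 * (f : CM ι) 0 * star (U 0) = Pim x
      have : (f : CM ι) 0 = lt1 x := by
        refine hx.trans ?_
        ext p r
        simp [lt1, Matrix.one_apply]
      rw [this, hU0]
    · show U 1 * (f : CM ι) 1 * star (U 1) = rt1 y
      have : (f : CM ι) 1 = rt1 y := by
        refine hy.trans ?_
        ext p r
        simp [rt1, Matrix.one_apply]
      rw [this, hUone, star_one, mul_one, one_mul]
  let G : DimDrop ι (Option ι) →⋆ₐ[ℂ] B.topologicalClosure :=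
    { toFun := fun f => ⟨U * (f : CM ι) * star U, hmem f⟩
      map_one' := by
        apply Subtype.ext
        show U * (1 : CM ι) * star U = 1
        rw [mul_one, hU2]
      map_mul' := by
        intro f g
        apply Subtype.ext
        show U * ((f : CM ι) * (g : CM ι)) * star U = (U * (f : CM ι) * star U) * (U * (g : CM ι) * star U)
        calc U * ((f : CM ι) * (g : CM ι)) * star U = U * (f : CM ι) * 1 * (g : CM ι) * star U := by
              rw [mul_one]; simp only [mul_assoc]
          _ = U * (f : CM ι) * (star U * U) * (g : CM ι) * star U := by rw [hU1]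
          _ = _ := by simp only [mul_assoc]
      map_zero' := by
        apply Subtype.ext
        show U * (0 : CM ι) * star U = 0
        rw [mul_zero, zero_mul]
      map_add' := by
        intro f g
        apply Subtype.ext
        show U * ((f : CM ι) + (g : CM ι)) * star U = U * (f : CM ι) * star U + U * (g : CM ι) * star U
        rw [mul_add, add_mul]
      commutes' := by
        intro r
        apply Subtype.ext
        show U * (algebraMap ℂ (CM ι) r) * star U = algebraMap ℂ (CM ι) r
        rw [← Algebra.commutes, mul_assoc, hU2, mul_one]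
      map_star' := by
        intro f
        apply Subtype.ext
        show U * star (f : CM ι) * star U = star (U * (f : CM ι) * star U)
        rw [star_mul, star_mul, star_star, mul_assoc] }
  exact ⟨F.comp G⟩

/-- DDR.  Reindexing `Option (Fin (q+1)) ≃ Fin (q+2)`. -/
theorem dimdrop_reindex (q : ℕ) :
    Nonempty (DimDrop (Fin (q + 1)) (Fin (q + 2)) →⋆ₐ[ℂ] DimDrop (Fin (q + 1)) (Option (Fin (q + 1)))) := by
  let e : Option (Fin (q + 1)) ≃ Fin (q + 2) := (finSuccEquiv (q + 1)).symm
  let g : Fin (q + 1) × Option (Fin (q + 1)) ≃ Fin (q + 1) × Fin (q + 2) :=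
    Equiv.prodCongr (Equiv.refl _) e
  have hmem : ∀ f : DimDrop (Fin (q + 1)) (Fin (q + 2)),
      (⟨fun t => (f.1 t).submatrix g g, (map_continuous f.1).matrix_submatrix g g⟩ :
        C(unitInterval, Matrix (Fin (q + 1) × Option (Fin (q + 1)))
          (Fin (q + 1) × Option (Fin (q + 1))) ℂ)) ∈ DimDrop (Fin (q + 1)) (Option (Fin (q + 1))) := by
    rintro ⟨f, ⟨x, hx⟩, ⟨y, hy⟩⟩
    refine ⟨⟨x, ?_⟩, ⟨y.submatrix e e, ?_⟩⟩
    · show (f 0).submatrix g g = _
      rw [hx]
      ext ⟨a, μ⟩ ⟨b, ν⟩
      simp [g, Matrix.one_apply]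
    · show (f 1).submatrix g g = _
      rw [hy]
      ext ⟨a, μ⟩ ⟨b, ν⟩
      simp [g]
  refine ⟨{ toFun := fun f => ⟨_, hmem f⟩
            map_one' := ?_
            map_mul' := ?_
            map_zero' := ?_
            map_add' := ?_
            commutes' := ?_
            map_star' := ?_ }⟩
  · apply Subtype.ext
    ext1 t
    exact Matrix.submatrix_one_equiv g
  · intro f h
    apply Subtype.ext
    ext1 t
    exact (Matrix.submatrix_mul_equiv (f.1 t) (h.1 t) g g g).symm
  · apply Subtype.ext
    ext1 t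
    rfl
  · intro f h
    apply Subtype.ext
    ext1 t
    rfl
  · intro r
    apply Subtype.ext
    ext1 t
    show (algebraMap ℂ (Matrix _ _ ℂ) r).submatrix g g = algebraMap ℂ (Matrix _ _ ℂ) r
    rw [Algebra.algebraMap_eq_smul_one, Algebra.algebraMap_eq_smul_one]
    show r • ((1 : Matrix _ _ ℂ).submatrix g g) = _
    rw [Matrix.submatrix_one_equiv]
  · intro f
    apply Subtype.ext
    ext1 t
    rfl

end Vale.Agent.P101K
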