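import Vale.Agent.P101K.Main
import Vale.Agent.P101K.Ext

namespace Vale.Agent.P101K

universe u

/-- A nontrivial unital C*-algebra without characters in which countable sets have commuting copies
receives unital *-homomorphisms from all the dimension drop algebras `Z_(k+2,k+3)`. -/
theorem dimdrop_of_no_char {D : Type u} [CStarAlgebra D] [Nontrivial D] (hD : HasCopies D)
    (h : IsEmpty (D →⋆ₐ[ℂ] ℂ)) (k : ℕ) :
    Nonempty (DimDrop (Fin (k + 2)) (Fin (k + 3)) →⋆ₐ[ℂ] D) := by
  let _ : PartialOrder D := CStarAlgebra.spectralOrder _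
  have _ : StarOrderedRing D := CStarAlgebra.spectralOrderedRing _
  obtain ⟨φ, h1, h2, h3, v, h4, h5⟩ := main_abstract hD h (k + 1) (Nat.le_add_left 1 k)
  obtain ⟨S⟩ := exists_PS φ h1 h2 h3 v h4 h5
  obtain ⟨α⟩ := dimdrop_hom S
  obtain ⟨β⟩ := dimdrop_reindex (k + 1)
  exact ⟨α.comp β⟩

end Vale.Agent.P101K
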