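import Vale.Agent.P101K.DimDrop

namespace Vale.Agent.P101K

open Matrix

theorem nochar_units {R : Type*} [Ring R] [Algebra ℂ R] {κ : Type} [Fintype κ] [DecidableEq κ]
    [Nontrivial κ] (χ : R →ₐ[ℂ] ℂ) (b : κ → κ → R)
    (h1 : ∀ k l, k ≠ l → b k l * b k l = 0) (h2 : ∀ k l, b k l * b l k = b k k * b k k) :
    χ (∑ k, b k k) = 0 := by
  rw [map_sum]
  refine Finset.sum_eq_zero fun k _ => ?_
  obtain ⟨l, hl⟩ := exists_ne k
  have e1 : χ (b k l) = 0 := by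
    have := congrArg χ (h1 k l hl.symm)
    rw [map_mul, map_zero] at this
    exact mul_self_eq_zero.1 this
  have e2 := congrArg χ (h2 k l)
  rw [map_mul, map_mul, e1, zero_mul] at e2
  exact mul_self_eq_zero.1 e2.symm

theorem dimdrop_no_char (ι κ : Type) [Fintype ι] [DecidableEq ι] [Fintype κ] [DecidableEq κ]
    [Nontrivial ι] [Nontrivial κ] : IsEmpty (DimDrop ι κ →⋆ₐ[ℂ] ℂ) := by
  refine ⟨fun χ => ?_⟩
  let b : κ → κ → DimDrop ι κ := fun k l =>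
    ⟨⟨fun t => (((t : ℝ) : ℂ)) • Matrix.kroneckerMap (· * ·) (1 : Matrix ι ι ℂ)
      (Matrix.single k l (1 : ℂ)), by fun_prop⟩, ⟨⟨0, by ext; simp⟩, ⟨Matrix.single k l 1, by simp⟩⟩⟩
  let c : ι → ι → DimDrop ι κ := fun k l =>
    ⟨⟨fun t => ((1 - ((t : ℝ) : ℂ))) • Matrix.kroneckerMap (· * ·)
      (Matrix.single k l (1 : ℂ)) (1 : Matrix κ κ ℂ), by fun_prop⟩,
      ⟨⟨Matrix.single k l 1, by simp⟩, ⟨0, by ext; simp⟩⟩⟩
  have hb := nochar_units (χ : DimDrop ι κ →ₐ[ℂ] ℂ) b (by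
    intro k l hkl
    apply Subtype.ext
    ext1 t
    show ((((t : ℝ) : ℂ)) • Matrix.kroneckerMap (· * ·) (1 : Matrix ι ι ℂ)
      (Matrix.single k l (1 : ℂ))) * ((((t : ℝ) : ℂ)) • Matrix.kroneckerMap (· * ·) (1 : Matrix ι ι ℂ)
      (Matrix.single k l (1 : ℂ))) = 0
    rw [smul_mul_smul_comm, ← Matrix.mul_kronecker_mul, Matrix.single_mul_single_of_ne _ _ _ _ hkl.symm]
    simp) (by
    intro k l
    apply Subtype.ext
    ext1 t
    show ((((t : ℝ) : ℂ)) • Matrix.kroneckerMap (· * ·) (1 : Matrix ι ι ℂ)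
      (Matrix.single k l (1 : ℂ))) * ((((t : ℝ) : ℂ)) • Matrix.kroneckerMap (· * ·) (1 : Matrix ι ι ℂ)
      (Matrix.single l k (1 : ℂ))) = ((((t : ℝ) : ℂ)) • Matrix.kroneckerMap (· * ·) (1 : Matrix ι ι ℂ)
      (Matrix.single k k (1 : ℂ))) * ((((t : ℝ) : ℂ)) • Matrix.kroneckerMap (· * ·) (1 : Matrix ι ι ℂ)
      (Matrix.single k k (1 : ℂ)))
    rw [smul_mul_smul_comm, smul_mul_smul_comm, ← Matrix.mul_kronecker_mul, ← Matrix.mul_kronecker_mul,
      Matrix.single_mul_single_same, Matrix.single_mul_single_same])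
  have hc := nochar_units (χ : DimDrop ι κ →ₐ[ℂ] ℂ) c (by
    intro k l hkl
    apply Subtype.ext
    ext1 t
    show ((1 - ((t : ℝ) : ℂ)) • Matrix.kroneckerMap (· * ·)
      (Matrix.single k l (1 : ℂ)) (1 : Matrix κ κ ℂ)) * ((1 - ((t : ℝ) : ℂ)) • Matrix.kroneckerMap (· * ·)
      (Matrix.single k l (1 : ℂ)) (1 : Matrix κ κ ℂ)) = 0
    rw [smul_mul_smul_comm, ← Matrix.mul_kronecker_mul, Matrix.single_mul_single_of_ne _ _ _ _ hkl.symm]
    simp) (by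
    intro k l
    apply Subtype.ext
    ext1 t
    show ((1 - ((t : ℝ) : ℂ)) • Matrix.kroneckerMap (· * ·)
      (Matrix.single k l (1 : ℂ)) (1 : Matrix κ κ ℂ)) * ((1 - ((t : ℝ) : ℂ)) • Matrix.kroneckerMap (· * ·)
      (Matrix.single l k (1 : ℂ)) (1 : Matrix κ κ ℂ)) = ((1 - ((t : ℝ) : ℂ)) • Matrix.kroneckerMap (· * ·)
      (Matrix.single k k (1 : ℂ)) (1 : Matrix κ κ ℂ)) * ((1 - ((t : ℝ) : ℂ)) • Matrix.kroneckerMap (· * ·)
      (Matrix.single k k (1 : ℂ)) (1 : Matrix κ κ ℂ))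
    rw [smul_mul_smul_comm, smul_mul_smul_comm, ← Matrix.mul_kronecker_mul, ← Matrix.mul_kronecker_mul,
      Matrix.single_mul_single_same, Matrix.single_mul_single_same])
  have hsum : (∑ k, b k k) + (∑ k, c k k) = 1 := by
    apply Subtype.ext
    ext1 t
    have hcoe : ∀ (α : Type) [Fintype α] (f : α → DimDrop ι κ),
        (((∑ k, f k : DimDrop ι κ)) : C(unitInterval, Matrix (ι × κ) (ι × κ) ℂ)) t
          = ∑ k, ((f k : DimDrop ι κ) : C(unitInterval, Matrix (ι × κ) (ι × κ) ℂ)) t := by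
      intro α _ f
      rw [AddSubmonoidClass.coe_finsetSum, ContinuousMap.sum_apply]
    show (((∑ k, b k k : DimDrop ι κ)) : C(unitInterval, Matrix (ι × κ) (ι × κ) ℂ)) t
      + (((∑ k, c k k : DimDrop ι κ)) : C(unitInterval, Matrix (ι × κ) (ι × κ) ℂ)) t = 1
    rw [hcoe, hcoe]
    show (∑ k, (((t : ℝ) : ℂ)) • Matrix.kroneckerMap (· * ·) (1 : Matrix ι ι ℂ)
      (Matrix.single k k (1 : ℂ))) + (∑ k, (1 - ((t : ℝ) : ℂ)) • Matrix.kroneckerMap (· * ·)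
      (Matrix.single k k (1 : ℂ)) (1 : Matrix κ κ ℂ)) = 1
    ext ⟨i, k⟩ ⟨j, l⟩
    rw [Matrix.add_apply, Matrix.sum_apply, Matrix.sum_apply]
    simp only [Matrix.smul_apply, Matrix.kroneckerMap_apply, Matrix.single_apply, Matrix.one_apply,
      smul_eq_mul, Prod.mk.injEq]
    rw [Finset.sum_eq_single k, Finset.sum_eq_single i]
    · by_cases h1 : i = j <;> by_cases h2 : k = l <;> simp [h1, h2]
    · intro m _ hm
      simp [hm]
    · simp
    · intro m _ hm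
      simp [hm]
    · simp
  have h1 : χ 1 = 0 := by
    rw [← hsum, map_add]
    have hb' : χ (∑ k, b k k) = 0 := hb
    have hc' : χ (∑ k, c k k) = 0 := hc
    rw [hb', hc', add_zero]
  rw [map_one] at h1
  exact one_ne_zero h1

end Vale.Agent.P101K
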