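import Vale.Agent.P101K.Defs
import Vale.Agent.P101K.Aomega

open scoped ENNReal Topology
open Filter

namespace Vale.Agent.P101K

universe u

/-- SEL.  Recursive choice. -/
theorem select (ω : Ultrafilter ℕ) (Q : ℕ → Prop) (hQ : ∀ᶠ m in (ω : Filter ℕ), Q m)
    (R : ℕ → ℕ → Prop) (hR : ∀ a, ∀ᶠ b in (ω : Filter ℕ), R a b) (n : ℕ) :
    ∃ τ : ℕ → ℕ, (∀ i < n, Q (τ i)) ∧ ∀ i j, i < j → j < n → R (τ i) (τ j) := by
  induction n with
  | zero => exact ⟨fun _ => 0, by simp, by simp⟩
  | succ n ih =>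
    obtain ⟨τ, h1, h2⟩ := ih
    have h3 : ∀ᶠ m in (ω : Filter ℕ), Q m ∧ ∀ i ∈ Finset.range n, R (τ i) m := by
      refine hQ.and ?_
      rw [Finset.eventually_all]
      intro i _
      exact hR (τ i)
    obtain ⟨m, hm1, hm2⟩ := h3.exists
    refine ⟨Function.update τ n m, ?_, ?_⟩
    · intro i hi
      rcases Nat.lt_succ_iff_lt_or_eq.mp hi with h | h
      · rw [Function.update_of_ne (by omega)]
        exact h1 i h
      · subst h
        simpa using hm1
    · intro i j hij hj
      rcases Nat.lt_succ_iff_lt_or_eq.mp hj with h | h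
      · rw [Function.update_of_ne (by omega), Function.update_of_ne (by omega)]
        exact h2 i j hij h
      · subst h
        rw [Function.update_of_ne (by omega), Function.update_self]
        exact hm2 i (Finset.mem_range.mpr hij)

/-- FACT.  Factorization of star homomorphisms. -/
theorem star_factor {S T D : Type*} [Ring S] [Algebra ℂ S] [StarRing S] [Ring T] [Algebra ℂ T]
    [StarRing T] [Ring D] [Algebra ℂ D] [StarRing D] (ρ : S →⋆ₐ[ℂ] T)
    (hρ : Function.Surjective ρ) (θ : S →⋆ₐ[ℂ] D) (h : ∀ s, ρ s = 0 → θ s = 0) :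
    ∃ θ' : T →⋆ₐ[ℂ] D, ∀ s, θ' (ρ s) = θ s := by
  have key : ∀ s s' : S, ρ s = ρ s' → θ s = θ s' := by
    intro s s' hs
    have h0 := h (s - s') (by rw [map_sub, hs, sub_self])
    rw [map_sub] at h0
    exact sub_eq_zero.mp h0
  have hg : ∀ t, ρ (Function.surjInv hρ t) = t := Function.surjInv_eq hρ
  refine ⟨{ toFun := fun t => θ (Function.surjInv hρ t)
            map_one' := ?_
            map_mul' := ?_
            map_zero' := ?_
            map_add' := ?_
            commutes' := ?_
            map_star' := ?_ }, ?_⟩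
  · rw [← map_one θ]
    exact key _ _ (by rw [hg, map_one])
  · intro x y
    rw [← map_mul]
    exact key _ _ (by rw [hg, map_mul, hg, hg])
  · show θ (Function.surjInv hρ 0) = 0
    rw [← map_zero θ]
    exact key _ _ (by rw [hg, map_zero])
  · intro x y
    show θ _ = θ _ + θ _
    rw [← map_add]
    exact key _ _ (by rw [hg, map_add, hg, hg])
  · intro r
    show θ _ = _
    rw [← AlgHomClass.commutes θ r]
    exact key _ _ (by rw [hg, AlgHomClass.commutes])
  · intro x
    show θ _ = star (θ _)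
    rw [← map_star]
    exact key _ _ (by rw [hg, map_star, hg])
  · intro s
    exact key _ _ (hg _)

/-- KER.  A subspace of a countably generated star algebra has countable dimension (monomials span;
`Module.rank ≤ ℵ₀`). -/
theorem countable_span {B : Type u} [Ring B] [Algebra ℂ B] [StarRing B] [StarModule ℂ B]
    (Y : Set B) (hY : Y.Countable) (N : Submodule ℂ B)
    (hN : ∀ x ∈ N, x ∈ StarAlgebra.adjoin ℂ Y) :
    ∃ y : ℕ → B, (∀ i, y i ∈ N) ∧ N ≤ Submodule.span ℂ (Set.range y) := by
  classical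
  have hYs : (Y ∪ star Y).Countable :=
    hY.union (by rw [← Set.image_star]; exact hY.image _)
  have hMc : (Submonoid.closure (Y ∪ star Y) : Set B).Countable := by
    have : Countable (Y ∪ star Y : Set B) := hYs.to_subtype
    refine (Set.countable_range
      (fun l : List (Y ∪ star Y : Set B) => (l.map Subtype.val).prod)).mono ?_
    intro x hx
    obtain ⟨l, hl, rfl⟩ := Submonoid.exists_list_of_mem_closure hx
    refine ⟨l.attach.map (fun z => ⟨z.1, hl z.1 z.2⟩), ?_⟩
    simp only [List.map_map, Function.comp_def]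
    simp
  have hle : N ≤ Submodule.span ℂ (Submonoid.closure (Y ∪ star Y) : Set B) := by
    intro x hx
    have h : x ∈ (StarAlgebra.adjoin ℂ Y).toSubalgebra := hN x hx
    rw [StarAlgebra.adjoin_toSubalgebra, ← Subalgebra.mem_toSubmodule, Algebra.adjoin_eq_span] at h
    exact h
  have hr : Module.rank ℂ N ≤ Cardinal.aleph0 :=
    (Submodule.rank_mono hle).trans ((rank_span_le _).trans hMc.le_aleph0)
  let b := Module.Basis.ofVectorSpace ℂ N
  have hc : Countable (Module.Basis.ofVectorSpaceIndex ℂ N) := by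
    rw [← Cardinal.mk_le_aleph0_iff, b.mk_eq_rank'']
    exact hr
  have hS : (insert 0 (Set.range (fun i => ((b i : N) : B)))).Countable :=
    (Set.countable_range _).insert 0
  obtain ⟨y, hy⟩ := hS.exists_eq_range (Set.insert_nonempty _ _)
  refine ⟨y, fun i => ?_, ?_⟩
  · have : y i ∈ insert 0 (Set.range (fun i => ((b i : N) : B))) := by
      rw [hy]; exact Set.mem_range_self i
    rcases this with h | ⟨j, h⟩
    · rw [h]; exact N.zero_mem
    · rw [← h]; exact (b j).2
  · intro x hx
    rw [← hy]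
    have h1 : (⟨x, hx⟩ : N) ∈ Submodule.span ℂ (Set.range b) := by
      rw [b.span_eq]; trivial
    have h2 := Submodule.mem_map_of_mem (f := N.subtype) h1
    rw [Submodule.map_span, ← Set.range_comp] at h2
    exact Submodule.span_mono (Set.subset_insert _ _) h2

/-- REIDX.  Reindexing of bounded sequences. -/
theorem exists_reidx (A : Type u) [CStarAlgebra A] [Nontrivial A] (σ : ℕ → ℕ) :
    ∃ f : Bdd A →⋆ₐ[ℂ] Bdd A, ∀ a n, (f a) n = a (σ n) := by
  have hmem : ∀ a : Bdd A, Memℓp (fun n => a (σ n)) ∞ := by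
    intro a
    refine memℓp_infty ⟨‖a‖, ?_⟩
    rintro _ ⟨n, rfl⟩
    exact lp.norm_apply_le_norm (by simp) a (σ n)
  refine ⟨{ toFun := fun a => ⟨fun n => a (σ n), hmem a⟩
            map_one' := ?_
            map_mul' := ?_
            map_zero' := ?_
            map_add' := ?_
            commutes' := ?_
            map_star' := ?_ }, fun a n => rfl⟩
  · exact lp.ext rfl
  · intro a b
    exact lp.ext rfl
  · exact lp.ext rfl
  · intro a b
    exact lp.ext rfl
  · intro r
    exact lp.ext rfl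
  · intro a
    exact lp.ext rfl

/-- SIG.  The choice of the reindexing functions.  `x` = countably many lifts of central sequences,
`y` = countably many null sequences. Enumerate a dense sequence of `A`; at stage `n` use `select`
with `Q m` = (`‖y k m‖ < 1/(n+1)` and `‖[x k m, a_l]‖ < 1/(n+1)` for `k, l < n`) and
`R a b` = (`‖[x k b, x l a]‖ < 1/(n+1)` for `k, l < n`). -/
theorem exists_sigma (A : Type u) [CStarAlgebra A] [Nontrivial A]
    [TopologicalSpace.SeparableSpace A] (ω : Ultrafilter ℕ) (hω : (ω : Filter ℕ) ≤ atTop)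
    (x y : ℕ → Bdd A) (hx : ∀ k (a : A), Tendsto (fun n => ‖x k n * a - a * x k n‖) ω (𝓝 0))
    (hy : ∀ k, Tendsto (fun n => ‖y k n‖) ω (𝓝 0)) :
    ∃ σ : ℕ → ℕ → ℕ, (∀ i k, Tendsto (fun n => ‖y k (σ i n)‖) ω (𝓝 0)) ∧
      (∀ i k (a : A), Tendsto (fun n => ‖x k (σ i n) * a - a * x k (σ i n)‖) ω (𝓝 0)) ∧
      ∀ i j k l, i ≠ j →
        Tendsto (fun n => ‖x k (σ i n) * x l (σ j n) - x l (σ j n) * x k (σ i n)‖) ω (𝓝 0) := by
  obtain ⟨d, hd⟩ := TopologicalSpace.exists_dense_seq A
  have hpos : ∀ n : ℕ, (0 : ℝ) < 1 / ((n : ℝ) + 1) := fun n => by positivity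
  have hsel : ∀ n : ℕ, ∃ τ : ℕ → ℕ,
      (∀ i < n, (∀ k ∈ Finset.range n, ‖y k (τ i)‖ < 1 / ((n : ℝ) + 1)) ∧
        ∀ k ∈ Finset.range n, ∀ l ∈ Finset.range n,
          ‖x k (τ i) * d l - d l * x k (τ i)‖ < 1 / ((n : ℝ) + 1)) ∧
      ∀ i j, i < j → j < n → ∀ k ∈ Finset.range n, ∀ l ∈ Finset.range n,
        ‖x k (τ j) * x l (τ i) - x l (τ i) * x k (τ j)‖ < 1 / ((n : ℝ) + 1) := by
    intro n
    have hQ : ∀ᶠ m in (ω : Filter ℕ), (∀ k ∈ Finset.range n, ‖y k m‖ < 1 / ((n : ℝ) + 1)) ∧
        ∀ k ∈ Finset.range n, ∀ l ∈ Finset.range n,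
          ‖x k m * d l - d l * x k m‖ < 1 / ((n : ℝ) + 1) := by
      refine Filter.Eventually.and ?_ ?_
      · rw [Finset.eventually_all]
        intro k _
        exact (hy k).eventually_lt_const (hpos n)
      · rw [Finset.eventually_all]
        intro k _
        rw [Finset.eventually_all]
        intro l _
        exact (hx k (d l)).eventually_lt_const (hpos n)
    have hR : ∀ a : ℕ, ∀ᶠ b in (ω : Filter ℕ), ∀ k ∈ Finset.range n, ∀ l ∈ Finset.range n,
        ‖x k b * x l a - x l a * x k b‖ < 1 / ((n : ℝ) + 1) := by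
      intro a
      rw [Finset.eventually_all]
      intro k _
      rw [Finset.eventually_all]
      intro l _
      exact (hx k (x l a)).eventually_lt_const (hpos n)
    obtain ⟨τ, h1, h2⟩ := select ω _ hQ (fun a b => ∀ k ∈ Finset.range n, ∀ l ∈ Finset.range n,
        ‖x k b * x l a - x l a * x k b‖ < 1 / ((n : ℝ) + 1)) hR n
    exact ⟨τ, h1, h2⟩
  choose τ hτ1 hτ2 using hsel
  have hlim : Tendsto (fun n : ℕ => 1 / ((n : ℝ) + 1)) (ω : Filter ℕ) (𝓝 0) :=
    tendsto_one_div_add_atTop_nhds_zero_nat.mono_left hω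
  have hevt : ∀ N : ℕ, ∀ᶠ n in (ω : Filter ℕ), N < n := fun N =>
    hω (eventually_gt_atTop N)
  refine ⟨fun i n => τ n i, ?_, ?_, ?_⟩
  · intro i k
    refine squeeze_zero' (Filter.Eventually.of_forall fun n => norm_nonneg _) ?_ hlim
    filter_upwards [hevt (max i k)] with n hn
    have hi : i < n := lt_of_le_of_lt (le_max_left _ _) hn
    have hk : k < n := lt_of_le_of_lt (le_max_right _ _) hn
    exact ((hτ1 n i hi).1 k (Finset.mem_range.mpr hk)).le
  · intro i k a
    rw [Metric.tendsto_nhds]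
    intro ε hε
    -- choose a dense element near `a`
    obtain ⟨z, hz, l, rfl⟩ := Metric.dense_iff.mp hd a (ε / (4 * (‖x k‖ + 1))) (by positivity)
    have hz' : ‖d l - a‖ < ε / (4 * (‖x k‖ + 1)) := by
      rw [← dist_eq_norm]; exact Metric.mem_ball.mp hz
    filter_upwards [hevt (max i (max k l)), hlim.eventually_lt_const (half_pos hε)] with n hn hn2
    have hi : i < n := lt_of_le_of_lt (le_max_left _ _) hn
    have hk : k < n := lt_of_le_of_lt ((le_max_left _ _).trans (le_max_right _ _)) hn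
    have hl : l < n := lt_of_le_of_lt ((le_max_right _ _).trans (le_max_right _ _)) hn
    have h1 := (hτ1 n i hi).2 k (Finset.mem_range.mpr hk) l (Finset.mem_range.mpr hl)
    have hxn : ‖x k (τ n i)‖ ≤ ‖x k‖ := lp.norm_apply_le_norm ENNReal.top_ne_zero (x k) _
    have e : x k (τ n i) * a - a * x k (τ n i) =
        (x k (τ n i) * d l - d l * x k (τ n i)) -
          (x k (τ n i) * (d l - a) - (d l - a) * x k (τ n i)) := by
      noncomm_ring
    have h2 : ‖x k (τ n i) * (d l - a)‖ ≤ ‖x k‖ * ‖d l - a‖ :=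
      (norm_mul_le _ _).trans (mul_le_mul_of_nonneg_right hxn (norm_nonneg _))
    have h3 : ‖(d l - a) * x k (τ n i)‖ ≤ ‖x k‖ * ‖d l - a‖ := by
      refine (norm_mul_le _ _).trans ?_
      rw [mul_comm]
      exact mul_le_mul_of_nonneg_right hxn (norm_nonneg _)
    have h4 : ‖x k‖ * ‖d l - a‖ ≤ ε / 4 := by
      have : (‖x k‖ + 1) * ‖d l - a‖ ≤ (‖x k‖ + 1) * (ε / (4 * (‖x k‖ + 1))) :=
        mul_le_mul_of_nonneg_left hz'.le (by positivity)
      have e2 : (‖x k‖ + 1) * (ε / (4 * (‖x k‖ + 1))) = ε / 4 := by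
        field_simp
      nlinarith [norm_nonneg (d l - a)]
    rw [Real.dist_0_eq_abs, abs_norm, e]
    calc _ ≤ ‖x k (τ n i) * d l - d l * x k (τ n i)‖ +
          ‖x k (τ n i) * (d l - a) - (d l - a) * x k (τ n i)‖ := norm_sub_le _ _
      _ ≤ ‖x k (τ n i) * d l - d l * x k (τ n i)‖ +
          (‖x k (τ n i) * (d l - a)‖ + ‖(d l - a) * x k (τ n i)‖) := by
          gcongr
          exact norm_sub_le _ _
      _ < ε := by linarith
  · intro i j k l hij
    refine squeeze_zero' (Filter.Eventually.of_forall fun n => norm_nonneg _) ?_ hlim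
    filter_upwards [hevt (max (max i j) (max k l))] with n hn
    have hi : i < n := lt_of_le_of_lt ((le_max_left _ _).trans (le_max_left _ _)) hn
    have hj : j < n := lt_of_le_of_lt ((le_max_right _ _).trans (le_max_left _ _)) hn
    have hk : k < n := lt_of_le_of_lt ((le_max_left _ _).trans (le_max_right _ _)) hn
    have hl : l < n := lt_of_le_of_lt ((le_max_right _ _).trans (le_max_right _ _)) hn
    rcases lt_or_gt_of_ne hij with h | h
    · have := hτ2 n i j h hj l (Finset.mem_range.mpr hl) k (Finset.mem_range.mpr hk)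
      rw [norm_sub_rev] at this
      exact this.le
    · exact (hτ2 n j i h hi k (Finset.mem_range.mpr hk) l (Finset.mem_range.mpr hl)).le

/-- the relative commutant `F_ω(A) = A_ω ∩ A'` -/
noncomputable def Fom (A : Type u) [CStarAlgebra A] [Nontrivial A] (ω : Ultrafilter ℕ) :
    StarSubalgebra ℂ (Aom A ω) :=
  StarSubalgebra.centralizer ℂ (Set.range fun a : A => omk A ω (cst A a))

/-- FCL. -/
theorem fom_closed (A : Type u) [CStarAlgebra A] [Nontrivial A] (ω : Ultrafilter ℕ) :
    IsClosed (Fom A ω : Set (Aom A ω)) := by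
  unfold Fom
  rw [StarSubalgebra.coe_centralizer]
  exact Set.isClosed_centralizer _

private theorem fmem_norm_eq (A : Type u) [CStarAlgebra A] [Nontrivial A] (ω : Ultrafilter ℕ)
    (x : Bdd A) {l : ℝ} (h : Tendsto (fun n => ‖x n‖) ω (𝓝 l)) : ‖omk A ω x‖ = l :=
  tendsto_nhds_unique (omk_norm A ω x) h

private theorem fmem_cst_star (A : Type u) [CStarAlgebra A] [Nontrivial A] (a : A) :
    star (cst A a) = cst A (star a) := by
  ext n
  rfl

private theorem fmem_sub (A : Type u) [CStarAlgebra A] [Nontrivial A] (x : Bdd A) (a : A) (n : ℕ) :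
    (x * cst A a - cst A a * x) n = x n * a - a * x n := by
  rw [lp.coeFn_sub, Pi.sub_apply, lp.infty_coeFn_mul, lp.infty_coeFn_mul]
  rfl

noncomputable instance fomCStar (A : Type u) [CStarAlgebra A] [Nontrivial A] (ω : Ultrafilter ℕ) :
    CStarAlgebra (Fom A ω) :=
  haveI : IsClosed (Fom A ω : Set (Aom A ω)) := fom_closed A ω
  StarSubalgebra.cstarAlgebra (Fom A ω)

/-- FNT. -/
instance fomNontrivial (A : Type u) [CStarAlgebra A] [Nontrivial A] (ω : Ultrafilter ℕ) :
    Nontrivial (Fom A ω) := by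
  refine ⟨⟨0, 1, fun h => ?_⟩⟩
  have h1 : (0 : Aom A ω) = 1 := congrArg (fun z : Fom A ω => (z : Aom A ω)) h
  have h2 : ‖omk A ω 1‖ = 1 := by
    refine fmem_norm_eq A ω 1 ?_
    have h3 : (fun n => ‖(1 : Bdd A) n‖) = fun _ => (1 : ℝ) := by
      funext n
      rw [lp.infty_coeFn_one, Pi.one_apply, CStarRing.norm_one]
    rw [h3]
    exact tendsto_const_nhds
  rw [map_one, ← h1, norm_zero] at h2
  exact zero_ne_one h2

/-- FMEM.  Central sequences. -/
theorem omk_mem_fom (A : Type u) [CStarAlgebra A] [Nontrivial A] (ω : Ultrafilter ℕ) (x : Bdd A) :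
    omk A ω x ∈ Fom A ω ↔
      ∀ a : A, Tendsto (fun n => ‖x n * a - a * x n‖) ω (𝓝 0) := by
  have key : ∀ a : A, omk A ω (cst A a) * omk A ω x = omk A ω x * omk A ω (cst A a) ↔
      Tendsto (fun n => ‖x n * a - a * x n‖) ω (𝓝 0) := by
    intro a
    have h1 : (fun n => ‖(x * cst A a - cst A a * x) n‖) = fun n => ‖x n * a - a * x n‖ := by
      funext n
      rw [fmem_sub]
    have h2 := omk_norm A ω (x * cst A a - cst A a * x)
    rw [h1] at h2
    constructor
    · intro h
      have h3 : omk A ω (x * cst A a - cst A a * x) = 0 := by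
        rw [map_sub, map_mul, map_mul, h, sub_self]
      rw [h3, norm_zero] at h2
      exact h2
    · intro h
      have h3 : ‖omk A ω (x * cst A a - cst A a * x)‖ = 0 := tendsto_nhds_unique h2 h
      rw [norm_eq_zero, map_sub, map_mul, map_mul, sub_eq_zero] at h3
      exact h3.symm
  unfold Fom
  rw [StarSubalgebra.mem_centralizer_iff]
  constructor
  · intro h a
    exact (key a).1 (h _ ⟨a, rfl⟩).1
  · rintro h _ ⟨a, rfl⟩
    refine ⟨(key a).2 (h a), ?_⟩
    show star (omk A ω (cst A a)) * omk A ω x = omk A ω x * star (omk A ω (cst A a))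
    rw [← map_star, fmem_cst_star]
    exact (key (star a)).2 (h (star a))

private theorem omk_eq_zero_of_tendsto (A : Type u) [CStarAlgebra A] [Nontrivial A]
    (ω : Ultrafilter ℕ) (c : Bdd A) (h : Tendsto (fun n => ‖c n‖) ω (𝓝 0)) :
    omk A ω c = 0 := by
  have h1 := omk_norm A ω c
  exact norm_eq_zero.1 (tendsto_nhds_unique h1 h)

private theorem tendsto_of_omk_eq_zero (A : Type u) [CStarAlgebra A] [Nontrivial A]
    (ω : Ultrafilter ℕ) (c : Bdd A) (h : omk A ω c = 0) :
    Tendsto (fun n => ‖c n‖) ω (𝓝 0) := by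
  have h1 := omk_norm A ω c
  rwa [h, norm_zero] at h1

/-- HASC.  Commuting copies in `F_ω(A)`.  Lifts of `X` and of `star X` (countable family `x`), the
kernel of `omk` in the star algebra generated by the lifts is spanned by a sequence `y`
(`countable_span`), `exists_sigma`, `exists_reidx`, `star_factor`. -/
theorem fom_hasCopies (A : Type u) [CStarAlgebra A] [Nontrivial A]
    [TopologicalSpace.SeparableSpace A] (ω : Ultrafilter ℕ) (hω : (ω : Filter ℕ) ≤ atTop) :
    HasCopies (Fom A ω) := by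
  classical
  intro X hX
  have hlift : ∀ d : Fom A ω, ∃ x : Bdd A, omk A ω x = (d : Aom A ω) :=
    fun d => omk_surjective A ω _
  choose lift hlift using hlift
  set L : Set (Bdd A) := lift '' X with hL
  have hLc : L.Countable := hX.image _
  set L' : Set (Bdd A) := insert 0 (L ∪ (fun z => star z) '' L) with hL'
  have hL'c : L'.Countable := (hLc.union (hLc.image _)).insert 0
  obtain ⟨x, hx⟩ := hL'c.exists_eq_range ⟨0, Set.mem_insert _ _⟩
  have hL'F : ∀ z ∈ L', omk A ω z ∈ Fom A ω := by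
    intro z hz
    rcases hz with rfl | ⟨d, hd, rfl⟩ | ⟨z', ⟨d, hd, rfl⟩, rfl⟩
    · rw [map_zero]; exact zero_mem _
    · rw [hlift]; exact d.2
    · show omk A ω (star (lift d)) ∈ Fom A ω
      rw [map_star, hlift]; exact star_mem d.2
  -- the kernel
  let S : StarSubalgebra ℂ (Bdd A) := StarAlgebra.adjoin ℂ L
  let N : Submodule ℂ (Bdd A) :=
    { carrier := {s | s ∈ S ∧ omk A ω s = 0}
      add_mem' := fun {a b} ha hb => ⟨add_mem ha.1 hb.1, by rw [map_add, ha.2, hb.2, add_zero]⟩
      zero_mem' := ⟨zero_mem _, map_zero _⟩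
      smul_mem' := fun c a ha => ⟨S.smul_mem ha.1 c, by rw [map_smul, ha.2, smul_zero]⟩ }
  obtain ⟨y, hyN, hyspan⟩ := countable_span L hLc N (fun z hz => hz.1)
  obtain ⟨σ, hσ1, hσ2, hσ3⟩ := exists_sigma A ω hω x y
    (fun k => (omk_mem_fom A ω (x k)).1 (hL'F _ (by rw [hx]; exact Set.mem_range_self k)))
    (fun k => tendsto_of_omk_eq_zero A ω _ (hyN k).2)
  have hf : ∀ i, ∃ f : Bdd A →⋆ₐ[ℂ] Bdd A, ∀ a n, (f a) n = a (σ i n) :=
    fun i => exists_reidx A (σ i)
  choose f hf using hf
  let φ : ℕ → (Bdd A →⋆ₐ[ℂ] Aom A ω) := fun i => (omk A ω).comp (f i)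
  have hφ : ∀ i s, φ i s = omk A ω (f i s) := fun i s => rfl
  -- membership
  have hmemL' : ∀ i, ∀ z ∈ L', φ i z ∈ Fom A ω := by
    intro i z hz
    rw [hx] at hz
    obtain ⟨k, rfl⟩ := hz
    rw [hφ, omk_mem_fom]
    intro a
    have := hσ2 i k a
    simpa only [hf] using this
  have hmem : ∀ i, ∀ s ∈ S, φ i s ∈ Fom A ω := by
    intro i
    have h1 : S ≤ (Fom A ω).comap (φ i) := by
      refine StarAlgebra.adjoin_le fun z hz => ?_
      exact hmemL' i z (Set.mem_insert_of_mem _ (Set.mem_union_left _ hz))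
    exact fun s hs => h1 hs
  -- kernel
  have hker : ∀ i, ∀ s ∈ S, omk A ω s = 0 → φ i s = 0 := by
    intro i s hs h0
    have h1 : s ∈ Submodule.span ℂ (Set.range y) := hyspan ⟨hs, h0⟩
    have h2 : Submodule.span ℂ (Set.range y) ≤ LinearMap.ker ((φ i : Bdd A →ₐ[ℂ] Aom A ω)).toLinearMap := by
      rw [Submodule.span_le]
      rintro _ ⟨k, rfl⟩
      show φ i (y k) = 0
      rw [hφ]
      refine omk_eq_zero_of_tendsto A ω _ ?_
      have := hσ1 i k
      simpa only [hf] using this
    exact h2 h1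
  have hwd : ∀ i, ∀ s ∈ S, ∀ s' ∈ S, omk A ω s = omk A ω s' → φ i s = φ i s' := by
    intro i s hs s' hs' h
    have := hker i (s - s') (sub_mem hs hs') (by rw [map_sub, h, sub_self])
    rwa [map_sub, sub_eq_zero] at this
  -- commutation
  have hcL : ∀ i j, i ≠ j → ∀ z ∈ L', ∀ w ∈ L', Commute (φ i z) (φ j w) := by
    intro i j hij z hz w hw
    rw [hx] at hz hw
    obtain ⟨k, rfl⟩ := hz
    obtain ⟨l, rfl⟩ := hw
    have h1 : omk A ω (f i (x k) * f j (x l) - f j (x l) * f i (x k)) = 0 := by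
      refine omk_eq_zero_of_tendsto A ω _ ?_
      have := hσ3 i j k l hij
      refine this.congr fun n => ?_
      rw [lp.coeFn_sub, Pi.sub_apply, lp.infty_coeFn_mul, lp.infty_coeFn_mul, Pi.mul_apply,
        Pi.mul_apply, hf, hf]
    rw [map_sub, map_mul, map_mul, sub_eq_zero] at h1
    exact h1
  have hLL' : ∀ z ∈ L, z ∈ L' := fun z hz => Set.mem_insert_of_mem _ (Set.mem_union_left _ hz)
  have hsLL' : ∀ z ∈ L, star z ∈ L' := fun z hz =>
    Set.mem_insert_of_mem _ (Set.mem_union_right _ ⟨z, hz, rfl⟩)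
  have hc1 : ∀ i j, i ≠ j → ∀ s ∈ S, ∀ w ∈ L, Commute (φ i s) (φ j w) := by
    intro i j hij s hs w hw
    have h1 : S ≤ (StarSubalgebra.centralizer ℂ {φ j w}).comap (φ i) := by
      refine StarAlgebra.adjoin_le fun z hz => ?_
      show φ i z ∈ StarSubalgebra.centralizer ℂ {φ j w}
      rw [StarSubalgebra.mem_centralizer_iff]
      rintro g rfl
      refine ⟨(hcL i j hij z (hLL' z hz) w (hLL' w hw)).symm.eq, ?_⟩
      have := (hcL i j hij z (hLL' z hz) (star w) (hsLL' w hw)).symm.eq
      rwa [map_star] at this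
    have h2 := h1 hs
    have h3 : φ i s ∈ StarSubalgebra.centralizer ℂ {φ j w} := h2
    rw [StarSubalgebra.mem_centralizer_iff] at h3
    exact ((h3 _ rfl).1 : φ j w * φ i s = φ i s * φ j w).symm
  have hc2 : ∀ i j, i ≠ j → ∀ s ∈ S, ∀ t ∈ S, Commute (φ i s) (φ j t) := by
    intro i j hij s hs t ht
    have h1 : S ≤ (StarSubalgebra.centralizer ℂ {φ i s}).comap (φ j) := by
      refine StarAlgebra.adjoin_le fun z hz => ?_
      show φ j z ∈ StarSubalgebra.centralizer ℂ {φ i s}
      rw [StarSubalgebra.mem_centralizer_iff]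
      rintro g rfl
      refine ⟨(hc1 i j hij s hs z hz).eq, ?_⟩
      have := (hc1 i j hij (star s) (star_mem hs) z hz).eq
      rwa [map_star] at this
    have h3 : φ j t ∈ StarSubalgebra.centralizer ℂ {φ i s} := h1 ht
    rw [StarSubalgebra.mem_centralizer_iff] at h3
    exact ((h3 _ rfl).1 : φ i s * φ j t = φ j t * φ i s)
  -- lifts of elements of the star algebra
  have hsur : ∀ t : StarAlgebra.adjoin ℂ X, ∃ s ∈ S, omk A ω s = ((t : Fom A ω) : Aom A ω) := by
    intro t
    have h1 : ((t : Fom A ω) : Aom A ω) ∈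
        (StarAlgebra.adjoin ℂ X).map (Fom A ω).subtype :=
      ⟨(t : Fom A ω), t.2, rfl⟩
    rw [StarAlgHom.map_adjoin] at h1
    have h2 : ((Fom A ω).subtype '' X) = omk A ω '' L := by
      rw [hL, Set.image_image]
      refine Set.image_congr fun d _ => ?_
      exact (hlift d).symm
    rw [h2, ← StarAlgHom.map_adjoin] at h1
    obtain ⟨s, hs, hst⟩ := h1
    exact ⟨s, hs, hst⟩
  choose g hgS hg using hsur
  let θ : ℕ → (StarAlgebra.adjoin ℂ X →⋆ₐ[ℂ] Fom A ω) := fun i =>
    { toFun := fun t => ⟨φ i (g t), hmem i _ (hgS t)⟩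
      map_one' := by
        refine Subtype.ext ?_
        have := hwd i (g 1) (hgS 1) 1 (one_mem _) (by rw [hg, map_one]; rfl)
        rw [map_one] at this
        exact this
      map_mul' := fun a b => by
        refine Subtype.ext ?_
        have := hwd i (g (a * b)) (hgS _) (g a * g b) (mul_mem (hgS a) (hgS b))
          (by rw [hg, map_mul, hg, hg]; rfl)
        rw [map_mul] at this
        exact this
      map_zero' := by
        refine Subtype.ext ?_
        have := hwd i (g 0) (hgS 0) 0 (zero_mem _) (by rw [hg, map_zero]; rfl)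
        rw [map_zero] at this
        exact this
      map_add' := fun a b => by
        refine Subtype.ext ?_
        have := hwd i (g (a + b)) (hgS _) (g a + g b) (add_mem (hgS a) (hgS b))
          (by rw [hg, map_add, hg, hg]; rfl)
        rw [map_add] at this
        exact this
      commutes' := fun c => by
        refine Subtype.ext ?_
        have := hwd i (g (algebraMap ℂ _ c)) (hgS _) (algebraMap ℂ _ c)
          (S.algebraMap_mem c) (by rw [hg, AlgHomClass.commutes]; rfl)
        rw [AlgHomClass.commutes] at this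
        exact this
      map_star' := fun a => by
        refine Subtype.ext ?_
        have := hwd i (g (star a)) (hgS _) (star (g a)) (star_mem (hgS a))
          (by rw [hg, map_star, hg]; rfl)
        rw [map_star] at this
        exact this }
  refine ⟨θ, fun i j hij s t => ?_⟩
  have h1 := hc2 i j hij (g s) (hgS s) (g t) (hgS t)
  exact Subtype.ext h1.eq

end Vale.Agent.P101K
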