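import Mathlib

open Filter Topology

namespace Vale.Agent.P101K

universe u

/-- `x` is a bounded `ω`-central sequence in `A` -/
def CenSeq (A : Type u) [CStarAlgebra A] (ω : Ultrafilter ℕ) (x : ℕ → A) : Prop :=
  (∃ C : ℝ, ∀ n, ‖x n‖ ≤ C) ∧ ∀ a : A, Tendsto (fun n => ‖x n * a - a * x n‖) ω (𝓝 0)

/-- the C*-algebra `F` is `F_ω(A) = A_ω ∩ A'`: the map `π` sends the bounded `ω`-central sequences
onto `F`, respects the operations, and `π x = 0` exactly when `lim_(n → ω) ‖x n‖ = 0`. -/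
structure IsFomega (A : Type u) [CStarAlgebra A] (ω : Ultrafilter ℕ) (F : Type u) [CStarAlgebra F]
    (π : (ℕ → A) → F) : Prop where
  map_one : π (fun _ => 1) = 1
  map_add : ∀ x y, CenSeq A ω x → CenSeq A ω y → π (fun n => x n + y n) = π x + π y
  map_mul : ∀ x y, CenSeq A ω x → CenSeq A ω y → π (fun n => x n * y n) = π x * π y
  map_smul : ∀ (c : ℂ) (x : ℕ → A), CenSeq A ω x → π (fun n => c • x n) = c • π x
  map_star : ∀ x, CenSeq A ω x → π (fun n => star (x n)) = star (π x)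
  map_eq_zero : ∀ x, CenSeq A ω x → (π x = 0 ↔ Tendsto (fun n => ‖x n‖) ω (𝓝 0))
  surj : ∀ y : F, ∃ x, CenSeq A ω x ∧ π x = y

end Vale.Agent.P101K
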