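import Vale.Agent.P101K.Cop
import Vale.Agent.P101K.Fomega

open scoped ENNReal Topology
open Filter

namespace Vale.Agent.P101K

universe u

section

variable {A : Type u} [CStarAlgebra A] [Nontrivial A] {ω : Ultrafilter ℕ}

/-- a bounded sequence as an element of `ℓ^∞(ℕ, A)` -/
noncomputable def bddOf (x : ℕ → A) (h : ∃ C : ℝ, ∀ n, ‖x n‖ ≤ C) : Bdd A :=
  ⟨x, memℓp_infty (by
    obtain ⟨C, hC⟩ := h
    exact ⟨C, by rintro _ ⟨n, rfl⟩; exact hC n⟩)⟩

theorem omk_zero_iff (x : Bdd A) :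
    omk A ω x = 0 ↔ Tendsto (fun n => ‖x n‖) ω (𝓝 0) := by
  constructor
  · intro h
    have h1 := omk_norm A ω x
    rwa [h, norm_zero] at h1
  · intro h
    exact norm_eq_zero.1 (tendsto_nhds_unique (omk_norm A ω x) h)

/-- the bounded `ω`-central sequences, inside `ℓ^∞(ℕ, A)` -/
noncomputable def CSub (A : Type u) [CStarAlgebra A] [Nontrivial A] (ω : Ultrafilter ℕ) :
    StarSubalgebra ℂ (Bdd A) :=
  (Fom A ω).comap (omk A ω)

theorem csub_cen (x : CSub A ω) : CenSeq A ω (fun n => (x : Bdd A) n) := by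
  refine ⟨⟨‖(x : Bdd A)‖, fun n => aom_apply_le (x : Bdd A) n⟩, ?_⟩
  exact (omk_mem_fom A ω (x : Bdd A)).1 x.2

theorem cen_csub (x : ℕ → A) (hx : CenSeq A ω x) : bddOf x hx.1 ∈ CSub A ω :=
  (omk_mem_fom A ω (bddOf x hx.1)).2 hx.2

/-- the quotient map onto the concrete model -/
noncomputable def rhoA (A : Type u) [CStarAlgebra A] [Nontrivial A] (ω : Ultrafilter ℕ) :
    CSub A ω →⋆ₐ[ℂ] Fom A ω where
  toFun x := ⟨omk A ω (x : Bdd A), x.2⟩
  map_one' := Subtype.ext (map_one (omk A ω))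
  map_mul' x y := Subtype.ext (map_mul (omk A ω) _ _)
  map_zero' := Subtype.ext (map_zero (omk A ω))
  map_add' x y := Subtype.ext (map_add (omk A ω) _ _)
  commutes' r := Subtype.ext (AlgHomClass.commutes (omk A ω) r)
  map_star' x := Subtype.ext (map_star (omk A ω) _)

theorem rhoA_surj : Function.Surjective (rhoA A ω) := by
  rintro ⟨y, hy⟩
  obtain ⟨x, rfl⟩ := omk_surjective A ω y
  exact ⟨⟨x, hy⟩, rfl⟩

theorem rhoA_zero (x : CSub A ω) :
    rhoA A ω x = 0 ↔ Tendsto (fun n => ‖(x : Bdd A) n‖) ω (𝓝 0) := by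
  rw [← omk_zero_iff (A := A) (ω := ω)]
  constructor
  · intro h
    exact congrArg Subtype.val h
  · intro h
    exact Subtype.ext h

/-- the quotient map onto an abstract model -/
noncomputable def rhoF {F : Type u} [CStarAlgebra F] {π : (ℕ → A) → F} (hF : IsFomega A ω F π) :
    CSub A ω →⋆ₐ[ℂ] F where
  toFun x := π (fun n => (x : Bdd A) n)
  map_one' := hF.map_one
  map_mul' x y := hF.map_mul _ _ (csub_cen x) (csub_cen y)
  map_zero' := by
    refine (hF.map_eq_zero _ (csub_cen 0)).2 ?_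
    have : (fun n => ‖((0 : CSub A ω) : Bdd A) n‖) = fun _ => (0 : ℝ) := by
      funext n
      exact norm_zero
    rw [this]
    exact tendsto_const_nhds
  map_add' x y := hF.map_add _ _ (csub_cen x) (csub_cen y)
  commutes' r := by
    have h1 := hF.map_smul r _ (csub_cen 1)
    have h2 : π (fun n => ((1 : CSub A ω) : Bdd A) n) = 1 := hF.map_one
    rw [h2] at h1
    rw [Algebra.algebraMap_eq_smul_one, Algebra.algebraMap_eq_smul_one]
    exact h1
  map_star' x := hF.map_star _ (csub_cen x)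

theorem rhoF_surj {F : Type u} [CStarAlgebra F] {π : (ℕ → A) → F} (hF : IsFomega A ω F π) :
    Function.Surjective (rhoF hF) := by
  intro y
  obtain ⟨x, hx, rfl⟩ := hF.surj y
  exact ⟨⟨bddOf x hx.1, cen_csub x hx⟩, rfl⟩

theorem rhoF_zero {F : Type u} [CStarAlgebra F] {π : (ℕ → A) → F} (hF : IsFomega A ω F π)
    (x : CSub A ω) : rhoF hF x = 0 ↔ Tendsto (fun n => ‖(x : Bdd A) n‖) ω (𝓝 0) :=
  hF.map_eq_zero _ (csub_cen x)

/-- the two models are isomorphic -/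
theorem fomega_to_fom {F : Type u} [CStarAlgebra F] {π : (ℕ → A) → F} (hF : IsFomega A ω F π) :
    Nonempty (F →⋆ₐ[ℂ] Fom A ω) := by
  obtain ⟨θ, -⟩ := star_factor (rhoF hF) (rhoF_surj hF) (rhoA A ω)
    fun s hs => (rhoA_zero s).2 ((rhoF_zero hF s).1 hs)
  exact ⟨θ⟩

theorem fom_to_fomega {F : Type u} [CStarAlgebra F] {π : (ℕ → A) → F} (hF : IsFomega A ω F π) :
    Nonempty (Fom A ω →⋆ₐ[ℂ] F) := by
  obtain ⟨θ, -⟩ := star_factor (rhoA A ω) rhoA_surj (rhoF hF)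
    fun s hs => (rhoF_zero hF s).2 ((rhoA_zero s).1 hs)
  exact ⟨θ⟩

open Classical in
/-- the concrete model is a model -/
theorem exists_fomega (A : Type u) [CStarAlgebra A] [Nontrivial A] (ω : Ultrafilter ℕ) :
    ∃ π : (ℕ → A) → Fom A ω, IsFomega A ω (Fom A ω) π := by
  let π : (ℕ → A) → Fom A ω := fun x =>
    if h : CenSeq A ω x then rhoA A ω ⟨bddOf x h.1, cen_csub x h⟩ else 0
  have hπ : ∀ x : CSub A ω, π (fun n => (x : Bdd A) n) = rhoA A ω x := by
    intro x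
    show dite _ _ _ = _
    rw [dif_pos (csub_cen x)]
    rfl
  have key : ∀ x, CenSeq A ω x → ∃ x' : CSub A ω, (fun n => (x' : Bdd A) n) = x :=
    fun x hx => ⟨⟨bddOf x hx.1, cen_csub x hx⟩, rfl⟩
  refine ⟨π, ⟨?_, ?_, ?_, ?_, ?_, ?_, ?_⟩⟩
  · exact (hπ 1).trans (map_one _)
  · intro x y hx hy
    obtain ⟨x, rfl⟩ := key x hx
    obtain ⟨y, rfl⟩ := key y hy
    rw [hπ, hπ, ← map_add]
    exact hπ (x + y)
  · intro x y hx hy
    obtain ⟨x, rfl⟩ := key x hx
    obtain ⟨y, rfl⟩ := key y hy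
    rw [hπ, hπ, ← map_mul]
    exact hπ (x * y)
  · intro c x hx
    obtain ⟨x, rfl⟩ := key x hx
    rw [hπ, ← map_smul]
    exact hπ (c • x)
  · intro x hx
    obtain ⟨x, rfl⟩ := key x hx
    rw [hπ, ← map_star]
    exact hπ (star x)
  · intro x hx
    obtain ⟨x, rfl⟩ := key x hx
    rw [hπ]
    exact rhoA_zero x
  · intro y
    obtain ⟨x, rfl⟩ := rhoA_surj y
    exact ⟨_, csub_cen x, hπ x⟩

end

end Vale.Agent.P101K
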