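import Vale.Agent.P101K.DimDrop

namespace Vale.Agent.P101K

open Matrix

/-- JS1a.  `f ↦ (t ↦ 1_α ⊗ 1_β ⊗ f t)`, i.e.
`((i, x), (j, y)) ((i', x'), (j', y')) ↦ if i = i' ∧ j = j' then f t (x, y) (x', y') else 0`.
If `f 0 = X ⊗ 1` the value at `0` is `(1_α ⊗ X) ⊗ 1`, and in the same way at `1`. -/
theorem dimdrop_ampl (α β ι κ : Type) [Fintype α] [DecidableEq α] [Fintype β] [DecidableEq β]
    [Fintype ι] [DecidableEq ι] [Fintype κ] [DecidableEq κ] :
    Nonempty (DimDrop ι κ →⋆ₐ[ℂ] DimDrop (α × ι) (β × κ)) := by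
  let g : (α × ι) × (β × κ) ≃ (α × β) × (ι × κ) := Equiv.prodProdProdComm α ι β κ
  let A : Matrix (ι × κ) (ι × κ) ℂ → Matrix ((α × ι) × (β × κ)) ((α × ι) × (β × κ)) ℂ := fun M =>
    (Matrix.kroneckerMap (· * ·) (1 : Matrix (α × β) (α × β) ℂ) M).submatrix g g
  have hone : A 1 = 1 := by
    show (Matrix.kroneckerMap (· * ·) (1 : Matrix (α × β) (α × β) ℂ)
      (1 : Matrix (ι × κ) (ι × κ) ℂ)).submatrix g g = 1
    have h1 : Matrix.kroneckerMap (· * ·) (1 : Matrix (α × β) (α × β) ℂ)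
        (1 : Matrix (ι × κ) (ι × κ) ℂ) = 1 := Matrix.one_kronecker_one
    rw [h1]
    exact Matrix.submatrix_one_equiv g
  have hmul : ∀ M N, A (M * N) = A M * A N := by
    intro M N
    show (Matrix.kroneckerMap (· * ·) (1 : Matrix (α × β) (α × β) ℂ) (M * N)).submatrix g g =
      (Matrix.kroneckerMap (· * ·) (1 : Matrix (α × β) (α × β) ℂ) M).submatrix g g *
        (Matrix.kroneckerMap (· * ·) (1 : Matrix (α × β) (α × β) ℂ) N).submatrix g g
    rw [Matrix.submatrix_mul_equiv]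
    have h1 := Matrix.mul_kronecker_mul (1 : Matrix (α × β) (α × β) ℂ)
      (1 : Matrix (α × β) (α × β) ℂ) M N
    rw [mul_one] at h1
    exact congrArg (fun Z => Matrix.submatrix Z g g) h1
  have hadd : ∀ M N, A (M + N) = A M + A N := by
    intro M N
    ext x y
    exact mul_add _ _ _
  have hsmul : ∀ (r : ℂ) M, A (r • M) = r • A M := by
    intro r M
    ext x y
    exact mul_left_comm _ _ _
  have hzero : A 0 = 0 := by
    ext x y
    exact mul_zero _
  have hstar : ∀ M, A (star M) = star (A M) := by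
    intro M
    ext x y
    show (1 : Matrix (α × β) (α × β) ℂ) (g x).1 (g y).1 * star (M (g y).2 (g x).2) =
      star ((1 : Matrix (α × β) (α × β) ℂ) (g y).1 (g x).1 * M (g y).2 (g x).2)
    rw [star_mul', Matrix.one_apply, Matrix.one_apply]
    by_cases h : (g x).1 = (g y).1
    · rw [if_pos h, if_pos h.symm, star_one]
    · rw [if_neg h, if_neg (fun h' => h h'.symm), star_zero]
  have hcont : ∀ f : C(unitInterval, Matrix (ι × κ) (ι × κ) ℂ), Continuous fun t => A (f t) := by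
    intro f
    refine continuous_matrix fun x y => ?_
    exact continuous_const.mul ((map_continuous f).matrix_elem _ _)
  have hmem : ∀ f : DimDrop ι κ,
      (⟨fun t => A (f.1 t), hcont f.1⟩ :
        C(unitInterval, Matrix ((α × ι) × (β × κ)) ((α × ι) × (β × κ)) ℂ)) ∈
        DimDrop (α × ι) (β × κ) := by
    rintro ⟨f, ⟨x, hx⟩, ⟨y, hy⟩⟩
    refine ⟨⟨Matrix.kroneckerMap (· * ·) (1 : Matrix α α ℂ) x, ?_⟩,
      ⟨Matrix.kroneckerMap (· * ·) (1 : Matrix β β ℂ) y, ?_⟩⟩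
    · show A (f 0) = _
      rw [hx]
      ext ⟨⟨a, i⟩, ⟨b, k⟩⟩ ⟨⟨a', i'⟩, ⟨b', k'⟩⟩
      show (1 : Matrix (α × β) (α × β) ℂ) (a, b) (a', b') * (x i i' * (1 : Matrix κ κ ℂ) k k') =
        ((1 : Matrix α α ℂ) a a' * x i i') * (1 : Matrix (β × κ) (β × κ) ℂ) (b, k) (b', k')
      simp only [Matrix.one_apply, Prod.mk.injEq]
      by_cases h1 : a = a' <;> by_cases h2 : b = b' <;> by_cases h3 : k = k' <;>
        simp [h1, h2, h3]
    · show A (f 1) = _
      rw [hy]
      ext ⟨⟨a, i⟩, ⟨b, k⟩⟩ ⟨⟨a', i'⟩, ⟨b', k'⟩⟩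
      show (1 : Matrix (α × β) (α × β) ℂ) (a, b) (a', b') * ((1 : Matrix ι ι ℂ) i i' * y k k') =
        (1 : Matrix (α × ι) (α × ι) ℂ) (a, i) (a', i') * ((1 : Matrix β β ℂ) b b' * y k k')
      simp only [Matrix.one_apply, Prod.mk.injEq]
      by_cases h1 : a = a' <;> by_cases h2 : b = b' <;> by_cases h3 : i = i' <;>
        simp [h1, h2, h3]
  refine ⟨{ toFun := fun f => ⟨_, hmem f⟩
            map_one' := ?_
            map_mul' := ?_
            map_zero' := ?_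
            map_add' := ?_
            commutes' := ?_
            map_star' := ?_ }⟩
  · apply Subtype.ext
    ext1 t
    exact hone
  · intro f h
    apply Subtype.ext
    ext1 t
    exact hmul _ _
  · apply Subtype.ext
    ext1 t
    exact hzero
  · intro f h
    apply Subtype.ext
    ext1 t
    exact hadd _ _
  · intro r
    apply Subtype.ext
    ext1 t
    show A (algebraMap ℂ (Matrix _ _ ℂ) r) = algebraMap ℂ (Matrix _ _ ℂ) r
    rw [Algebra.algebraMap_eq_smul_one, Algebra.algebraMap_eq_smul_one, hsmul, hone]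
  · intro f
    apply Subtype.ext
    ext1 t
    exact hstar _

/-- JS1b.  Reindexing (as in `dimdrop_reindex` in Ext.lean, with `Matrix.submatrix`). -/
theorem dimdrop_congr {ι κ ι' κ' : Type} [Fintype ι] [DecidableEq ι] [Fintype κ] [DecidableEq κ]
    [Fintype ι'] [DecidableEq ι'] [Fintype κ'] [DecidableEq κ'] (e : ι ≃ ι') (f : κ ≃ κ') :
    Nonempty (DimDrop ι κ →⋆ₐ[ℂ] DimDrop ι' κ') := by
  let g : ι' × κ' ≃ ι × κ := Equiv.prodCongr e.symm f.symm
  have hmem : ∀ F : DimDrop ι κ,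
      (⟨fun t => (F.1 t).submatrix g g, (map_continuous F.1).matrix_submatrix g g⟩ :
        C(unitInterval, Matrix (ι' × κ') (ι' × κ') ℂ)) ∈ DimDrop ι' κ' := by
    rintro ⟨F, ⟨x, hx⟩, ⟨y, hy⟩⟩
    refine ⟨⟨x.submatrix e.symm e.symm, ?_⟩, ⟨y.submatrix f.symm f.symm, ?_⟩⟩
    · show (F 0).submatrix g g = _
      rw [hx]
      ext ⟨a, μ⟩ ⟨b, ν⟩
      simp [g, Matrix.one_apply]
    · show (F 1).submatrix g g = _
      rw [hy]
      ext ⟨a, μ⟩ ⟨b, ν⟩
      simp [g, Matrix.one_apply]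
  refine ⟨{ toFun := fun F => ⟨_, hmem F⟩
            map_one' := ?_
            map_mul' := ?_
            map_zero' := ?_
            map_add' := ?_
            commutes' := ?_
            map_star' := ?_ }⟩
  · apply Subtype.ext
    ext1 t
    exact Matrix.submatrix_one_equiv g
  · intro F h
    apply Subtype.ext
    ext1 t
    exact (Matrix.submatrix_mul_equiv (F.1 t) (h.1 t) g g g).symm
  · apply Subtype.ext
    ext1 t
    rfl
  · intro F h
    apply Subtype.ext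
    ext1 t
    rfl
  · intro r
    apply Subtype.ext
    ext1 t
    show (algebraMap ℂ (Matrix _ _ ℂ) r).submatrix g g = algebraMap ℂ (Matrix _ _ ℂ) r
    rw [Algebra.algebraMap_eq_smul_one, Algebra.algebraMap_eq_smul_one]
    show r • ((1 : Matrix _ _ ℂ).submatrix g g) = _
    rw [Matrix.submatrix_one_equiv]
  · intro F
    apply Subtype.ext
    ext1 t
    rfl

/-- JS1c.  For coprime `p, q ≥ 1` choose `n = k + 2` with `p ∣ n` and `q ∣ n + 1`
(Chinese remainder), `n = a p`, `n + 1 = b q`, then JS1a and JS1b. -/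
theorem dimdrop_prime (p q : ℕ) (hp : 1 ≤ p) (hq : 1 ≤ q) (h : Nat.Coprime p q) :
    ∃ k : ℕ, Nonempty (DimDrop (Fin p) (Fin q) →⋆ₐ[ℂ] DimDrop (Fin (k + 2)) (Fin (k + 3))) := by
  obtain ⟨n, hn1, hn2⟩ := Nat.chineseRemainder h 0 (q - 1)
  have hpq : 1 ≤ p * q := Nat.mul_pos hp hq
  have h1 : p ∣ n + 2 * (p * q) :=
    Dvd.dvd.add (Nat.modEq_zero_iff_dvd.1 hn1) (Dvd.intro (2 * q) (by ring))
  have h2 : q ∣ n + 1 := by
    have h3 : n + 1 ≡ q - 1 + 1 [MOD q] := hn2.add_right 1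
    rw [Nat.sub_add_cancel hq] at h3
    exact Nat.modEq_zero_iff_dvd.1 (h3.trans (Nat.modEq_zero_iff_dvd.2 dvd_rfl))
  have h4 : q ∣ n + 2 * (p * q) + 1 := by
    have h5 : n + 2 * (p * q) + 1 = n + 1 + q * (2 * p) := by ring
    rw [h5]
    exact Dvd.dvd.add h2 (dvd_mul_right q _)
  obtain ⟨a, ha⟩ := h1
  obtain ⟨b, hb⟩ := h4
  refine ⟨n + 2 * (p * q) - 2, ?_⟩
  have ea : a * p = n + 2 * (p * q) - 2 + 2 := by
    rw [mul_comm, ← ha]
    omega
  have eb : b * q = n + 2 * (p * q) - 2 + 3 := by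
    rw [mul_comm, ← hb]
    omega
  obtain ⟨φ⟩ := dimdrop_ampl (Fin a) (Fin b) (Fin p) (Fin q)
  obtain ⟨ψ⟩ := dimdrop_congr (finProdFinEquiv.trans (finCongr ea))
    (finProdFinEquiv.trans (finCongr eb))
  exact ⟨ψ.comp φ⟩

end Vale.Agent.P101K
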