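import Vale.Agent.P101K.Defs

namespace Vale.Agent.P101K

universe u

/-- a family of commuting blocks -/
structure Fam (q n : ℕ) (ε : ℝ) (D : Type u) [CStarAlgebra D] where
  C : ℕ → StarSubalgebra ℂ D
  β : ℕ → Blk q n ε D
  comm : ∀ i j, i ≠ j → ∀ s ∈ C i, ∀ t ∈ C j, Commute s t
  φmem : ∀ i y, (β i).φ y ∈ C i
  Kmem : ∀ i, (β i).K ∈ C i
  k1mem : ∀ i, (β i).k1 ∈ C i
  r1mem : ∀ i, (β i).r1 ∈ C i
  r2mem : ∀ i, (β i).r2 ∈ C i
  bmem : ∀ i j, (β i).b j ∈ C i
  xmem : ∀ i j, (β i).x j ∈ C i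

/-- push a block forward along a star homomorphism -/
private noncomputable def blkc_map {A : Type u} {D : Type u} [Ring A] [Algebra ℂ A] [StarRing A]
    [Ring D] [Algebra ℂ D] [StarRing D] {q n : ℕ} {ε : ℝ} (f : A →⋆ₐ[ℂ] D) (β : Blk q n ε A) :
    Blk q n ε D where
  φ := f.toAlgHom.toLinearMap.comp β.φ
  oz := by
    constructor
    · intro x
      show f (β.φ _) = star (f (β.φ x))
      rw [β.oz.star' x, map_star]
    · intro x y
      have h := congrArg f (β.oz.mul' x y)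
      rw [map_mul f, map_mul f] at h
      exact h
  K := f β.K
  k1 := f β.k1
  r1 := f β.r1
  r2 := f β.r2
  b := fun i => f (β.b i)
  x := fun i => f (β.x i)
  hpos := by
    obtain ⟨r0, h⟩ := β.hpos
    refine ⟨f r0, ?_⟩
    show f (β.φ 1) = _
    rw [h, map_mul, map_star]
  Ksa := by rw [← map_star, β.Ksa]
  Kcomm := by
    intro y
    show f β.K * f (β.φ y) = f (β.φ y) * f β.K
    rw [← map_mul, β.Kcomm y, map_mul]
  Kpos := by
    have h := congrArg f β.Kpos
    rw [map_mul, map_star] at h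
    exact h
  Kh := by
    have h := congrArg f β.Kh
    rw [map_sub, map_mul, map_mul, map_smul, map_mul, map_star] at h
    exact h
  root := by
    have h := congrArg f β.root
    rw [map_sub f, map_add f, map_mul f, map_mul f, map_sub f, map_smul f, map_one f,
      map_mul f, map_star f] at h
    exact h
  borth := by
    intro i j hij
    rw [← map_star, ← map_mul, β.borth i j hij, map_zero]
  bsame := by
    intro i
    rw [← map_star, ← map_mul, β.bsame i, map_mul, map_star]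
  Kb := by
    intro i
    rw [← map_mul, β.Kb i]
  rootb := by
    have h := congrArg f β.rootb
    rw [map_mul, map_mul] at h
    exact h
  xsum := by
    have h := congrArg f β.xsum
    rw [map_sum, map_one] at h
    rw [← h]
    refine Finset.sum_congr rfl (fun j _ => ?_)
    rw [map_mul, map_mul, map_mul, map_star, map_star]

/-- restrict a block to a star subalgebra containing its fields -/
private noncomputable def blkc_res {D : Type u} [CStarAlgebra D] {q n : ℕ} {ε : ℝ}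
    (β : Blk q n ε D) (A : StarSubalgebra ℂ D) (hφ : ∀ y, β.φ y ∈ A) (hK : β.K ∈ A)
    (hk1 : β.k1 ∈ A) (hr1 : β.r1 ∈ A) (hr2 : β.r2 ∈ A) (hb : ∀ i, β.b i ∈ A)
    (hx : ∀ i, β.x i ∈ A) (hr0 : ∃ r0 ∈ A, β.φ 1 = star r0 * r0) : Blk q n ε A where
  φ := β.φ.codRestrict (Subalgebra.toSubmodule A.toSubalgebra) hφ
  oz := by
    constructor
    · intro x
      exact Subtype.ext (β.oz.star' x)
    · intro x y
      exact Subtype.ext (β.oz.mul' x y)
  K := ⟨β.K, hK⟩
  k1 := ⟨β.k1, hk1⟩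
  r1 := ⟨β.r1, hr1⟩
  r2 := ⟨β.r2, hr2⟩
  b := fun i => ⟨β.b i, hb i⟩
  x := fun i => ⟨β.x i, hx i⟩
  hpos := by
    obtain ⟨r0, h0, h⟩ := hr0
    exact ⟨⟨r0, h0⟩, Subtype.ext h⟩
  Ksa := Subtype.ext β.Ksa
  Kcomm := fun y => Subtype.ext (β.Kcomm y)
  Kpos := Subtype.ext β.Kpos
  Kh := Subtype.ext β.Kh
  root := Subtype.ext β.root
  borth := fun i j hij => Subtype.ext (β.borth i j hij)
  bsame := fun i => Subtype.ext (β.bsame i)
  Kb := fun i => Subtype.ext (β.Kb i)
  rootb := Subtype.ext β.rootb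
  xsum := by
    apply Subtype.ext
    have h := β.xsum
    rw [AddSubmonoidClass.coe_finsetSum]
    exact h

/-- BLKC.  All fields of a block live in a countably generated star subalgebra; push forward with
the maps `θ i` of `HasCopies`, `C i = (θ i).range`. -/
theorem blk_copies {D : Type u} [CStarAlgebra D] (hD : HasCopies D) {q n : ℕ} {ε : ℝ}
    (β : Blk q n ε D) : Nonempty (Fam q n ε D) := by
  obtain ⟨r0, hr0⟩ := β.hpos
  set X : Set D := (Set.range fun p : Fin (q + 1) × Fin (q + 1) => β.φ (eu p.1 p.2)) ∪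
    ((({β.K, β.k1, β.r1, β.r2, r0} : Set D) ∪ Set.range β.b) ∪ Set.range β.x) with hX
  have hXc : X.Countable := by
    rw [hX]
    refine (Set.countable_range _).union (((Set.Finite.countable ?_).union
      (Set.countable_range _)).union (Set.countable_range _))
    exact Set.toFinite _
  obtain ⟨θ, hθ⟩ := hD X hXc
  have hsub : ∀ d ∈ X, d ∈ StarAlgebra.adjoin ℂ X := fun d hd => StarAlgebra.subset_adjoin ℂ X hd
  have hφ : ∀ y, β.φ y ∈ StarAlgebra.adjoin ℂ X := by
    intro y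
    rw [Matrix.matrix_eq_sum_single y, map_sum]
    refine sum_mem (fun i _ => ?_)
    rw [map_sum]
    refine sum_mem (fun j _ => ?_)
    have e : Matrix.single i j (y i j) = (y i j) • (eu i j : Matrix _ _ ℂ) := by
      rw [Matrix.smul_single, smul_eq_mul, mul_one]
    rw [e, map_smul]
    exact SMulMemClass.smul_mem _ (hsub _ (Or.inl ⟨(i, j), rfl⟩))
  have hK : β.K ∈ StarAlgebra.adjoin ℂ X := hsub _ (by rw [hX]; simp)
  have hk1 : β.k1 ∈ StarAlgebra.adjoin ℂ X := hsub _ (by rw [hX]; simp)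
  have hr1 : β.r1 ∈ StarAlgebra.adjoin ℂ X := hsub _ (by rw [hX]; simp)
  have hr2 : β.r2 ∈ StarAlgebra.adjoin ℂ X := hsub _ (by rw [hX]; simp)
  have hr0m : r0 ∈ StarAlgebra.adjoin ℂ X := hsub _ (by rw [hX]; simp)
  have hb : ∀ i, β.b i ∈ StarAlgebra.adjoin ℂ X := fun i => hsub _ (by rw [hX]; simp)
  have hx : ∀ i, β.x i ∈ StarAlgebra.adjoin ℂ X := fun i => hsub _ (by rw [hX]; simp)
  exact ⟨{
    C := fun i => (θ i).range
    β := fun i => blkc_map (θ i) (blkc_res β (StarAlgebra.adjoin ℂ X) hφ hK hk1 hr1 hr2 hb hx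
      ⟨r0, hr0m, hr0⟩)
    comm := by
      intro i j hij s hs t ht
      obtain ⟨a, rfl⟩ := hs
      obtain ⟨b, rfl⟩ := ht
      exact hθ i j hij a b
    φmem := fun i y => ⟨_, rfl⟩
    Kmem := fun i => ⟨_, rfl⟩
    k1mem := fun i => ⟨_, rfl⟩
    r1mem := fun i => ⟨_, rfl⟩
    r2mem := fun i => ⟨_, rfl⟩
    bmem := fun i j => ⟨_, rfl⟩
    xmem := fun i j => ⟨_, rfl⟩ }⟩

end Vale.Agent.P101K
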