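import Mathlib

namespace Vale.Agent.P101K

open Matrix

universe u

/-! Working definitions for P101 (see `notes/P101_proof.md`). -/

/-- `1` is a finite sum `∑ p x p'` with `x ∈ s`, `p, p' ∈ C` -/
def FullOn {R : Type u} [Ring R] (C s : Set R) : Prop :=
  ∃ (n : ℕ) (p x p' : Fin n → R), (∀ i, p i ∈ C) ∧ (∀ i, x i ∈ s) ∧ (∀ i, p' i ∈ C) ∧
    ∑ i, p i * x i * p' i = 1

/-- `1` is in the two-sided ideal generated by `s` -/
def Full {R : Type u} [Ring R] (s : Set R) : Prop :=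
  ∃ (n : ℕ) (p x p' : Fin n → R), (∀ i, x i ∈ s) ∧ ∑ i, p i * x i * p' i = 1

/-- commuting copies of countably generated subalgebras -/
def HasCopies (D : Type u) [CStarAlgebra D] : Prop :=
  ∀ X : Set D, X.Countable →
    ∃ θ : ℕ → (StarAlgebra.adjoin ℂ X →⋆ₐ[ℂ] D),
      ∀ i j, i ≠ j → ∀ s t, Commute (θ i s) (θ j t)

/-- a proper two-sided ideal `M` of the subalgebra `C` which is prime -/
structure PrimeOn {R : Type u} [Ring R] [Algebra ℂ R] (C : Subalgebra ℂ R) (M : Set R) : Prop where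
  sub : M ⊆ C
  zero : (0 : R) ∈ M
  add : ∀ x ∈ M, ∀ y ∈ M, x + y ∈ M
  left : ∀ c ∈ C, ∀ x ∈ M, c * x ∈ M
  right : ∀ c ∈ C, ∀ x ∈ M, x * c ∈ M
  one : (1 : R) ∉ M
  prime : ∀ x ∈ C, ∀ y ∈ C, (∀ c ∈ C, x * c * y ∈ M) → x ∈ M ∨ y ∈ M

/-- tent functions (a partition of unity at scale `1/N`) -/
noncomputable def tent (N : ℕ) (a : ℤ) (t : ℝ) : ℝ := max 0 (1 - |N * t - a|)

/-- `hat = 1` on the support of `tent` -/
noncomputable def hat (N : ℕ) (a : ℤ) (t : ℝ) : ℝ := min 1 (max 0 (2 - |N * t - a|))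

/-- algebraic order zero maps from a matrix algebra -/
structure IsOZ {ι : Type} [Fintype ι] [DecidableEq ι] {D : Type u} [Ring D] [Algebra ℂ D]
    [StarRing D] (φ : Matrix ι ι ℂ →ₗ[ℂ] D) : Prop where
  star' : ∀ x, φ xᴴ = star (φ x)
  mul' : ∀ x y, φ x * φ y = φ 1 * φ (x * y)

/-- matrix units -/
noncomputable abbrev eu {ι : Type} [DecidableEq ι] (i j : ι) : Matrix ι ι ℂ := Matrix.single i j 1

/-- the join of two commuting order zero maps -/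
noncomputable def Jmap {ι : Type} [Fintype ι] [DecidableEq ι] {D : Type u} [Ring D] [Algebra ℂ D]
    (φ ψ : Matrix ι ι ℂ →ₗ[ℂ] D) : Matrix ι ι ℂ →ₗ[ℂ] D :=
  (LinearMap.mulLeft ℂ (φ 1)).comp φ + (LinearMap.mulLeft ℂ (ψ 1)).comp ψ
    + Complex.I • ∑ i, ∑ j,
      ((LinearMap.mulRight ℂ (ψ (eu j i))).comp (φ.comp (LinearMap.mulRight ℂ (eu i j)))
        - (LinearMap.mulLeft ℂ (φ (eu i j))).comp (ψ.comp (LinearMap.mulRight ℂ (eu j i))))

/-- normalization `x ↦ (max ε h)⁻¹ φ x`, `h = φ 1` -/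
noncomputable def nrm {ι : Type} [Fintype ι] [DecidableEq ι] {D : Type u} [CStarAlgebra D]
    (ε : ℝ) (φ : Matrix ι ι ℂ →ₗ[ℂ] D) : Matrix ι ι ℂ →ₗ[ℂ] D :=
  (LinearMap.mulLeft ℂ (cfc (fun t : ℝ => (max ε t)⁻¹) (φ 1))).comp φ

/-- one block: all relations are algebraic, so that they pass to commuting copies -/
structure Blk (q n : ℕ) (ε : ℝ) (D : Type u) [Ring D] [Algebra ℂ D] [StarRing D] where
  φ : Matrix (Fin (q + 1)) (Fin (q + 1)) ℂ →ₗ[ℂ] D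
  oz : IsOZ φ
  K : D
  k1 : D
  r1 : D
  r2 : D
  b : Fin (q + 1) → D
  x : Fin n → D
  hpos : ∃ r0 : D, φ 1 = star r0 * r0
  Ksa : star K = K
  Kcomm : ∀ y, K * φ y = φ y * K
  Kpos : K = star k1 * k1
  Kh : K * (φ 1 * φ 1) - (ε : ℂ) • K = star r1 * r1
  root : φ 1 * φ 1 + (1 - K) * (1 - K) - (ε : ℂ) • 1 = star r2 * r2
  borth : ∀ i j, i ≠ j → star (b i) * b j = 0
  bsame : ∀ i, star (b i) * b i = star (b 0) * b 0
  Kb : ∀ i, K * b i = b i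
  rootb : φ (eu 0 0) * b 0 = φ 1 * b 0
  xsum : ∑ j, star (x j) * (star (b 0) * b 0) * x j = 1

end Vale.Agent.P101K
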