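import Mathlib

open Filter Topology

namespace Vale.Agent.P101K

/-- JS2.  Diagonal selection.  For `m` let `ν m` be the largest `n ≤ m` such that
`c i n m < 1 / (n + 1)` for all `i ≤ n` with `n₀ i ≤ n` (and `0` if there is none).  For every
fixed `N` the set of `m` with `ν m ≥ N` is in `ω`. -/
theorem diag_seq (ω : Ultrafilter ℕ) (hω : (ω : Filter ℕ) ≤ atTop) (c : ℕ → ℕ → ℕ → ℝ)
    (hc : ∀ i, ∃ n₀, ∀ n ≥ n₀, ∀ᶠ m in (ω : Filter ℕ), c i n m < 1 / ((n : ℝ) + 1)) :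
    ∃ ν : ℕ → ℕ, ∀ i, ∀ ε : ℝ, 0 < ε → ∀ᶠ m in (ω : Filter ℕ), c i (ν m) m < ε := by
  classical
  choose n₀ hn₀ using hc
  refine ⟨fun m => Nat.findGreatest
    (fun n => ∀ i ≤ n, n₀ i ≤ n → c i n m < 1 / ((n : ℝ) + 1)) m, fun i ε hε => ?_⟩
  obtain ⟨K₀, hK₀⟩ := exists_nat_one_div_lt hε
  obtain ⟨K, hK1, hK2, hK3⟩ : ∃ K : ℕ, K₀ ≤ K ∧ i ≤ K ∧ n₀ i ≤ K :=
    ⟨K₀ + i + n₀ i, by omega, by omega, by omega⟩
  have hK4 : 1 / ((K : ℝ) + 1) < ε := by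
    refine lt_of_le_of_lt ?_ hK₀
    apply one_div_le_one_div_of_le (by positivity)
    have : (K₀ : ℝ) ≤ K := by exact_mod_cast hK1
    linarith
  have e1 : ∀ᶠ m in (ω : Filter ℕ), K ≤ m := hω (eventually_ge_atTop K)
  have e2 : ∀ᶠ m in (ω : Filter ℕ), ∀ j ∈ Finset.range (K + 1), n₀ j ≤ K →
      c j K m < 1 / ((K : ℝ) + 1) := by
    rw [Filter.eventually_all_finset]
    intro j _
    by_cases hj : n₀ j ≤ K
    · filter_upwards [hn₀ j K hj] with m hm _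
      exact hm
    · exact Filter.Eventually.of_forall fun m h => absurd h hj
  filter_upwards [e1, e2] with m hm1 hm2
  have hP : ∀ j ≤ K, n₀ j ≤ K → c j K m < 1 / ((K : ℝ) + 1) := fun j hj hj' =>
    hm2 j (Finset.mem_range.2 (Nat.lt_succ_of_le hj)) hj'
  have hs := Nat.findGreatest_spec
    (P := fun n => ∀ i ≤ n, n₀ i ≤ n → c i n m < 1 / ((n : ℝ) + 1)) hm1 hP
  have hl := Nat.le_findGreatest
    (P := fun n => ∀ i ≤ n, n₀ i ≤ n → c i n m < 1 / ((n : ℝ) + 1)) hm1 hP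
  refine lt_of_lt_of_le (hs i (hK2.trans hl) (hK3.trans hl)) ?_
  refine le_trans ?_ hK4.le
  apply one_div_le_one_div_of_le (by positivity)
  have : (K : ℝ) ≤ (Nat.findGreatest
    (fun n => ∀ i ≤ n, n₀ i ≤ n → c i n m < 1 / ((n : ℝ) + 1)) m : ℕ) := by exact_mod_cast hl
  linarith

end Vale.Agent.P101K
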