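import Vale.Agent.P101K.PS

namespace Vale.Agent.P101K

open Matrix

universe u

/-- matrix valued continuous functions on `[0,1]` -/
abbrev CM (ι : Type) [Fintype ι] [DecidableEq ι] : Type :=
  C(unitInterval, Matrix (ι × Option ι) (ι × Option ι) ℂ)

variable {ι : Type} [Fintype ι] [DecidableEq ι] {D : Type u}

/-- the coordinate -/
noncomputable def tt : C(unitInterval, ℂ) := ⟨fun t => ((t : ℝ) : ℂ), by fun_prop⟩

/-- EVD.  Functional calculus of `d` (`0 ≤ d ≤ 1`, `spectrum ⊂ [0,1]`); elements commuting with `d`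
commute with `ev f`. -/
theorem exists_ev [CStarAlgebra D] (S : PS ι D) :
    ∃ ev : C(unitInterval, ℂ) →⋆ₐ[ℂ] D, ev tt = S.d ∧
      ∀ x, x * S.d = S.d * x → ∀ f, x * ev f = ev f * x := by
  let _ : PartialOrder D := CStarAlgebra.spectralOrder D
  let _ : StarOrderedRing D := CStarAlgebra.spectralOrderedRing D
  have hd0 : 0 ≤ S.d := Finset.sum_nonneg fun μ _ => mul_star_self_nonneg (S.s μ)
  have hd1 : S.d ≤ 1 := by
    obtain ⟨r, hr⟩ := S.P1
    have h : 1 - S.d = star r * r := by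
      rw [← hr, ← S.sum]
      exact add_sub_cancel_right _ _
    rw [← sub_nonneg, h]
    exact star_mul_self_nonneg r
  have hsa : IsSelfAdjoint S.d := IsSelfAdjoint.of_nonneg hd0
  have hn : IsStarNormal S.d := hsa.isStarNormal
  have hre : ∀ z ∈ spectrum ℂ S.d, z = (z.re : ℂ) := fun z hz => hsa.mem_spectrum_eq_re hz
  have hI : ∀ z ∈ spectrum ℂ S.d, z.re ∈ Set.Icc (0 : ℝ) 1 := by
    intro z hz
    have hzr : z.re ∈ spectrum ℝ S.d := by
      rw [hre z hz] at hz
      exact (spectrum.algebraMap_mem_iff ℂ).1 hz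
    exact ⟨spectrum_nonneg_of_nonneg hd0 hzr, (CFC.le_one_iff (R := ℝ) S.d).1 hd1 _ hzr⟩
  let ρ : C(spectrum ℂ S.d, unitInterval) :=
    ⟨fun z => ⟨(z : ℂ).re, hI z z.2⟩,
      Continuous.subtype_mk (Complex.continuous_re.comp continuous_subtype_val) _⟩
  refine ⟨(cfcHom hn).comp (ContinuousMap.compStarAlgHom' ℂ ℂ ρ), ?_, ?_⟩
  · show cfcHom hn (tt.comp ρ) = S.d
    have h : tt.comp ρ = (ContinuousMap.id ℂ).restrict (spectrum ℂ S.d) := by
      ext z
      exact (hre z z.2).symm
    rw [h, cfcHom_id]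
  · intro x hx f
    exact (hsa.commute_cfcHom hn (show Commute S.d x from hx.symm) _).eq.symm

/-- an entry of a matrix valued function -/
noncomputable def ent (X : CM ι) (p r : ι × Option ι) : C(unitInterval, ℂ) :=
  ⟨fun t => X t p r, by fun_prop⟩

/-- `Rt X = ∑ ev (X_pr) R(e_pr)` -/
noncomputable def Rt [CStarAlgebra D] (S : PS ι D) (ev : C(unitInterval, ℂ) →⋆ₐ[ℂ] D) (X : CM ι) :
    D :=
  ∑ p, ∑ r, ev (ent X p r) * S.R (eu p r)

/-- scalar times matrix function -/
noncomputable def sm (f : C(unitInterval, ℂ)) (X : CM ι) : CM ι := ⟨fun t => f t • X t, by fun_prop⟩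

private theorem rt_eval (f : C(unitInterval, ℂ)) (X : CM ι) (t : unitInterval) :
    (sm f X) t = f t • X t := rfl

private theorem rt_ent_add (X Y : CM ι) (p r : ι × Option ι) :
    ent (X + Y) p r = ent X p r + ent Y p r := rfl

private theorem rt_ent_sm (f : C(unitInterval, ℂ)) (X : CM ι) (p r : ι × Option ι) :
    ent (sm f X) p r = f * ent X p r := rfl

private theorem rt_R_eu [CStarAlgebra D] (S : PS ι D) (p r : ι × Option ι) :
    S.R (eu p r) = S.s p.2 * S.P (eu p.1 r.1) * star (S.s r.2) := by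
  unfold PS.R
  rw [Finset.sum_eq_single p, Finset.sum_eq_single r]
  · simp [Matrix.single]
  · intro b _ hb
    simp [Matrix.single, Ne.symm hb]
  · simp
  · intro b _ hb
    apply Finset.sum_eq_zero
    intro c _
    simp [Matrix.single, Ne.symm hb]
  · simp

private theorem rt_R_sum [CStarAlgebra D] (S : PS ι D)
    (X : Matrix (ι × Option ι) (ι × Option ι) ℂ) :
    S.R X = ∑ p, ∑ r, X p r • S.R (eu p r) := by
  simp only [rt_R_eu]
  rfl

/-- induction for matrix valued functions -/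
private theorem rt_ind {P : CM ι → Prop} (h0 : P 0) (hadd : ∀ X Y, P X → P Y → P (X + Y))
    (hsm : ∀ (f : C(unitInterval, ℂ)) (A : Matrix (ι × Option ι) (ι × Option ι) ℂ),
      P (sm f (ContinuousMap.const _ A))) (X : CM ι) : P X := by
  have hX : X = ∑ p, ∑ r, sm (ent X p r) (ContinuousMap.const _ (eu p r)) := by
    ext t i j
    rw [ContinuousMap.sum_apply, Matrix.sum_apply, Finset.sum_eq_single i]
    · rw [ContinuousMap.sum_apply, Matrix.sum_apply, Finset.sum_eq_single j]
      · simp [rt_eval, ent, Matrix.single]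
      · intro b _ hb
        simp [rt_eval, ent, Matrix.single, hb]
      · simp
    · intro b _ hb
      rw [ContinuousMap.sum_apply, Matrix.sum_apply]
      apply Finset.sum_eq_zero
      intro c _
      simp [rt_eval, ent, Matrix.single, hb]
    · simp
  have hs : ∀ (s : Finset (ι × Option ι)) (F : ι × Option ι → CM ι), (∀ p, P (F p)) →
      P (∑ p ∈ s, F p) := by
    intro s F hF
    induction s using Finset.induction_on with
    | empty => simpa using h0
    | insert a s ha ih => rw [Finset.sum_insert ha]; exact hadd _ _ (hF a) ih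
  rw [hX]
  exact hs _ _ (fun p => hs _ _ (fun r => hsm _ _))

/-- RT.  The rules for `Rt`; `hev, hc` as in `exists_ev`. -/
theorem Rt_add [CStarAlgebra D] (S : PS ι D) (ev : C(unitInterval, ℂ) →⋆ₐ[ℂ] D) (X Y : CM ι) :
    Rt S ev (X + Y) = Rt S ev X + Rt S ev Y := by
  unfold Rt
  simp only [rt_ent_add, map_add, add_mul, Finset.sum_add_distrib]

theorem Rt_sm [CStarAlgebra D] (S : PS ι D) (ev : C(unitInterval, ℂ) →⋆ₐ[ℂ] D)
    (f : C(unitInterval, ℂ)) (X : CM ι) : ev f * Rt S ev X = Rt S ev (sm f X) := by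
  unfold Rt
  simp only [rt_ent_sm, map_mul, Finset.mul_sum, mul_assoc]

theorem Rt_const [CStarAlgebra D] (S : PS ι D) (ev : C(unitInterval, ℂ) →⋆ₐ[ℂ] D)
    (X : Matrix (ι × Option ι) (ι × Option ι) ℂ) :
    Rt S ev (ContinuousMap.const _ X) = S.R X := by
  unfold Rt
  rw [rt_R_sum]
  apply Finset.sum_congr rfl
  intro p _
  apply Finset.sum_congr rfl
  intro r _
  have h1 : ent (ContinuousMap.const _ X) p r = algebraMap ℂ C(unitInterval, ℂ) (X p r) := rfl
  rw [h1, AlgHomClass.commutes, Algebra.smul_def]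

private theorem rt_zero [CStarAlgebra D] (S : PS ι D) (ev : C(unitInterval, ℂ) →⋆ₐ[ℂ] D) :
    Rt S ev (0 : CM ι) = 0 := by
  have h := Rt_add S ev (0 : CM ι) 0
  rw [add_zero] at h
  exact left_eq_add.1 h

private theorem rt_smc [CStarAlgebra D] (S : PS ι D) (ev : C(unitInterval, ℂ) →⋆ₐ[ℂ] D)
    (f : C(unitInterval, ℂ)) (A : Matrix (ι × Option ι) (ι × Option ι) ℂ) :
    Rt S ev (sm f (ContinuousMap.const _ A)) = ev f * S.R A := by
  rw [← Rt_sm, Rt_const]

private theorem rt_sm_sm (f g : C(unitInterval, ℂ)) (X : CM ι) :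
    sm f (sm g X) = sm (f * g) X := by
  ext t i j
  simp [rt_eval, mul_assoc]

private theorem rt_sm_mul (f g : C(unitInterval, ℂ)) (A B : Matrix (ι × Option ι) (ι × Option ι) ℂ) :
    sm f (ContinuousMap.const unitInterval A) * sm g (ContinuousMap.const unitInterval B)
      = sm (f * g) (ContinuousMap.const unitInterval (A * B)) := by
  ext t i j
  simp [rt_eval]
  ring

private theorem rt_sm_add (f : C(unitInterval, ℂ)) (X Y : CM ι) :
    sm f (X + Y) = sm f X + sm f Y := by
  ext t i j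
  simp [rt_eval]
  ring

private theorem rt_sm_zero (f : C(unitInterval, ℂ)) : sm f (0 : CM ι) = 0 := by
  ext t i j
  simp [rt_eval]

theorem Rt_star [CStarAlgebra D] (S : PS ι D) (ev : C(unitInterval, ℂ) →⋆ₐ[ℂ] D)
    (hev : ev tt = S.d) (hc : ∀ x, x * S.d = S.d * x → ∀ f, x * ev f = ev f * x) (X : CM ι) :
    Rt S ev (star X) = star (Rt S ev X) := by
  refine rt_ind (P := fun X => Rt S ev (star X) = star (Rt S ev X)) ?_ ?_ ?_ X
  · rw [star_zero, rt_zero, star_zero]
  · intro X Y hX hY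
    rw [star_add, Rt_add, Rt_add, hX, hY, star_add]
  · intro f A
    have h1 : star (sm f (ContinuousMap.const unitInterval A))
        = sm (star f) (ContinuousMap.const unitInterval Aᴴ) := by
      ext t i j
      simp [rt_eval, Matrix.star_apply]
    rw [h1, rt_smc, rt_smc, star_mul, S.R_star, map_star]
    have h2 : star (S.R A) * S.d = S.d * star (S.R A) := by
      rw [← S.R_star, S.d_R]
    rw [← map_star, hc _ h2]

theorem Rt_mul [CStarAlgebra D] (S : PS ι D) (ev : C(unitInterval, ℂ) →⋆ₐ[ℂ] D)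
    (hev : ev tt = S.d) (hc : ∀ x, x * S.d = S.d * x → ∀ f, x * ev f = ev f * x) (X Y : CM ι) :
    Rt S ev X * Rt S ev Y = Rt S ev (sm ((1 - tt) * tt) (X * Y)) := by
  refine rt_ind (P := fun X => Rt S ev X * Rt S ev Y = Rt S ev (sm ((1 - tt) * tt) (X * Y)))
    ?_ ?_ ?_ X
  · rw [rt_zero, zero_mul, zero_mul, rt_sm_zero, rt_zero]
  · intro X X' hX hX'
    rw [Rt_add, add_mul, hX, hX', add_mul, rt_sm_add, Rt_add]
  · intro f A
    refine rt_ind (P := fun Y => Rt S ev (sm f (ContinuousMap.const _ A)) * Rt S ev Y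
      = Rt S ev (sm ((1 - tt) * tt) (sm f (ContinuousMap.const _ A) * Y))) ?_ ?_ ?_ Y
    · rw [rt_zero, mul_zero, mul_zero, rt_sm_zero, rt_zero]
    · intro Y Y' hY hY'
      rw [Rt_add, mul_add, hY, hY', mul_add, rt_sm_add, Rt_add]
    · intro g B
      have h2 : S.R A * ev g = ev g * S.R A := hc _ (S.d_R A).symm g
      rw [rt_sm_mul, rt_sm_sm, rt_smc, rt_smc, rt_smc, map_mul, map_mul, map_mul, map_sub, map_one,
        hev]
      calc ev f * S.R A * (ev g * S.R B) = ev f * (S.R A * ev g) * S.R B := by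
            simp only [mul_assoc]
        _ = ev f * ev g * (S.R A * S.R B) := by rw [h2]; simp only [mul_assoc]
        _ = ev f * ev g * ((1 - S.d) * S.d) * S.R (A * B) := by
            rw [S.R_mul]; simp only [mul_assoc]
        _ = (1 - S.d) * S.d * (ev f * ev g) * S.R (A * B) := by
            congr 1
            have h3 : (1 - S.d) * S.d = ev ((1 - tt) * tt) := by
              rw [map_mul, map_sub, map_one, hev]
            rw [h3, ← map_mul, ← map_mul, ← map_mul, mul_comm]

theorem P_Rt [CStarAlgebra D] (S : PS ι D) (ev : C(unitInterval, ℂ) →⋆ₐ[ℂ] D)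
    (hev : ev tt = S.d) (hc : ∀ x, x * S.d = S.d * x → ∀ f, x * ev f = ev f * x)
    (x : Matrix ι ι ℂ) (X : CM ι) :
    S.P x * Rt S ev X = Rt S ev (sm (1 - tt) (ContinuousMap.const _ (Pim x) * X)) := by
  refine rt_ind (P := fun X => S.P x * Rt S ev X
    = Rt S ev (sm (1 - tt) (ContinuousMap.const _ (Pim x) * X))) ?_ ?_ ?_ X
  · rw [rt_zero, mul_zero, mul_zero, rt_sm_zero, rt_zero]
  · intro X Y hX hY
    rw [Rt_add, mul_add, hX, hY, mul_add, rt_sm_add, Rt_add]
  · intro f A
    have h1 : ContinuousMap.const unitInterval (Pim x) * sm f (ContinuousMap.const unitInterval A)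
        = sm f (ContinuousMap.const unitInterval (Pim x * A)) := by
      ext t i j
      simp [rt_eval]
    have h2 : S.P x * ev f = ev f * S.P x := hc _ (S.d_P x).symm f
    rw [h1, rt_sm_sm, rt_smc, rt_smc, ← mul_assoc, h2, mul_assoc, S.P_R, mul_comm (1 - tt) f,
      map_mul, map_sub, map_one, hev, mul_assoc]

theorem Rt_P [CStarAlgebra D] (S : PS ι D) (ev : C(unitInterval, ℂ) →⋆ₐ[ℂ] D)
    (hev : ev tt = S.d) (hc : ∀ x, x * S.d = S.d * x → ∀ f, x * ev f = ev f * x)
    (x : Matrix ι ι ℂ) (X : CM ι) :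
    Rt S ev X * S.P x = Rt S ev (sm (1 - tt) (X * ContinuousMap.const _ (Pim x))) := by
  refine rt_ind (P := fun X => Rt S ev X * S.P x
    = Rt S ev (sm (1 - tt) (X * ContinuousMap.const _ (Pim x)))) ?_ ?_ ?_ X
  · rw [rt_zero, zero_mul, zero_mul, rt_sm_zero, rt_zero]
  · intro X Y hX hY
    rw [Rt_add, add_mul, hX, hY, add_mul, rt_sm_add, Rt_add]
  · intro f A
    have h1 : sm f (ContinuousMap.const unitInterval A) * ContinuousMap.const unitInterval (Pim x)
        = sm f (ContinuousMap.const unitInterval (A * Pim x)) := by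
      ext t i j
      simp [rt_eval]
    rw [h1, rt_sm_sm, rt_smc, rt_smc, mul_assoc, S.R_P, mul_comm (1 - tt) f,
      map_mul, map_sub, map_one, hev, mul_assoc]

theorem Q_Rt [CStarAlgebra D] (S : PS ι D) (ev : C(unitInterval, ℂ) →⋆ₐ[ℂ] D)
    (hev : ev tt = S.d) (hc : ∀ x, x * S.d = S.d * x → ∀ f, x * ev f = ev f * x)
    (y : Matrix (Option ι) (Option ι) ℂ) (X : CM ι) :
    S.Q y * Rt S ev X = Rt S ev (sm tt (ContinuousMap.const _ (rt1 y) * X)) := by
  refine rt_ind (P := fun X => S.Q y * Rt S ev X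
    = Rt S ev (sm tt (ContinuousMap.const _ (rt1 y) * X))) ?_ ?_ ?_ X
  · rw [rt_zero, mul_zero, mul_zero, rt_sm_zero, rt_zero]
  · intro X Y hX hY
    rw [Rt_add, mul_add, hX, hY, mul_add, rt_sm_add, Rt_add]
  · intro f A
    have h1 : ContinuousMap.const unitInterval (rt1 y) * sm f (ContinuousMap.const unitInterval A)
        = sm f (ContinuousMap.const unitInterval (rt1 y * A)) := by
      ext t i j
      simp [rt_eval]
    have h2 : S.Q y * ev f = ev f * S.Q y := hc _ (S.d_Q y).symm f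
    rw [h1, rt_sm_sm, rt_smc, rt_smc, ← mul_assoc, h2, mul_assoc, S.Q_R, mul_comm tt f,
      map_mul, hev, mul_assoc]

theorem Rt_Q [CStarAlgebra D] (S : PS ι D) (ev : C(unitInterval, ℂ) →⋆ₐ[ℂ] D)
    (hev : ev tt = S.d) (hc : ∀ x, x * S.d = S.d * x → ∀ f, x * ev f = ev f * x)
    (y : Matrix (Option ι) (Option ι) ℂ) (X : CM ι) :
    Rt S ev X * S.Q y = Rt S ev (sm tt (X * ContinuousMap.const _ (rt1 y))) := by
  refine rt_ind (P := fun X => Rt S ev X * S.Q y
    = Rt S ev (sm tt (X * ContinuousMap.const _ (rt1 y)))) ?_ ?_ ?_ X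
  · rw [rt_zero, zero_mul, zero_mul, rt_sm_zero, rt_zero]
  · intro X Y hX hY
    rw [Rt_add, add_mul, hX, hY, add_mul, rt_sm_add, Rt_add]
  · intro f A
    have h1 : sm f (ContinuousMap.const unitInterval A) * ContinuousMap.const unitInterval (rt1 y)
        = sm f (ContinuousMap.const unitInterval (A * rt1 y)) := by
      ext t i j
      simp [rt_eval]
    rw [h1, rt_sm_sm, rt_smc, rt_smc, mul_assoc, S.R_Q, mul_comm tt f,
      map_mul, hev, mul_assoc]

end Vale.Agent.P101K
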