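import Vale.Agent.P101K.Defs

namespace Vale.Agent.P101K

universe u

variable {D : Type u} [CStarAlgebra D]

section order

variable [PartialOrder D] [StarOrderedRing D]

private theorem fstar_am {r s : ℝ} (h : r ≤ s) : algebraMap ℝ D r ≤ algebraMap ℝ D s := by
  rw [← sub_nonneg, ← map_sub, Algebra.algebraMap_eq_smul_one]
  exact smul_nonneg (sub_nonneg.2 h) zero_le_one

private theorem fstar_two (a b : D) :
    star (a + b) * (a + b) ≤ (2 : ℕ) • (star a * a) + (2 : ℕ) • (star b * b) := by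
  have h : 0 ≤ star (a - b) * (a - b) := star_mul_self_nonneg _
  rw [← sub_nonneg]
  convert h using 1
  simp only [star_add, star_sub]
  noncomm_ring

private theorem fstar_sum {ι : Type} [DecidableEq ι] (s : Finset ι) (z : ι → D) :
    star (∑ i ∈ s, z i) * (∑ i ∈ s, z i) ≤ (2 ^ s.card : ℕ) • ∑ i ∈ s, star (z i) * z i := by
  induction s using Finset.induction_on with
  | empty => simp
  | insert a s ha ih =>
    rw [Finset.sum_insert ha, Finset.sum_insert ha, Finset.card_insert_of_notMem ha]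
    refine (fstar_two _ _).trans ?_
    rw [smul_add]
    refine add_le_add ?_ ?_
    · refine nsmul_le_nsmul_left (star_mul_self_nonneg _) ?_
      calc 2 = 2 ^ 1 := by norm_num
        _ ≤ 2 ^ (s.card + 1) := Nat.pow_le_pow_right (by norm_num) (by omega)
    · rw [pow_succ', mul_smul]
      exact nsmul_le_nsmul_right ih 2

/-- the main estimate -/
private theorem fstar_core (y : D) {n : ℕ} (p p' : Fin n → D) (h : ∑ i, p i * y * p' i = 1) :
    ∃ c : ℝ, 0 < c ∧ algebraMap ℝ D c ≤ ∑ i, star (p' i) * (star y * y) * p' i := by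
  have h1 := fstar_sum Finset.univ (fun i => p i * y * p' i)
  rw [h, star_one, mul_one] at h1
  set M : ℝ := 1 + ∑ i, ‖p i‖ ^ 2 with hM
  have hM0 : 0 < M := by
    have : 0 ≤ ∑ i, ‖p i‖ ^ 2 := Finset.sum_nonneg fun i _ => by positivity
    linarith
  have h2 : ∀ i, star (p i * y * p' i) * (p i * y * p' i) ≤
      M • (star (p' i) * (star y * y) * p' i) := by
    intro i
    have e1 : star (p i) * p i ≤ algebraMap ℝ D M := by
      refine CStarAlgebra.star_mul_le_algebraMap_norm_sq.trans ?_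
      refine fstar_am ?_
      have : ‖p i‖ ^ 2 ≤ ∑ j, ‖p j‖ ^ 2 :=
        Finset.single_le_sum (f := fun j => ‖p j‖ ^ 2) (fun j _ => by positivity)
          (Finset.mem_univ i)
      linarith
    have e2 := star_left_conjugate_le_conjugate e1 (y * p' i)
    have e3 : star (y * p' i) * (star (p i) * p i) * (y * p' i) =
        star (p i * y * p' i) * (p i * y * p' i) := by
      simp only [star_mul, mul_assoc]
    have e4 : star (y * p' i) * algebraMap ℝ D M * (y * p' i) =
        M • (star (p' i) * (star y * y) * p' i) := by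
      rw [Algebra.algebraMap_eq_smul_one, mul_smul_comm, smul_mul_assoc, mul_one]
      simp only [star_mul, mul_assoc]
    rw [e3, e4] at e2
    exact e2
  have h3 : (1 : D) ≤ (2 ^ n * M) • ∑ i, star (p' i) * (star y * y) * p' i := by
    refine h1.trans ?_
    rw [Finset.card_univ, Fintype.card_fin, mul_smul, Finset.smul_sum (r := M)]
    have h4 : (2 ^ n : ℕ) • ∑ i, star (p i * y * p' i) * (p i * y * p' i) ≤
        (2 ^ n : ℕ) • ∑ i, M • (star (p' i) * (star y * y) * p' i) :=
      nsmul_le_nsmul_right (Finset.sum_le_sum fun i _ => h2 i) _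
    refine h4.trans (le_of_eq ?_)
    rw [← Nat.cast_smul_eq_nsmul ℝ]
    push_cast
    rfl
  have hc : 0 < 2 ^ n * M := by positivity
  refine ⟨(2 ^ n * M)⁻¹, inv_pos.2 hc, ?_⟩
  have h5 := smul_le_smul_of_nonneg_left h3 (inv_pos.2 hc).le
  rw [inv_smul_smul₀ hc.ne'] at h5
  rw [Algebra.algebraMap_eq_smul_one]
  exact h5

/-- normalization -/
private theorem fstar_norm (b : D) {n : ℕ} (p : Fin n → D) {c : ℝ} (hc : 0 < c)
    (h : algebraMap ℝ D c ≤ ∑ i, star (p i) * b * p i) :
    ∃ x : Fin n → D, ∑ i, star (x i) * b * x i = 1 := by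
  set S : D := ∑ i, star (p i) * b * p i with hS
  have hcs : IsStrictlyPositive (algebraMap ℝ D c) := by
    have h0 : 0 ≤ algebraMap ℝ D c := by
      rw [Algebra.algebraMap_eq_smul_one]
      exact smul_nonneg hc.le zero_le_one
    exact IsUnit.isStrictlyPositive ((IsUnit.mk0 c hc.ne').map (algebraMap ℝ D)) h0
  have hu : IsUnit S := CStarAlgebra.isUnit_of_le _ h hcs
  have hS0 : 0 ≤ S := hcs.nonneg.trans h
  have hSp : IsStrictlyPositive S := hu.isStrictlyPositive hS0
  have h1 := CFC.conjugate_rpow_neg_one_half S hSp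
  have h2 : star (S ^ (-(1 / 2) : ℝ)) = S ^ (-(1 / 2) : ℝ) :=
    (IsSelfAdjoint.of_nonneg CFC.rpow_nonneg).star_eq
  obtain ⟨R, hR⟩ : ∃ R, R = S ^ (-(1 / 2) : ℝ) := ⟨_, rfl⟩
  rw [← hR] at h1 h2
  refine ⟨fun i => p i * R, ?_⟩
  rw [← h1, hS, Finset.mul_sum, Finset.sum_mul]
  refine Finset.sum_congr rfl fun i _ => ?_
  rw [star_mul, h2]
  simp only [mul_assoc]

end order

/-- FSTAR.  `1 = ∑ p y p'`; `1 = 1* 1 ≤ n ∑ ‖p‖² p'* y* y p'`, so the last sum is invertible. -/
theorem full_star_mul (y : D) (h : Full {y}) : Full {star y * y} := by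
  let _ := CStarAlgebra.spectralOrder D
  have _ := CStarAlgebra.spectralOrderedRing D
  obtain ⟨n, p, x, p', hx, h1⟩ := h
  have hx' : ∀ i, x i = y := hx
  simp only [hx'] at h1
  obtain ⟨c, hc, h2⟩ := fstar_core y p p' h1
  obtain ⟨x, hx⟩ := fstar_norm (star y * y) p' hc h2
  exact ⟨n, fun i => star (x i), fun _ => star y * y, x, fun _ => rfl, hx⟩

/-- FSTAR2.  `a = y* y` full: `T = ∑ p'* a p'` is invertible and positive, `x = p' T^(-1/2)`. -/
theorem full_star_form (a : D) (ha : ∃ y, a = star y * y) (h : Full {a}) :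
    ∃ (n : ℕ) (x : Fin n → D), ∑ j, star (x j) * a * x j = 1 := by
  let _ := CStarAlgebra.spectralOrder D
  have _ := CStarAlgebra.spectralOrderedRing D
  obtain ⟨y, rfl⟩ := ha
  obtain ⟨n, p, x, p', hx, h1⟩ := h
  have hx' : ∀ i, x i = star y * y := hx
  simp only [hx'] at h1
  obtain ⟨c, hc, h2⟩ := fstar_core y (fun i => p i * star y) p' (by
    simpa only [mul_assoc] using h1)
  exact ⟨n, fstar_norm (star y * y) p' hc h2⟩

/-- FSTAR3.  Cut-down version. -/
theorem full_star_cut (a : D) (ha : ∃ y, a = star y * y) (h : Full {a}) :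
    ∃ δ : ℝ, 0 < δ ∧ δ ≤ 1 ∧ ∃ (n : ℕ) (x : Fin n → D),
      ∑ j, star (x j) * cfc (fun t : ℝ => max 0 (t - δ)) a * x j = 1 := by
  let _ := CStarAlgebra.spectralOrder D
  have _ := CStarAlgebra.spectralOrderedRing D
  obtain ⟨y, rfl⟩ := ha
  obtain ⟨n, p, x, p', hx, h1⟩ := h
  have hx' : ∀ i, x i = star y * y := hx
  simp only [hx'] at h1
  obtain ⟨c, hc, h2⟩ := fstar_core y (fun i => p i * star y) p' (by
    simpa only [mul_assoc] using h1)
  set a : D := star y * y with hay
  have hasa : IsSelfAdjoint a := IsSelfAdjoint.star_mul_self y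
  set M : ℝ := 1 + ∑ i, ‖p' i‖ ^ 2 with hM
  have hM0 : 1 ≤ M := by
    have : 0 ≤ ∑ i, ‖p' i‖ ^ 2 := Finset.sum_nonneg fun i _ => by positivity
    linarith
  have hMp : 0 < M := by linarith
  have hsum : ∑ i, star (p' i) * p' i ≤ algebraMap ℝ D M := by
    have e1 : ∑ i, star (p' i) * p' i ≤ ∑ i, algebraMap ℝ D (‖p' i‖ ^ 2) :=
      Finset.sum_le_sum fun i _ => CStarAlgebra.star_mul_le_algebraMap_norm_sq
    refine e1.trans ?_
    rw [← map_sum]
    exact fstar_am (by linarith)
  set δ : ℝ := min 1 (c / 2 / M) with hδ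
  have hδ0 : 0 < δ := lt_min one_pos (by positivity)
  have hδ1 : δ ≤ 1 := min_le_left _ _
  have hδM : δ * M ≤ c / 2 := by
    have : δ ≤ c / 2 / M := min_le_right _ _
    calc δ * M ≤ c / 2 / M * M := by gcongr
      _ = c / 2 := div_mul_cancel₀ _ hMp.ne'
  refine ⟨δ, hδ0, hδ1, n, ?_⟩
  set b : D := cfc (fun t : ℝ => max 0 (t - δ)) a with hb
  have hab : a - algebraMap ℝ D δ ≤ b := by
    have e1 : a - algebraMap ℝ D δ = cfc (fun t : ℝ => t - δ) a := by
      rw [cfc_sub (fun t : ℝ => t) (fun _ => δ) a, cfc_id' ℝ a, cfc_const δ a]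
    rw [e1, hb]
    exact cfc_mono fun t _ => le_max_right _ _
  refine fstar_norm b p' (c := c / 2) (by positivity) ?_
  have h3 : ∑ i, star (p' i) * (a - algebraMap ℝ D δ) * p' i ≤ ∑ i, star (p' i) * b * p' i :=
    Finset.sum_le_sum fun i _ => star_left_conjugate_le_conjugate hab (p' i)
  refine le_trans ?_ h3
  have h4 : ∑ i, star (p' i) * (a - algebraMap ℝ D δ) * p' i =
      ∑ i, star (p' i) * a * p' i - δ • ∑ i, star (p' i) * p' i := by
    rw [Finset.smul_sum, ← Finset.sum_sub_distrib]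
    refine Finset.sum_congr rfl fun i _ => ?_
    rw [Algebra.algebraMap_eq_smul_one, mul_sub, sub_mul, mul_smul_comm, smul_mul_assoc, mul_one]
  rw [h4]
  have h5 : δ • ∑ i, star (p' i) * p' i ≤ algebraMap ℝ D (δ * M) := by
    have := smul_le_smul_of_nonneg_left hsum hδ0.le
    refine this.trans (le_of_eq ?_)
    rw [Algebra.algebraMap_eq_smul_one, Algebra.algebraMap_eq_smul_one, smul_smul]
  have h6 : algebraMap ℝ D (c - δ * M) ≤
      ∑ i, star (p' i) * a * p' i - δ • ∑ i, star (p' i) * p' i := by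
    rw [map_sub]
    exact sub_le_sub h2 h5
  refine le_trans (fstar_am ?_) h6
  linarith

end Vale.Agent.P101K
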