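import Vale.Agent.P101K.Defs

namespace Vale.Agent.P101K

universe u

variable {ι : Type} [Fintype ι] [DecidableEq ι] {D : Type u} [CStarAlgebra D] [PartialOrder D]
  [StarOrderedRing D]

/-- NRM. -/
theorem nrm_isOZ (ε : ℝ) (hε : 0 < ε) (φ : Matrix ι ι ℂ →ₗ[ℂ] D) (hφ : IsOZ φ)
    (hp : 0 ≤ φ 1) : IsOZ (nrm ε φ) := by
  have hcomm : ∀ x, Commute (cfc (fun t : ℝ => (max ε t)⁻¹) (φ 1)) (φ x) := by
    intro x
    have h1 : Commute (φ 1) (φ x) := by
      have h2 := hφ.mul' x 1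
      rw [mul_one] at h2
      exact h2.symm
    exact h1.cfc_real _
  have hsa : star (cfc (fun t : ℝ => (max ε t)⁻¹) (φ 1))
      = cfc (fun t : ℝ => (max ε t)⁻¹) (φ 1) :=
    (cfc_predicate (fun t : ℝ => (max ε t)⁻¹) (φ 1)).star_eq
  constructor
  · intro x
    change cfc (fun t : ℝ => (max ε t)⁻¹) (φ 1) * φ _ = star (cfc (fun t : ℝ => (max ε t)⁻¹)
      (φ 1) * φ x)
    rw [star_mul, hsa, ← hφ.star']
    exact hcomm _
  · intro x y
    change cfc (fun t : ℝ => (max ε t)⁻¹) (φ 1) * φ x * (cfc (fun t : ℝ => (max ε t)⁻¹)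
      (φ 1) * φ y) = cfc (fun t : ℝ => (max ε t)⁻¹) (φ 1) * φ 1 *
        (cfc (fun t : ℝ => (max ε t)⁻¹) (φ 1) * φ (x * y))
    set c := cfc (fun t : ℝ => (max ε t)⁻¹) (φ 1) with hc
    have e1 : c * φ x * (c * φ y) = c * c * (φ x * φ y) := by
      rw [mul_assoc c (φ x), ← mul_assoc (φ x) c, ← (hcomm x).eq]
      simp only [mul_assoc]
    have e2 : c * φ 1 * (c * φ (x * y)) = c * c * (φ 1 * φ (x * y)) := by
      rw [mul_assoc c (φ 1), ← mul_assoc (φ 1) c, ← (hcomm 1).eq]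
      simp only [mul_assoc]
    rw [e1, e2, hφ.mul']

/-- NRM2. -/
theorem one_sub_nrm (ε : ℝ) (hε : 0 < ε) (φ : Matrix ι ι ℂ →ₗ[ℂ] D) (hp : 0 ≤ φ 1) :
    1 - nrm ε φ 1 = cfc (fun t : ℝ => max 0 (1 - t / ε)) (φ 1) := by
  have hc : Continuous (fun t : ℝ => (max ε t)⁻¹) :=
    (continuous_const.max continuous_id).inv₀ fun t => (lt_max_of_lt_left hε).ne'
  have hsa : IsSelfAdjoint (φ 1) := IsSelfAdjoint.of_nonneg hp
  change 1 - cfc (fun t : ℝ => (max ε t)⁻¹) (φ 1) * φ 1 = _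
  have h1 : cfc (fun t : ℝ => (max ε t)⁻¹) (φ 1) * φ 1
      = cfc (fun t : ℝ => (max ε t)⁻¹ * t) (φ 1) := by
    rw [cfc_mul (fun t : ℝ => (max ε t)⁻¹) (fun t => t) (φ 1) hc.continuousOn
      continuous_id.continuousOn, cfc_id' ℝ (φ 1)]
  have h2 : (1 : D) = cfc (fun _ : ℝ => (1 : ℝ)) (φ 1) := by
    rw [cfc_const_one ℝ (φ 1)]
  rw [h1, h2, ← cfc_sub (fun _ : ℝ => (1 : ℝ)) (fun t : ℝ => (max ε t)⁻¹ * t) (φ 1)
    continuous_const.continuousOn (hc.mul continuous_id).continuousOn]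
  refine cfc_congr fun t ht => ?_
  have ht0 : 0 ≤ t := spectrum_nonneg_of_nonneg hp ht
  change 1 - (max ε t)⁻¹ * t = max 0 (1 - t / ε)
  rcases le_total t ε with h | h
  · rw [max_eq_left h, max_eq_right]
    · rw [div_eq_inv_mul]
    · rw [sub_nonneg, div_le_one hε]
      exact h
  · have h3 : 0 < t := hε.trans_le h
    rw [max_eq_right h, inv_mul_cancel₀ h3.ne', sub_self, max_eq_left]
    rw [sub_nonpos, one_le_div hε]
    exact h

/-- NRM3. -/
theorem nrm_bounds (ε : ℝ) (hε : 0 < ε) (φ : Matrix ι ι ℂ →ₗ[ℂ] D) (hp : 0 ≤ φ 1) :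
    0 ≤ nrm ε φ 1 ∧ nrm ε φ 1 ≤ 1 := by
  have hc : Continuous (fun t : ℝ => (max ε t)⁻¹) :=
    (continuous_const.max continuous_id).inv₀ fun t => (lt_max_of_lt_left hε).ne'
  have hsa : IsSelfAdjoint (φ 1) := IsSelfAdjoint.of_nonneg hp
  constructor
  · change 0 ≤ cfc (fun t : ℝ => (max ε t)⁻¹) (φ 1) * φ 1
    have h1 : cfc (fun t : ℝ => (max ε t)⁻¹) (φ 1) * φ 1
        = cfc (fun t : ℝ => (max ε t)⁻¹ * t) (φ 1) := by
      rw [cfc_mul (fun t : ℝ => (max ε t)⁻¹) (fun t => t) (φ 1) hc.continuousOn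
        continuous_id.continuousOn, cfc_id' ℝ (φ 1)]
    rw [h1]
    refine cfc_nonneg fun t ht => ?_
    have ht0 : 0 ≤ t := spectrum_nonneg_of_nonneg hp ht
    have h2 : 0 < max ε t := lt_max_of_lt_left hε
    positivity
  · have h1 : 0 ≤ 1 - nrm ε φ 1 := by
      rw [one_sub_nrm ε hε φ hp]
      exact cfc_nonneg fun t _ => le_max_left _ _
    exact sub_nonneg.1 h1

/-- LEME.  `(ε - S)_+ K = 0`: `((ε - S)_+)² K ≤ 0` and `≥ 0` (commuting positive elements), so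
`(ε - S)_+ K^(1/2) = 0` by the C*-identity. -/
theorem lemE (ε : ℝ) (hε : 0 < ε) (S K : D) (hS : 0 ≤ S) (hK : 0 ≤ K) (hSK : Commute S K)
    (h : 0 ≤ K * S - (ε : ℂ) • K) :
    cfc (fun t : ℝ => max 0 (1 - t / ε)) S * K = 0 := by
  set c : D := cfc (fun t : ℝ => max 0 (1 - t / ε)) S with hc
  have hcont : Continuous (fun t : ℝ => max 0 (1 - t / ε)) :=
    continuous_const.max (continuous_const.sub (continuous_id.div_const ε))
  have hSsa : IsSelfAdjoint S := IsSelfAdjoint.of_nonneg hS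
  have hKsa : star K = K := (IsSelfAdjoint.of_nonneg hK).star_eq
  have hc0 : 0 ≤ c := cfc_nonneg fun t _ => le_max_left _ _
  have hcsa : star c = c := (IsSelfAdjoint.of_nonneg hc0).star_eq
  have hcK : Commute c K := hSK.cfc_real _
  have hcS : c * S = (ε : ℂ) • (c - c * c) := by
    have e1 : c * S = cfc (fun t : ℝ => max 0 (1 - t / ε) * t) S := by
      rw [cfc_mul (fun t : ℝ => max 0 (1 - t / ε)) (fun t => t) S hcont.continuousOn
        continuous_id.continuousOn, cfc_id' ℝ S]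
    have e2 : c * c = cfc (fun t : ℝ => max 0 (1 - t / ε) * max 0 (1 - t / ε)) S := by
      rw [cfc_mul (fun t : ℝ => max 0 (1 - t / ε)) (fun t : ℝ => max 0 (1 - t / ε)) S
        hcont.continuousOn hcont.continuousOn]
    have e3 : c - c * c = cfc (fun t : ℝ => max 0 (1 - t / ε)
        - max 0 (1 - t / ε) * max 0 (1 - t / ε)) S := by
      rw [e2, cfc_sub (fun t : ℝ => max 0 (1 - t / ε))
        (fun t : ℝ => max 0 (1 - t / ε) * max 0 (1 - t / ε)) S hcont.continuousOn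
        (hcont.mul hcont).continuousOn]
    have hcont2 : Continuous (fun t : ℝ => max 0 (1 - t / ε)
        - max 0 (1 - t / ε) * max 0 (1 - t / ε)) := hcont.sub (hcont.mul hcont)
    rw [e1, e3, Complex.coe_smul, ← cfc_smul ε (fun t : ℝ => max 0 (1 - t / ε)
        - max 0 (1 - t / ε) * max 0 (1 - t / ε)) S hcont2.continuousOn]
    refine cfc_congr fun t _ => ?_
    change max 0 (1 - t / ε) * t = ε * (max 0 (1 - t / ε) - max 0 (1 - t / ε) * max 0 (1 - t / ε))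
    rcases le_total 0 (1 - t / ε) with h0 | h0
    · rw [max_eq_right h0]
      field_simp
      ring
    · rw [max_eq_left h0]
      ring
  have hKc : Commute K c := hcK.symm
  have hneg : 0 ≤ -((ε : ℂ) • (K * c * c * c)) := by
    have h1 := star_left_conjugate_nonneg h c
    rw [hcsa] at h1
    have e : c * (K * S - (ε : ℂ) • K) * c = -((ε : ℂ) • (K * c * c * c)) := by
      have e1 : c * (K * S - (ε : ℂ) • K) * c = K * (c * S) * c - (ε : ℂ) • (K * c * c) := by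
        rw [mul_sub, sub_mul, ← mul_assoc c K S, hcK.eq, mul_smul_comm, smul_mul_assoc, hcK.eq,
          mul_assoc K c S]
      rw [e1, hcS, mul_smul_comm, smul_mul_assoc, mul_sub, sub_mul, smul_sub]
      simp only [mul_assoc]
      abel
    rw [e] at h1
    exact h1
  have hp1 : 0 ≤ K * c := Commute.mul_nonneg hK hc0 hKc
  have hp2 : 0 ≤ K * c * c := Commute.mul_nonneg hp1 hc0 (hKc.mul_left (Commute.refl c))
  have hp3 : 0 ≤ K * c * c * c := Commute.mul_nonneg hp2 hc0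
    ((hKc.mul_left (Commute.refl c)).mul_left (Commute.refl c))
  have hz : K * c * c * c = 0 := by
    have h1 : 0 ≤ (ε : ℂ) • (K * c * c * c) := by
      rw [Complex.coe_smul]
      exact smul_nonneg hε.le hp3
    have h2 : (ε : ℂ) • (K * c * c * c) = 0 := le_antisymm (neg_nonneg.1 hneg) h1
    rcases smul_eq_zero.1 h2 with h3 | h3
    · exact absurd (by exact_mod_cast h3) hε.ne'
    · exact h3
  have hwsa : star (K * c) = K * c := (IsSelfAdjoint.of_nonneg hp1).star_eq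
  have hw4 : (K * c) * (K * c) * ((K * c) * (K * c)) = 0 := by
    have e1 : (K * c) * (K * c) * ((K * c) * (K * c)) = K * K * K * (K * c * c * c) * c := by
      have hcc : c * K = K * c := hcK.eq
      have a1 : K * c * (K * c) = K * K * (c * c) := by
        rw [mul_assoc K c, ← mul_assoc c K, hcc]
        simp only [mul_assoc]
      have a2 : c * c * (K * K) = K * K * (c * c) := by
        have hh : Commute (c * c) (K * K) :=
          (hcK.mul_left hcK).mul_right (hcK.mul_left hcK)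
        exact hh.eq
      rw [a1, mul_assoc (K * K) (c * c), ← mul_assoc (c * c) (K * K), a2]
      simp only [mul_assoc]
    rw [e1, hz, mul_zero, zero_mul]
  have hn1 : ‖K * c * (K * c)‖ = ‖K * c‖ * ‖K * c‖ := by
    have := CStarRing.norm_star_mul_self (x := K * c)
    rwa [hwsa] at this
  have hn2 : ‖K * c * (K * c) * (K * c * (K * c))‖ = ‖K * c * (K * c)‖ * ‖K * c * (K * c)‖ := by
    have := CStarRing.norm_star_mul_self (x := K * c * (K * c))
    rwa [star_mul, hwsa] at this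
  rw [hw4, norm_zero, hn1] at hn2
  have hn3 : ‖K * c‖ = 0 := by
    have h5 : (‖K * c‖ * ‖K * c‖) * (‖K * c‖ * ‖K * c‖) = 0 := hn2.symm
    have h6 := mul_self_eq_zero.1 h5
    exact mul_self_eq_zero.1 h6
  rw [hcK.eq]
  exact norm_eq_zero.1 hn3

/-- JSTEP (a): `φ 1` large on `K`. -/
theorem jstep_a (ε : ℝ) (hε : 0 < ε) (φ ψ : Matrix ι ι ℂ →ₗ[ℂ] D) (hφ : IsOZ φ) (hψ : IsOZ ψ)
    (hc : ∀ x y, Commute (φ x) (ψ y)) (hJ : Jmap φ ψ 1 = φ 1 * φ 1 + ψ 1 * ψ 1)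
    (hp : 0 ≤ φ 1) (hq : 0 ≤ ψ 1) (K : D) (hK : 0 ≤ K) (hKφ : Commute K (φ 1))
    (hKψ : Commute K (ψ 1)) (h : 0 ≤ K * (φ 1 * φ 1) - (ε : ℂ) • K) :
    K * nrm ε (Jmap φ ψ) 1 = K := by
  have hpp : 0 ≤ φ 1 * φ 1 := Commute.mul_nonneg hp hp (Commute.refl _)
  have hqq : 0 ≤ ψ 1 * ψ 1 := Commute.mul_nonneg hq hq (Commute.refl _)
  have hJ0 : 0 ≤ Jmap φ ψ 1 := by
    rw [hJ]
    exact add_nonneg hpp hqq
  have hKqq : 0 ≤ K * (ψ 1 * ψ 1) := Commute.mul_nonneg hK hqq (hKψ.mul_right hKψ)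
  have hcomm : Commute (Jmap φ ψ 1) K := by
    rw [hJ]
    exact ((hKφ.mul_right hKφ).add_right (hKψ.mul_right hKψ)).symm
  have h1 : 0 ≤ K * Jmap φ ψ 1 - (ε : ℂ) • K := by
    have e : K * Jmap φ ψ 1 - (ε : ℂ) • K =
        (K * (φ 1 * φ 1) - (ε : ℂ) • K) + K * (ψ 1 * ψ 1) := by
      rw [hJ, mul_add]
      abel
    rw [e]
    exact add_nonneg h hKqq
  have h2 := lemE ε hε (Jmap φ ψ 1) K hJ0 hK hcomm h1
  have h3 := one_sub_nrm ε hε (Jmap φ ψ) hJ0
  rw [← h3] at h2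
  have hc2 : Commute (1 - nrm ε (Jmap φ ψ) 1) K := by
    rw [h3]
    exact hcomm.cfc_real _
  rw [hc2.eq, mul_sub, mul_one, sub_eq_zero] at h2
  exact h2.symm

/-- JSTEP (b): `ψ 1 = 1` on `K`. -/
theorem jstep_b (ε : ℝ) (hε : 0 < ε) (hε1 : ε ≤ 1) (φ ψ : Matrix ι ι ℂ →ₗ[ℂ] D) (hφ : IsOZ φ)
    (hψ : IsOZ ψ) (hc : ∀ x y, Commute (φ x) (ψ y))
    (hJ : Jmap φ ψ 1 = φ 1 * φ 1 + ψ 1 * ψ 1) (hp : 0 ≤ φ 1) (hq : 0 ≤ ψ 1) (K : D)
    (hK : 0 ≤ K) (hKφ : Commute K (φ 1)) (hKψ : Commute K (ψ 1)) (h : K * ψ 1 = K) :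
    K * nrm ε (Jmap φ ψ) 1 = K := by
  have hpp : 0 ≤ φ 1 * φ 1 := Commute.mul_nonneg hp hp (Commute.refl _)
  have hqq : 0 ≤ ψ 1 * ψ 1 := Commute.mul_nonneg hq hq (Commute.refl _)
  have hJ0 : 0 ≤ Jmap φ ψ 1 := by
    rw [hJ]
    exact add_nonneg hpp hqq
  have hKpp : 0 ≤ K * (φ 1 * φ 1) := Commute.mul_nonneg hK hpp (hKφ.mul_right hKφ)
  have hcomm : Commute (Jmap φ ψ 1) K := by
    rw [hJ]
    exact ((hKφ.mul_right hKφ).add_right (hKψ.mul_right hKψ)).symm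
  have h1 : 0 ≤ K * Jmap φ ψ 1 - (ε : ℂ) • K := by
    have e : K * Jmap φ ψ 1 - (ε : ℂ) • K =
        K * (φ 1 * φ 1) + (1 - ε) • K := by
      rw [hJ, mul_add, ← mul_assoc K (ψ 1), h, h, Complex.coe_smul, sub_smul, one_smul]
      abel
    rw [e]
    exact add_nonneg hKpp (smul_nonneg (sub_nonneg.2 hε1) hK)
  have h2 := lemE ε hε (Jmap φ ψ 1) K hJ0 hK hcomm h1
  have h3 := one_sub_nrm ε hε (Jmap φ ψ) hJ0
  rw [← h3] at h2
  have hc2 : Commute (1 - nrm ε (Jmap φ ψ) 1) K := by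
    rw [h3]
    exact hcomm.cfc_real _
  rw [hc2.eq, mul_sub, mul_one, sub_eq_zero] at h2
  exact h2.symm

/-- COMM.  If `s` and `star s` commute with all values of `φ` and of `ψ`, then `s` commutes with all
values of `nrm ε (Jmap φ ψ)` (`ψ 1`, `φ 1` self-adjoint). -/
theorem nrm_jmap_comm (ε : ℝ) (φ ψ : Matrix ι ι ℂ →ₗ[ℂ] D) (s : D)
    (h1 : ∀ x, Commute s (φ x)) (h2 : ∀ x, Commute s (ψ x)) (h3 : ∀ x, Commute (star s) (φ x))
    (h4 : ∀ x, Commute (star s) (ψ x)) : ∀ x, Commute s (nrm ε (Jmap φ ψ) x) := by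
  have hJ : ∀ x, Commute s (Jmap φ ψ x) := by
    intro x
    unfold Jmap
    simp only [LinearMap.add_apply, LinearMap.comp_apply, LinearMap.mulLeft_apply,
      LinearMap.smul_apply, LinearMap.sum_apply, LinearMap.sub_apply, LinearMap.mulRight_apply]
    refine ((((h1 _).mul_right (h1 _)).add_right ((h2 _).mul_right (h2 _)))).add_right
      (Commute.smul_right (Commute.sum_right _ _ _ fun i _ => Commute.sum_right _ _ _ fun j _ =>
        (((h1 _).mul_right (h2 _)).sub_right ((h1 _).mul_right (h2 _)))) _)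
  intro x
  change Commute s (cfc (fun t : ℝ => (max ε t)⁻¹) (Jmap φ ψ 1) * Jmap φ ψ x)
  exact ((hJ 1).symm.cfc_real _).symm.mul_right (hJ x)

end Vale.Agent.P101K
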