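import Vale.Agent.P101K.JMap
import Vale.Agent.P101K.Nrm
import Vale.Agent.P101K.BlkCopies

namespace Vale.Agent.P101K

universe u

/-- iterated normalized join -/
noncomputable def Jlist {ι : Type} [Fintype ι] [DecidableEq ι] {D : Type u} [CStarAlgebra D]
    (ε : ℝ) : List (Matrix ι ι ℂ →ₗ[ℂ] D) → Matrix ι ι ℂ →ₗ[ℂ] D
  | [] => 0
  | φ :: L => nrm ε (Jmap φ (Jlist ε L))

/-- JLIST.  Induction on `L` with `jmap_isOZ`, `jmap_one`, `nrm_isOZ`, `nrm_bounds`, `jstep_a`
(for the head, with `Blk.Kh`, `Blk.Kcomm`), `jstep_b` (for the tail), `nrm_jmap_comm`. -/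
theorem jlist_spec {D : Type u} [CStarAlgebra D] [PartialOrder D] [StarOrderedRing D] {q n : ℕ}
    {ε : ℝ} (F : Fam q n ε D) (hε : 0 < ε) (hε1 : ε ≤ 1) (L : List ℕ) (hL : L.Nodup) :
    IsOZ (Jlist ε (L.map fun i => (F.β i).φ)) ∧
    0 ≤ Jlist ε (L.map fun i => (F.β i).φ) 1 ∧
    (∀ s : D, (∀ i ∈ L, ∀ x, Commute s ((F.β i).φ x) ∧ Commute (star s) ((F.β i).φ x)) →
      ∀ x, Commute s (Jlist ε (L.map fun i => (F.β i).φ) x)) ∧
    ∀ i ∈ L, (F.β i).K * Jlist ε (L.map fun i => (F.β i).φ) 1 = (F.β i).K := by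
  induction L with
  | nil =>
    refine ⟨⟨fun x => ?_, fun x y => ?_⟩, ?_, ?_, ?_⟩
    · simp [Jlist]
    · simp [Jlist]
    · simp [Jlist]
    · intro s _ x
      simp [Jlist]
    · intro i hi
      simp at hi
  | cons a L ih =>
    rw [List.nodup_cons] at hL
    obtain ⟨haL, hL⟩ := hL
    obtain ⟨i1, i2, i3, i4⟩ := ih hL
    rw [List.map_cons]
    show IsOZ (nrm ε (Jmap (F.β a).φ (Jlist ε (L.map fun i => (F.β i).φ)))) ∧
      0 ≤ nrm ε (Jmap (F.β a).φ (Jlist ε (L.map fun i => (F.β i).φ))) 1 ∧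
      (∀ s : D, (∀ i ∈ a :: L, ∀ x, Commute s ((F.β i).φ x) ∧ Commute (star s) ((F.β i).φ x)) →
        ∀ x, Commute s (nrm ε (Jmap (F.β a).φ (Jlist ε (L.map fun i => (F.β i).φ))) x)) ∧
      ∀ i ∈ a :: L,
        (F.β i).K * nrm ε (Jmap (F.β a).φ (Jlist ε (L.map fun i => (F.β i).φ))) 1 = (F.β i).K
    set ψ := Jlist ε (L.map fun i => (F.β i).φ) with hψ
    set φ := (F.β a).φ with hφ
    have hne : ∀ i ∈ L, a ≠ i := fun i hi h => haL (h ▸ hi)
    have hCa : ∀ s ∈ F.C a, ∀ x, Commute s (ψ x) := by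
      intro s hs
      apply i3 s
      intro i hi x
      exact ⟨F.comm a i (hne i hi) s hs _ (F.φmem i x),
        F.comm a i (hne i hi) (star s) (star_mem hs) _ (F.φmem i x)⟩
    have hc : ∀ x y, Commute (φ x) (ψ y) := fun x y => hCa (φ x) (F.φmem a x) y
    have hp : 0 ≤ φ 1 := by
      obtain ⟨r0, hr0⟩ := (F.β a).hpos
      rw [hφ, hr0]
      exact star_mul_self_nonneg r0
    have hoz : IsOZ φ := (F.β a).oz
    have hJ := jmap_one φ ψ hoz i1 hc
    have hJoz := jmap_isOZ φ ψ hoz i1 hc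
    have hsa : ∀ χ : Matrix (Fin (q + 1)) (Fin (q + 1)) ℂ →ₗ[ℂ] D, IsOZ χ → 0 ≤ χ 1 * χ 1 := by
      intro χ hχ
      have h1 : star (χ 1) = χ 1 := by
        rw [← hχ.star' 1, Matrix.conjTranspose_one]
      have h2 := star_mul_self_nonneg (χ 1)
      rwa [h1] at h2
    have hJp : 0 ≤ Jmap φ ψ 1 := by
      rw [hJ]
      exact add_nonneg (hsa φ hoz) (hsa ψ i1)
    have hKpos : ∀ i, 0 ≤ (F.β i).K := by
      intro i
      rw [(F.β i).Kpos]
      exact star_mul_self_nonneg _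
    refine ⟨nrm_isOZ ε hε _ hJoz hJp, (nrm_bounds ε hε _ hJp).1, ?_, ?_⟩
    · intro s hs
      apply nrm_jmap_comm ε φ ψ s
      · intro x
        exact (hs a (by simp) x).1
      · apply i3 s
        intro i hi x
        exact hs i (by simp [hi]) x
      · intro x
        exact (hs a (by simp) x).2
      · apply i3 (star s)
        intro i hi x
        rw [star_star]
        exact ⟨(hs i (by simp [hi]) x).2, (hs i (by simp [hi]) x).1⟩
    · intro i hi
      rw [List.mem_cons] at hi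
      rcases hi with rfl | hi
      · apply jstep_a ε hε φ ψ hoz i1 hc hJ hp i2 _ (hKpos _)
        · exact (F.β _).Kcomm 1
        · exact hCa _ (F.Kmem _) 1
        · rw [(F.β _).Kh]
          exact star_mul_self_nonneg _
      · apply jstep_b ε hε hε1 φ ψ hoz i1 hc hJ hp i2 _ (hKpos _)
        · exact (F.comm a i (hne i hi) _ (F.φmem a 1) _ (F.Kmem i)).symm
        · apply i3 _ _ 1
          intro j hj x
          rw [(F.β i).Ksa]
          rcases eq_or_ne i j with rfl | hij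
          · exact ⟨(F.β i).Kcomm x, (F.β i).Kcomm x⟩
          · have := F.comm i j hij _ (F.Kmem i) _ (F.φmem j x)
            exact ⟨this, this⟩
        · exact i4 i hi

end Vale.Agent.P101K
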