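import Vale.Agent.P101K.Defs

namespace Vale.Agent.P101K

open Matrix

universe u

set_option linter.unusedSectionVars false

variable {ι : Type} [Fintype ι] [DecidableEq ι] {D : Type u} [Ring D] [Algebra ℂ D] [StarRing D]
  [StarModule ℂ D]

open scoped Kronecker

/-- the flip -/
private noncomputable def jF (ι : Type) [Fintype ι] [DecidableEq ι] :
    Matrix (ι × ι) (ι × ι) ℂ := ∑ i, ∑ j, eu i j ⊗ₖ eu j i

private theorem jF_apply (p q : ι × ι) : jF ι p q = if p = q.swap then 1 else 0 := by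
  unfold jF
  simp only [Matrix.sum_apply, kroneckerMap_apply, Matrix.single_apply]
  rcases p with ⟨a, b⟩
  rcases q with ⟨c, d⟩
  rw [Finset.sum_eq_single a]
  · rw [Finset.sum_eq_single c]
    · by_cases h1 : a = d <;> by_cases h2 : b = c <;> simp [h1, h2, eq_comm]
    · intro j _ hj
      simp [hj]
    · intro h
      exact absurd (Finset.mem_univ _) h
  · intro i _ hi
    refine Finset.sum_eq_zero fun j _ => ?_
    simp [hi]
  · intro h
    exact absurd (Finset.mem_univ _) h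

private theorem jF_left (X : Matrix (ι × ι) (ι × ι) ℂ) (p q : ι × ι) :
    (jF ι * X) p q = X p.swap q := by
  rw [Matrix.mul_apply, Finset.sum_eq_single p.swap]
  · rw [jF_apply]; simp
  · intro r _ hr
    rw [jF_apply, if_neg, zero_mul]
    rintro rfl
    exact hr (by simp)
  · intro h
    exact absurd (Finset.mem_univ _) h

private theorem jF_right (X : Matrix (ι × ι) (ι × ι) ℂ) (p q : ι × ι) :
    (X * jF ι) p q = X p q.swap := by
  rw [Matrix.mul_apply, Finset.sum_eq_single q.swap]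
  · rw [jF_apply]; simp
  · intro r _ hr
    rw [jF_apply, if_neg hr, mul_zero]
  · intro h
    exact absurd (Finset.mem_univ _) h

private theorem jF_kron (x y : Matrix ι ι ℂ) : jF ι * (x ⊗ₖ y) = (y ⊗ₖ x) * jF ι := by
  ext p q
  rw [jF_left, jF_right]
  simp [kroneckerMap_apply, mul_comm]

private theorem jF_sq : jF ι * jF ι = 1 := by
  ext p q
  rw [jF_left, jF_apply, Matrix.one_apply]
  congr 1
  simp

private theorem jF_star : (jF ι)ᴴ = jF ι := by
  ext p q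
  rw [conjTranspose_apply, jF_apply, jF_apply]
  by_cases h : q = p.swap
  · rw [if_pos h, if_pos (by rw [h]; simp)]; simp
  · rw [if_neg h, if_neg (fun h2 => h (by rw [h2]; simp))]; simp

/-- the map `B` -/
private noncomputable def jB (φ ψ : Matrix ι ι ℂ →ₗ[ℂ] D) :
    Matrix (ι × ι) (ι × ι) ℂ →ₗ[ℂ] D :=
  ∑ p : ι × ι, ∑ q : ι × ι,
    (LinearMap.toSpanSingleton ℂ D (φ (eu p.1 q.1) * ψ (eu p.2 q.2))).comp
      ((LinearMap.proj q).comp (LinearMap.proj p : ((ι × ι) → (ι × ι) → ℂ) →ₗ[ℂ] _))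

private theorem jB_apply (φ ψ : Matrix ι ι ℂ →ₗ[ℂ] D) (X : Matrix (ι × ι) (ι × ι) ℂ) :
    jB φ ψ X = ∑ p : ι × ι, ∑ q : ι × ι, X p q • (φ (eu p.1 q.1) * ψ (eu p.2 q.2)) := by
  unfold jB
  simp only [LinearMap.sum_apply]
  rfl

private theorem jmat_sum (φ : Matrix ι ι ℂ →ₗ[ℂ] D) (x : Matrix ι ι ℂ) :
    φ x = ∑ i, ∑ j, x i j • φ (eu i j) := by
  conv_lhs => rw [Matrix.matrix_eq_sum_single x]
  simp only [map_sum]
  refine Finset.sum_congr rfl fun i _ => Finset.sum_congr rfl fun j _ => ?_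
  rw [← map_smul, Matrix.smul_single, smul_eq_mul, mul_one]

private theorem jB_kron (φ ψ : Matrix ι ι ℂ →ₗ[ℂ] D) (x y : Matrix ι ι ℂ) :
    jB φ ψ (x ⊗ₖ y) = φ x * ψ y := by
  rw [jB_apply, jmat_sum φ x, jmat_sum ψ y]
  simp only [Fintype.sum_prod_type, kroneckerMap_apply]
  rw [Finset.sum_mul]
  refine Finset.sum_congr rfl fun i _ => ?_
  rw [Finset.sum_comm, Finset.sum_mul]
  refine Finset.sum_congr rfl fun k _ => ?_
  rw [Finset.mul_sum]
  refine Finset.sum_congr rfl fun j _ => ?_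
  rw [Finset.mul_sum]
  refine Finset.sum_congr rfl fun l _ => ?_
  rw [smul_mul_smul_comm]

private theorem jkron_single (p q : ι × ι) :
    (Matrix.single p q (1 : ℂ)) = eu p.1 q.1 ⊗ₖ eu p.2 q.2 := by
  ext a b
  rw [kroneckerMap_apply]
  show (Matrix.single p q (1 : ℂ)) a b
    = (Matrix.single p.1 q.1 (1 : ℂ)) a.1 b.1 * (Matrix.single p.2 q.2 (1 : ℂ)) a.2 b.2
  simp only [Matrix.single_apply]
  rcases p with ⟨p1, p2⟩
  rcases q with ⟨q1, q2⟩
  rcases a with ⟨a1, a2⟩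
  rcases b with ⟨b1, b2⟩
  simp only [Prod.mk.injEq]
  by_cases h1 : p1 = a1 <;> by_cases h2 : p2 = a2 <;> by_cases h3 : q1 = b1 <;>
    by_cases h4 : q2 = b2 <;> simp [h1, h2, h3, h4]

private theorem jB_ext (f g : Matrix (ι × ι) (ι × ι) ℂ →ₗ[ℂ] D)
    (h : ∀ x y : Matrix ι ι ℂ, f (x ⊗ₖ y) = g (x ⊗ₖ y)) : f = g := by
  refine LinearMap.ext fun X => ?_
  rw [Matrix.matrix_eq_sum_single X]
  simp only [map_sum]
  refine Finset.sum_congr rfl fun p _ => Finset.sum_congr rfl fun q _ => ?_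
  have h1 : Matrix.single p q (X p q) = (X p q) • (eu p.1 q.1 ⊗ₖ eu p.2 q.2) := by
    rw [← jkron_single, Matrix.smul_single, smul_eq_mul, mul_one]
  rw [h1, map_smul, map_smul, h]

section
variable {φ ψ : Matrix ι ι ℂ →ₗ[ℂ] D}

private theorem oz_comm (hφ : IsOZ φ) (x : Matrix ι ι ℂ) : φ x * φ 1 = φ 1 * φ x := by
  have := hφ.mul' x 1
  rwa [mul_one] at this

private theorem jB_h (hφ : IsOZ φ) (hc : ∀ x y, Commute (φ x) (ψ y))
    (X : Matrix (ι × ι) (ι × ι) ℂ) : jB φ ψ X * φ 1 = φ 1 * jB φ ψ X := by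
  have h := jB_ext ((LinearMap.mulRight ℂ (φ 1)).comp (jB φ ψ))
    ((LinearMap.mulLeft ℂ (φ 1)).comp (jB φ ψ)) (fun x y => by
      simp only [LinearMap.comp_apply, LinearMap.mulRight_apply, LinearMap.mulLeft_apply, jB_kron]
      rw [mul_assoc, ← (hc 1 y).eq, ← mul_assoc, oz_comm hφ, mul_assoc])
  exact LinearMap.congr_fun h X

private theorem jB_k (hψ : IsOZ ψ) (hc : ∀ x y, Commute (φ x) (ψ y))
    (X : Matrix (ι × ι) (ι × ι) ℂ) : jB φ ψ X * ψ 1 = ψ 1 * jB φ ψ X := by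
  have h := jB_ext ((LinearMap.mulRight ℂ (ψ 1)).comp (jB φ ψ))
    ((LinearMap.mulLeft ℂ (ψ 1)).comp (jB φ ψ)) (fun x y => by
      simp only [LinearMap.comp_apply, LinearMap.mulRight_apply, LinearMap.mulLeft_apply, jB_kron]
      rw [mul_assoc, oz_comm hψ, ← mul_assoc, (hc x 1).eq, mul_assoc])
  exact LinearMap.congr_fun h X

private theorem jφ_B (hφ : IsOZ φ) (x : Matrix ι ι ℂ)
    (X : Matrix (ι × ι) (ι × ι) ℂ) : φ x * jB φ ψ X = φ 1 * jB φ ψ ((x ⊗ₖ 1) * X) := by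
  have h := jB_ext ((LinearMap.mulLeft ℂ (φ x)).comp (jB φ ψ))
    ((LinearMap.mulLeft ℂ (φ 1)).comp ((jB φ ψ).comp (LinearMap.mulLeft ℂ (x ⊗ₖ 1))))
    (fun y z => by
      simp only [LinearMap.comp_apply, LinearMap.mulLeft_apply, jB_kron]
      rw [← mul_kronecker_mul, jB_kron, one_mul, ← mul_assoc, hφ.mul', mul_assoc])
  exact LinearMap.congr_fun h X

private theorem jψ_B (hψ : IsOZ ψ) (hc : ∀ x y, Commute (φ x) (ψ y)) (x : Matrix ι ι ℂ)
    (X : Matrix (ι × ι) (ι × ι) ℂ) : ψ x * jB φ ψ X = ψ 1 * jB φ ψ ((1 ⊗ₖ x) * X) := by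
  have h := jB_ext ((LinearMap.mulLeft ℂ (ψ x)).comp (jB φ ψ))
    ((LinearMap.mulLeft ℂ (ψ 1)).comp ((jB φ ψ).comp (LinearMap.mulLeft ℂ (1 ⊗ₖ x))))
    (fun y z => by
      simp only [LinearMap.comp_apply, LinearMap.mulLeft_apply, jB_kron]
      rw [← mul_kronecker_mul, jB_kron, one_mul, ← mul_assoc, ← (hc y x).eq, mul_assoc, hψ.mul',
        ← mul_assoc, (hc y 1).eq, mul_assoc])
  exact LinearMap.congr_fun h X

private theorem jB_φ (hφ : IsOZ φ) (hc : ∀ x y, Commute (φ x) (ψ y)) (x : Matrix ι ι ℂ)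
    (X : Matrix (ι × ι) (ι × ι) ℂ) : jB φ ψ X * φ x = φ 1 * jB φ ψ (X * (x ⊗ₖ 1)) := by
  have h := jB_ext ((LinearMap.mulRight ℂ (φ x)).comp (jB φ ψ))
    ((LinearMap.mulLeft ℂ (φ 1)).comp ((jB φ ψ).comp (LinearMap.mulRight ℂ (x ⊗ₖ 1))))
    (fun y z => by
      simp only [LinearMap.comp_apply, LinearMap.mulLeft_apply, LinearMap.mulRight_apply, jB_kron]
      rw [← mul_kronecker_mul, jB_kron, mul_one, mul_assoc, ← (hc x z).eq, ← mul_assoc, hφ.mul',
        mul_assoc])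
  exact LinearMap.congr_fun h X

private theorem jB_ψ (hψ : IsOZ ψ) (hc : ∀ x y, Commute (φ x) (ψ y)) (x : Matrix ι ι ℂ)
    (X : Matrix (ι × ι) (ι × ι) ℂ) : jB φ ψ X * ψ x = ψ 1 * jB φ ψ (X * (1 ⊗ₖ x)) := by
  have h := jB_ext ((LinearMap.mulRight ℂ (ψ x)).comp (jB φ ψ))
    ((LinearMap.mulLeft ℂ (ψ 1)).comp ((jB φ ψ).comp (LinearMap.mulRight ℂ (1 ⊗ₖ x))))
    (fun y z => by
      simp only [LinearMap.comp_apply, LinearMap.mulLeft_apply, LinearMap.mulRight_apply, jB_kron]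
      rw [← mul_kronecker_mul, jB_kron, mul_one, mul_assoc, hψ.mul', ← mul_assoc, (hc y 1).eq,
        mul_assoc])
  exact LinearMap.congr_fun h X

private theorem jB_mul (hφ : IsOZ φ) (hψ : IsOZ ψ) (hc : ∀ x y, Commute (φ x) (ψ y))
    (X Y : Matrix (ι × ι) (ι × ι) ℂ) : jB φ ψ X * jB φ ψ Y = φ 1 * (ψ 1 * jB φ ψ (X * Y)) := by
  have h := jB_ext ((LinearMap.mulRight ℂ (jB φ ψ Y)).comp (jB φ ψ))
    ((LinearMap.mulLeft ℂ (φ 1)).comp ((LinearMap.mulLeft ℂ (ψ 1)).comp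
      ((jB φ ψ).comp (LinearMap.mulRight ℂ Y)))) (fun x y => by
      simp only [LinearMap.comp_apply, LinearMap.mulLeft_apply, LinearMap.mulRight_apply, jB_kron]
      rw [mul_assoc, jψ_B hψ hc, ← mul_assoc, (hc x 1).eq, mul_assoc, jφ_B hφ, ← mul_assoc,
        ← (hc 1 1).eq, mul_assoc, ← mul_assoc (x ⊗ₖ 1), ← mul_kronecker_mul, one_mul, mul_one])
  exact LinearMap.congr_fun h X

private theorem jB_star (hφ : IsOZ φ) (hψ : IsOZ ψ) (hc : ∀ x y, Commute (φ x) (ψ y))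
    (X : Matrix (ι × ι) (ι × ι) ℂ) : jB φ ψ Xᴴ = star (jB φ ψ X) := by
  rw [jB_apply, jB_apply, star_sum, Finset.sum_comm]
  refine Finset.sum_congr rfl fun q _ => ?_
  rw [star_sum]
  refine Finset.sum_congr rfl fun p _ => ?_
  rw [star_smul, star_mul, ← hφ.star', ← hψ.star', conjTranspose_apply]
  have h1 : ∀ i j : ι, (eu i j : Matrix ι ι ℂ)ᴴ = eu j i := fun i j => by
    rw [Matrix.conjTranspose_single]; simp
  rw [h1, h1, (hc _ _).eq]

end

private noncomputable def jX (x : Matrix ι ι ℂ) : Matrix (ι × ι) (ι × ι) ℂ :=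
  (x ⊗ₖ 1 - 1 ⊗ₖ x) * jF ι

private theorem jmap_eq (φ ψ : Matrix ι ι ℂ →ₗ[ℂ] D) (x : Matrix ι ι ℂ) :
    Jmap φ ψ x = φ 1 * φ x + ψ 1 * ψ x + Complex.I • jB φ ψ (jX x) := by
  have h1 : jX x = ∑ i, ∑ j, ((x * eu i j) ⊗ₖ eu j i - eu i j ⊗ₖ (x * eu j i)) := by
    unfold jX jF
    rw [Finset.mul_sum]
    refine Finset.sum_congr rfl fun i _ => ?_
    rw [Finset.mul_sum]
    refine Finset.sum_congr rfl fun j _ => ?_
    rw [sub_mul, ← mul_kronecker_mul, ← mul_kronecker_mul, one_mul, one_mul]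
  rw [h1]
  simp only [map_sum, map_sub, jB_kron]
  unfold Jmap
  simp only [LinearMap.add_apply, LinearMap.comp_apply, LinearMap.mulLeft_apply,
    LinearMap.smul_apply, LinearMap.sum_apply, LinearMap.sub_apply, LinearMap.mulRight_apply]

/-- JONE.  The value at `1`. -/
theorem jmap_one (φ ψ : Matrix ι ι ℂ →ₗ[ℂ] D) (hφ : IsOZ φ) (hψ : IsOZ ψ)
    (hc : ∀ x y, Commute (φ x) (ψ y)) : Jmap φ ψ 1 = φ 1 * φ 1 + ψ 1 * ψ 1 := by
  rw [jmap_eq]
  have h1 : jX (1 : Matrix ι ι ℂ) = 0 := by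
    unfold jX
    rw [sub_self, zero_mul]
  rw [h1, map_zero, smul_zero, add_zero]

/-- JMAP.  `J x = h ψ.. `: with `h = φ 1`, `k = ψ 1`, `B X = ∑ X_((i,j),(k,l)) φ e_ik ψ e_jl`
(`X` a matrix over `ι × ι`), `F` the flip: `J x = h φ x + k ψ x + I B ((x ⊗ 1 - 1 ⊗ x) F)`;
`φ x B X = h B ((x ⊗ 1) X)` etc., `B X B Y = h k B (X Y)`, `B (x ⊗ 1) = φ x k`. See
`notes/P101_proof.md`, step 6. -/
theorem jmap_isOZ (φ ψ : Matrix ι ι ℂ →ₗ[ℂ] D) (hφ : IsOZ φ) (hψ : IsOZ ψ)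
    (hc : ∀ x y, Commute (φ x) (ψ y)) : IsOZ (Jmap φ ψ) := by
  constructor
  · intro x
    rw [jmap_eq, jmap_eq]
    have h1 : jX xᴴ = -(jX x)ᴴ := by
      unfold jX
      rw [conjTranspose_mul, jF_star, conjTranspose_sub, conjTranspose_kronecker,
        conjTranspose_kronecker, conjTranspose_one, mul_sub, jF_kron, jF_kron, sub_mul]
      abel
    have h2 : φ 1 = star (φ 1) := by
      have := hφ.star' 1
      rwa [conjTranspose_one] at this
    have h3 : ψ 1 = star (ψ 1) := by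
      have := hψ.star' 1
      rwa [conjTranspose_one] at this
    rw [h1, map_neg, jB_star hφ hψ hc, star_add, star_add, star_mul, star_mul, star_smul,
      ← hφ.star', ← hψ.star', ← h2, ← h3, oz_comm hφ, oz_comm hψ]
    congr 1
    rw [smul_neg, ← neg_smul]
    congr 1
    simp
  · intro x y
    rw [jmap_one φ ψ hφ hψ hc, jmap_eq, jmap_eq, jmap_eq]
    set h := φ 1 with hh
    set k := ψ 1 with hk
    have hhk : h * k = k * h := (hc 1 1).eq
    -- the matrix identities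
    have e1 : (x ⊗ₖ 1) * jX y + jX x * (y ⊗ₖ 1) = jX (x * y) := by
      unfold jX
      rw [mul_assoc _ (jF ι), jF_kron, ← mul_assoc, ← mul_assoc, ← add_mul]
      congr 1
      rw [mul_sub, sub_mul]
      simp only [← mul_kronecker_mul, mul_one, one_mul]
      abel
    have e2 : (1 ⊗ₖ x) * jX y + jX x * (1 ⊗ₖ y) = jX (x * y) := by
      unfold jX
      rw [mul_assoc _ (jF ι), jF_kron, ← mul_assoc, ← mul_assoc, ← add_mul]
      congr 1
      rw [mul_sub, sub_mul]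
      simp only [← mul_kronecker_mul, mul_one, one_mul]
      abel
    have e3 : jX x * jX y = x ⊗ₖ y + y ⊗ₖ x - (x * y) ⊗ₖ 1 - 1 ⊗ₖ (x * y) := by
      unfold jX
      have : (x ⊗ₖ 1 - 1 ⊗ₖ x) * jF ι * ((y ⊗ₖ 1 - 1 ⊗ₖ y) * jF ι)
          = (x ⊗ₖ 1 - 1 ⊗ₖ x) * ((1 ⊗ₖ y - y ⊗ₖ 1) * (jF ι * jF ι)) := by
        rw [mul_assoc, ← mul_assoc (jF ι), mul_sub, jF_kron, jF_kron, ← sub_mul, mul_assoc]
      rw [this, jF_sq, mul_one, mul_sub, sub_mul, sub_mul, ← mul_kronecker_mul,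
        ← mul_kronecker_mul, ← mul_kronecker_mul, ← mul_kronecker_mul]
      simp only [mul_one, one_mul]
      abel
    -- products
    have p1 : φ x * φ y = h * φ (x * y) := hφ.mul' x y
    have p2 : ψ x * ψ y = k * ψ (x * y) := hψ.mul' x y
    have cφ : ∀ z, φ z * h = h * φ z := fun z => oz_comm hφ z
    have cψ : ∀ z, ψ z * k = k * ψ z := fun z => oz_comm hψ z
    have cφk : ∀ z, φ z * k = k * φ z := fun z => (hc z 1).eq
    have cψh : ∀ z, ψ z * h = h * ψ z := fun z => (hc 1 z).eq.symm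
    have cBh : ∀ X, jB φ ψ X * h = h * jB φ ψ X := fun X => jB_h hφ hc X
    have cBk : ∀ X, jB φ ψ X * k = k * jB φ ψ X := fun X => jB_k hψ hc X
    have q1 : (h * φ x) * (h * φ y) = h * (h * (h * φ (x * y))) := by
      rw [mul_assoc, ← mul_assoc (φ x), cφ, mul_assoc, p1]
    have q2 : (k * ψ x) * (k * ψ y) = k * (k * (k * ψ (x * y))) := by
      rw [mul_assoc, ← mul_assoc (ψ x), cψ, mul_assoc, p2]
    have q3 : (h * φ x) * (k * ψ y) = h * (k * jB φ ψ (x ⊗ₖ y)) := by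
      rw [jB_kron, mul_assoc, ← mul_assoc (φ x), cφk, mul_assoc]
    have q4 : (k * ψ x) * (h * φ y) = h * (k * jB φ ψ (y ⊗ₖ x)) := by
      rw [jB_kron, mul_assoc, ← mul_assoc (ψ x), cψh, mul_assoc, ← (hc y x).eq, ← mul_assoc,
        ← hhk, mul_assoc]
    have q5 : (h * φ x) * jB φ ψ (jX y) = h * (h * jB φ ψ ((x ⊗ₖ 1) * jX y)) := by
      rw [mul_assoc, jφ_B hφ]
    have q6 : (k * ψ x) * jB φ ψ (jX y) = k * (k * jB φ ψ ((1 ⊗ₖ x) * jX y)) := by
      rw [mul_assoc, jψ_B hψ hc]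
    have q7 : jB φ ψ (jX x) * (h * φ y) = h * (h * jB φ ψ (jX x * (y ⊗ₖ 1))) := by
      rw [← mul_assoc, cBh, mul_assoc, jB_φ hφ hc]
    have q8 : jB φ ψ (jX x) * (k * ψ y) = k * (k * jB φ ψ (jX x * (1 ⊗ₖ y))) := by
      rw [← mul_assoc, cBk, mul_assoc, jB_ψ hψ hc]
    have q9 : jB φ ψ (jX x) * jB φ ψ (jX y) = h * (k * jB φ ψ (x ⊗ₖ y))
        + h * (k * jB φ ψ (y ⊗ₖ x)) - h * (k * (φ (x * y) * k)) - h * (k * (h * ψ (x * y))) := by
      rw [jB_mul hφ hψ hc, e3]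
      simp only [map_sub, map_add, mul_sub, mul_add]
      rw [jB_kron φ ψ (x * y) 1, jB_kron φ ψ 1 (x * y)]
    have r1 : h * (h * jB φ ψ (jX (x * y))) = h * (h * jB φ ψ ((x ⊗ₖ 1) * jX y))
        + h * (h * jB φ ψ (jX x * (y ⊗ₖ 1))) := by
      rw [← e1, map_add, mul_add, mul_add]
    have r2 : k * (k * jB φ ψ (jX (x * y))) = k * (k * jB φ ψ ((1 ⊗ₖ x) * jX y))
        + k * (k * jB φ ψ (jX x * (1 ⊗ₖ y))) := by
      rw [← e2, map_add, mul_add, mul_add]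
    have s1 : h * (k * (φ (x * y) * k)) = k * (k * (h * φ (x * y))) := by
      rw [cφk, ← mul_assoc h, hhk, mul_assoc, ← mul_assoc h, hhk, mul_assoc]
    have s2 : h * (k * (h * ψ (x * y))) = h * (h * (k * ψ (x * y))) := by
      rw [← mul_assoc k, ← hhk, mul_assoc]
    have I2 : Complex.I * Complex.I = -1 := Complex.I_mul_I
    calc (h * φ x + k * ψ x + Complex.I • jB φ ψ (jX x)) *
          (h * φ y + k * ψ y + Complex.I • jB φ ψ (jX y))
        = (h * φ x) * (h * φ y) + (h * φ x) * (k * ψ y) + (k * ψ x) * (h * φ y)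
          + (k * ψ x) * (k * ψ y)
          + Complex.I • ((h * φ x) * jB φ ψ (jX y) + (k * ψ x) * jB φ ψ (jX y)
            + jB φ ψ (jX x) * (h * φ y) + jB φ ψ (jX x) * (k * ψ y))
          + (Complex.I * Complex.I) • (jB φ ψ (jX x) * jB φ ψ (jX y)) := by
          simp only [add_mul, mul_add, smul_mul_assoc, mul_smul_comm, smul_add, smul_smul]
          abel
      _ = (h * h + k * k) * (h * φ (x * y) + k * ψ (x * y) + Complex.I • jB φ ψ (jX (x * y))) := by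
          rw [q1, q2, q3, q4, q5, q6, q7, q8, q9, I2, s1, s2]
          simp only [add_mul, mul_add, mul_smul_comm, smul_add, mul_assoc]
          rw [r1, r2]
          simp only [neg_smul, one_smul, smul_add]
          abel

end Vale.Agent.P101K
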