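import Vale.Agent.P101K.Diag
import Vale.Agent.P101K.Transfer
import Vale.Agent.P101K.Ext

open Filter Topology

namespace Vale.Agent.P101K

universe u v

private theorem lim_fom_of_dense (A : Type u) [CStarAlgebra A] [Nontrivial A] (ω : Ultrafilter ℕ)
    (d : ℕ → A) (hd : DenseRange d) (x : Bdd A)
    (hx : ∀ l, Tendsto (fun n => ‖x n * d l - d l * x n‖) ω (𝓝 0)) : omk A ω x ∈ Fom A ω := by
  rw [omk_mem_fom]
  intro a
  rw [Metric.tendsto_nhds]
  intro ε hε
  obtain ⟨z, hz, l, rfl⟩ := Metric.dense_iff.mp hd a (ε / (4 * (‖x‖ + 1))) (by positivity)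
  have hz' : ‖d l - a‖ < ε / (4 * (‖x‖ + 1)) := by
    rw [← dist_eq_norm]; exact Metric.mem_ball.mp hz
  filter_upwards [(hx l).eventually_lt_const (half_pos hε)] with n h1
  have hxn : ‖x n‖ ≤ ‖x‖ := aom_apply_le x n
  have e : x n * a - a * x n = (x n * d l - d l * x n) - (x n * (d l - a) - (d l - a) * x n) := by
    noncomm_ring
  have h2 : ‖x n * (d l - a)‖ ≤ ‖x‖ * ‖d l - a‖ :=
    (norm_mul_le _ _).trans (mul_le_mul_of_nonneg_right hxn (norm_nonneg _))
  have h3 : ‖(d l - a) * x n‖ ≤ ‖x‖ * ‖d l - a‖ := by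
    refine (norm_mul_le _ _).trans ?_
    rw [mul_comm]
    exact mul_le_mul_of_nonneg_right hxn (norm_nonneg _)
  have h4 : ‖x‖ * ‖d l - a‖ ≤ ε / 4 := by
    have : (‖x‖ + 1) * ‖d l - a‖ ≤ (‖x‖ + 1) * (ε / (4 * (‖x‖ + 1))) :=
      mul_le_mul_of_nonneg_left hz'.le (by positivity)
    have e2 : (‖x‖ + 1) * (ε / (4 * (‖x‖ + 1))) = ε / 4 := by
      field_simp
    nlinarith [norm_nonneg (d l - a)]
  rw [Real.dist_0_eq_abs, abs_norm, e]
  calc _ ≤ ‖x n * d l - d l * x n‖ + ‖x n * (d l - a) - (d l - a) * x n‖ := norm_sub_le _ _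
    _ ≤ ‖x n * d l - d l * x n‖ + (‖x n * (d l - a)‖ + ‖(d l - a) * x n‖) := by
        gcongr
        exact norm_sub_le _ _
    _ < ε := by linarith

/-- the star algebra generated by a countable set is separable -/
private theorem lim_sep {E : Type*} [NormedRing E] [NormedAlgebra ℂ E] [StarRing E] [StarModule ℂ E]
    (Y : Set E) (hY : Y.Countable) :
    ∃ t : Set E, t ⊆ StarAlgebra.adjoin ℂ Y ∧ t.Countable ∧
      (StarAlgebra.adjoin ℂ Y : Set E) ⊆ closure t := by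
  classical
  have hYs : (Y ∪ star Y).Countable :=
    hY.union (by rw [← Set.image_star]; exact hY.image _)
  have hMc : (Submonoid.closure (Y ∪ star Y) : Set E).Countable := by
    have : Countable (Y ∪ star Y : Set E) := hYs.to_subtype
    refine (Set.countable_range
      (fun l : List (Y ∪ star Y : Set E) => (l.map Subtype.val).prod)).mono ?_
    intro x hx
    obtain ⟨l, hl, rfl⟩ := Submonoid.exists_list_of_mem_closure hx
    refine ⟨l.attach.map (fun z => ⟨z.1, hl z.1 z.2⟩), ?_⟩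
    simp only [List.map_map, Function.comp_def]
    simp
  have hs : TopologicalSpace.IsSeparable
      (Submodule.span ℂ (Submonoid.closure (Y ∪ star Y) : Set E) : Set E) :=
    hMc.isSeparable.span
  have hle : (StarAlgebra.adjoin ℂ Y : Set E) ⊆
      (Submodule.span ℂ (Submonoid.closure (Y ∪ star Y) : Set E) : Set E) := by
    intro x hx
    have h : x ∈ (StarAlgebra.adjoin ℂ Y).toSubalgebra := hx
    rw [StarAlgebra.adjoin_toSubalgebra, ← Subalgebra.mem_toSubmodule, Algebra.adjoin_eq_span] at h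
    exact h
  exact (hs.mono hle).exists_countable_dense_subset

/-- JS3. -/
theorem exists_lim_hom (A : Type u) [CStarAlgebra A] [Nontrivial A]
    [TopologicalSpace.SeparableSpace A] (ω : Ultrafilter ℕ) (hω : (ω : Filter ℕ) ≤ atTop)
    {Z : Type v} [CStarAlgebra Z] [TopologicalSpace.SeparableSpace Z]
    (B : ℕ → StarSubalgebra ℂ Z) (hB : Monotone B) (hd : Dense (⋃ n, (B n : Set Z)))
    (h : ∀ n, ∃ ψ : B n →⋆ₐ[ℂ] Fom A ω, ∀ z, ‖ψ z‖ ≤ ‖(z : Z)‖) :
    Nonempty (Z →⋆ₐ[ℂ] Fom A ω) := by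
  classical
  choose ψ hψ using h
  obtain ⟨X, hXB, hXc, hX⟩ := (TopologicalSpace.IsSeparable.of_separableSpace
    (⋃ n, (B n : Set Z))).exists_countable_dense_subset
  have hXd : Dense X := by
    intro z
    have h1 := closure_mono hX (hd z)
    rwa [closure_closure] at h1
  -- lifts
  have hl : ∀ (z : Z) (n : ℕ), ∃ a : Bdd A, ‖a‖ ≤ ‖z‖ + 1 ∧
      ∀ h : z ∈ B n, omk A ω a = (ψ n ⟨z, h⟩ : Fom A ω) := by
    intro z n
    by_cases hz : z ∈ B n
    · obtain ⟨a, ha1, ha2⟩ := aom_lift ((ψ n ⟨z, hz⟩ : Fom A ω) : Aom A ω) (‖z‖ + 1)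
        (lt_of_le_of_lt (hψ n ⟨z, hz⟩) (lt_add_one _))
      exact ⟨a, ha2, fun _ => ha1⟩
    · refine ⟨0, ?_, fun h => absurd h hz⟩
      rw [norm_zero]
      positivity
  choose l hl1 hl2 using hl
  have hLb : ∀ z : Z, ∃ C : ℝ, ∀ k : ℕ, ‖(l z (Nat.unpair k).1) (Nat.unpair k).2‖ ≤ C := fun z =>
    ⟨‖z‖ + 1, fun k => (aom_apply_le _ _).trans (hl1 z _)⟩
  let L : Z → Bdd A := fun z => bddOf (fun k => (l z (Nat.unpair k).1) (Nat.unpair k).2) (hLb z)
  have hrow : ∀ n : ℕ, ∃ f : Bdd A →⋆ₐ[ℂ] Bdd A, ∀ a m, (f a) m = a (Nat.pair n m) := fun n =>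
    exists_reidx A (fun m => Nat.pair n m)
  choose row hrow using hrow
  have hrowL : ∀ z n, row n (L z) = l z n := by
    intro z n
    apply lp.ext
    funext m
    rw [hrow]
    show (l z (Nat.unpair (Nat.pair n m)).1) (Nat.unpair (Nat.pair n m)).2 = _
    rw [Nat.unpair_pair]
  let R : StarSubalgebra ℂ (Bdd A × Z) :=
    { carrier := {p | ∃ N, ∀ n ≥ N, ∃ h : p.2 ∈ B n,
        omk A ω (row n p.1) = ((ψ n ⟨p.2, h⟩ : Fom A ω) : Aom A ω)}
      mul_mem' := by
        rintro p q ⟨N, hN⟩ ⟨M, hM⟩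
        refine ⟨max N M, fun n hn => ?_⟩
        obtain ⟨h1, h2⟩ := hN n ((le_max_left _ _).trans hn)
        obtain ⟨h3, h4⟩ := hM n ((le_max_right _ _).trans hn)
        refine ⟨mul_mem h1 h3, ?_⟩
        have h5 : (⟨(p * q).2, mul_mem h1 h3⟩ : B n) = ⟨p.2, h1⟩ * ⟨q.2, h3⟩ := rfl
        rw [h5, map_mul]
        show omk A ω (row n (p.1 * q.1)) = _
        rw [map_mul, map_mul, h2, h4]
        rfl
      add_mem' := by
        rintro p q ⟨N, hN⟩ ⟨M, hM⟩
        refine ⟨max N M, fun n hn => ?_⟩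
        obtain ⟨h1, h2⟩ := hN n ((le_max_left _ _).trans hn)
        obtain ⟨h3, h4⟩ := hM n ((le_max_right _ _).trans hn)
        refine ⟨add_mem h1 h3, ?_⟩
        have h5 : (⟨(p + q).2, add_mem h1 h3⟩ : B n) = ⟨p.2, h1⟩ + ⟨q.2, h3⟩ := rfl
        rw [h5, map_add]
        show omk A ω (row n (p.1 + q.1)) = _
        rw [map_add, map_add, h2, h4]
        rfl
      algebraMap_mem' := by
        intro r
        refine ⟨0, fun n _ => ⟨(B n).algebraMap_mem r, ?_⟩⟩
        have h5 : (⟨(algebraMap ℂ (Bdd A × Z) r).2, (B n).algebraMap_mem r⟩ : B n) =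
            algebraMap ℂ (B n) r := rfl
        rw [h5, AlgHomClass.commutes]
        show omk A ω (row n (algebraMap ℂ (Bdd A) r)) = _
        rw [AlgHomClass.commutes, AlgHomClass.commutes]
        rfl
      star_mem' := by
        rintro p ⟨N, hN⟩
        refine ⟨N, fun n hn => ?_⟩
        obtain ⟨h1, h2⟩ := hN n hn
        refine ⟨star_mem h1, ?_⟩
        have h5 : (⟨(star p).2, star_mem h1⟩ : B n) = star ⟨p.2, h1⟩ := rfl
        rw [h5, map_star]
        show omk A ω (row n (star p.1)) = _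
        rw [map_star, map_star, h2]
        rfl }
  let Y : Set (Bdd A × Z) := (fun z => (L z, z)) '' X
  have hYc : Y.Countable := hXc.image _
  have hLR : StarAlgebra.adjoin ℂ Y ≤ R := by
    refine StarAlgebra.adjoin_le ?_
    rintro _ ⟨z, hz, rfl⟩
    obtain ⟨N, hN⟩ := Set.mem_iUnion.1 (hXB hz)
    refine ⟨N, fun n hn => ⟨hB hn hN, ?_⟩⟩
    show omk A ω (row n (L z)) = _
    rw [hrowL, hl2 z n (hB hn hN)]
  obtain ⟨T, hT1, hT2, hT3⟩ := lim_sep Y hYc
  have hTne : T.Nonempty := by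
    rw [← closure_nonempty_iff]
    exact ⟨0, hT3 (zero_mem (StarAlgebra.adjoin ℂ Y))⟩
  obtain ⟨p, hp⟩ := hT2.exists_eq_range hTne
  have hpR : ∀ j, ∃ N, ∀ n ≥ N, ∃ h : (p j).2 ∈ B n,
      omk A ω (row n (p j).1) = ((ψ n ⟨(p j).2, h⟩ : Fom A ω) : Aom A ω) := fun j =>
    hLR (hT1 (by rw [hp]; exact Set.mem_range_self j))
  let d : ℕ → A := TopologicalSpace.denseSeq A
  have hdd : DenseRange d := TopologicalSpace.denseRange_denseSeq A
  let c : ℕ → ℕ → ℕ → ℝ := fun i n m =>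
    if (Nat.unpair i).2 = 0 then ‖(p (Nat.unpair i).1).1 (Nat.pair n m)‖ - ‖(p (Nat.unpair i).1).2‖
    else ‖(p (Nat.unpair i).1).1 (Nat.pair n m) * d ((Nat.unpair i).2 - 1) -
      d ((Nat.unpair i).2 - 1) * (p (Nat.unpair i).1).1 (Nat.pair n m)‖
  have hc : ∀ i, ∃ n₀, ∀ n ≥ n₀, ∀ᶠ m in (ω : Filter ℕ), c i n m < 1 / ((n : ℝ) + 1) := by
    intro i
    obtain ⟨N, hN⟩ := hpR (Nat.unpair i).1
    refine ⟨N, fun n hn => ?_⟩
    obtain ⟨h1, h2⟩ := hN n hn
    have hpos : (0 : ℝ) < 1 / ((n : ℝ) + 1) := by positivity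
    by_cases hi : (Nat.unpair i).2 = 0
    · have h3 := omk_norm A ω (row n (p (Nat.unpair i).1).1)
      have h4 : ‖omk A ω (row n (p (Nat.unpair i).1).1)‖ <
          ‖(p (Nat.unpair i).1).2‖ + 1 / ((n : ℝ) + 1) := by
        rw [h2]
        exact lt_of_le_of_lt (hψ n ⟨_, h1⟩) (lt_add_of_pos_right _ hpos)
      filter_upwards [h3.eventually_lt_const h4] with m hm
      rw [hrow] at hm
      show (if _ then _ else _) < _
      rw [if_pos hi]
      linarith
    · have h3 : omk A ω (row n (p (Nat.unpair i).1).1) ∈ Fom A ω := by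
        rw [h2]
        exact (ψ n _).2
      have h4 := (omk_mem_fom A ω _).1 h3 (d ((Nat.unpair i).2 - 1))
      filter_upwards [h4.eventually_lt_const hpos] with m hm
      rw [hrow] at hm
      show (if _ then _ else _) < _
      rw [if_neg hi]
      exact hm
  obtain ⟨ν, hν⟩ := diag_seq ω hω c hc
  obtain ⟨Δ, hΔ⟩ := exists_reidx A (fun m => Nat.pair (ν m) m)
  let φ : Bdd A →⋆ₐ[ℂ] Aom A ω := (omk A ω).comp Δ
  have hφc : Continuous φ := AddMonoidHomClass.continuous_of_bound φ 1 fun x => by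
    rw [one_mul]
    exact NonUnitalStarAlgHom.norm_apply_le φ x
  have hφp : ∀ j, ‖φ (p j).1‖ ≤ ‖(p j).2‖ ∧ φ (p j).1 ∈ Fom A ω := by
    intro j
    constructor
    · refine le_of_forall_pos_le_add fun ε hε => ?_
      have h1 := omk_norm A ω (Δ (p j).1)
      refine le_of_tendsto h1 ?_
      filter_upwards [hν (Nat.pair j 0) ε hε] with m hm
      simp only [c, Nat.unpair_pair, if_true] at hm
      rw [hΔ]
      linarith
    · refine lim_fom_of_dense A ω d hdd (Δ (p j).1) fun k => ?_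
      rw [Metric.tendsto_nhds]
      intro ε hε
      filter_upwards [hν (Nat.pair j (k + 1)) ε hε] with m hm
      simp only [c, Nat.unpair_pair, Nat.succ_ne_zero, if_false, Nat.add_sub_cancel] at hm
      rw [Real.dist_0_eq_abs, abs_norm, hΔ]
      exact hm
  have hG : IsClosed {q : Bdd A × Z | ‖φ q.1‖ ≤ ‖q.2‖ ∧ φ q.1 ∈ Fom A ω} := by
    refine IsClosed.inter ?_ ?_
    · exact isClosed_le (hφc.comp continuous_fst).norm continuous_snd.norm
    · exact (fom_closed A ω).preimage (hφc.comp continuous_fst)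
  have hφ𝓛 : ∀ q ∈ StarAlgebra.adjoin ℂ Y, ‖φ q.1‖ ≤ ‖q.2‖ ∧ φ q.1 ∈ Fom A ω := by
    intro q hq
    refine hG.closure_subset_iff.2 ?_ (hT3 hq)
    rw [hp]
    rintro _ ⟨j, rfl⟩
    exact hφp j
  let 𝓢 : StarSubalgebra ℂ Z := (StarAlgebra.adjoin ℂ Y).map (StarAlgHom.snd ℂ (Bdd A) Z)
  let ρ : StarAlgebra.adjoin ℂ Y →⋆ₐ[ℂ] 𝓢 :=
    { toFun := fun q => ⟨q.1.2, ⟨q.1, q.2, rfl⟩⟩
      map_one' := rfl
      map_mul' := fun _ _ => rfl
      map_zero' := rfl
      map_add' := fun _ _ => rfl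
      commutes' := fun _ => rfl
      map_star' := fun _ => rfl }
  have hρ : Function.Surjective ρ := by
    rintro ⟨_, q, hq, rfl⟩
    exact ⟨⟨q, hq⟩, rfl⟩
  let θ : StarAlgebra.adjoin ℂ Y →⋆ₐ[ℂ] Fom A ω :=
    { toFun := fun q => ⟨φ q.1.1, (hφ𝓛 q.1 q.2).2⟩
      map_one' := Subtype.ext (map_one φ)
      map_mul' := fun _ _ => Subtype.ext (map_mul φ _ _)
      map_zero' := Subtype.ext (map_zero φ)
      map_add' := fun _ _ => Subtype.ext (map_add φ _ _)
      commutes' := fun r => Subtype.ext (AlgHomClass.commutes φ r)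
      map_star' := fun _ => Subtype.ext (map_star φ _) }
  have hθ : ∀ q, ‖θ q‖ ≤ ‖(ρ q : Z)‖ := fun q => (hφ𝓛 q.1 q.2).1
  obtain ⟨θ', hθ'⟩ := star_factor ρ hρ θ fun q hq => by
    have h1 := hθ q
    rw [hq] at h1
    have h2 : ‖((0 : 𝓢) : Z)‖ = 0 := norm_zero
    rw [h2] at h1
    exact norm_le_zero_iff.1 h1
  obtain ⟨E⟩ := extend_hom 𝓢 θ' (fun w => by
    obtain ⟨q, rfl⟩ := hρ w
    rw [hθ']
    exact hθ q)
  have htop : ∀ z : Z, z ∈ 𝓢.topologicalClosure := by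
    intro z
    have h1 : X ⊆ (𝓢 : Set Z) := by
      intro w hw
      exact ⟨(L w, w), StarAlgebra.subset_adjoin ℂ Y ⟨w, hw, rfl⟩, rfl⟩
    exact closure_mono h1 (hXd z)
  let J : Z →⋆ₐ[ℂ] 𝓢.topologicalClosure :=
    { toFun := fun z => ⟨z, htop z⟩
      map_one' := rfl
      map_mul' := fun _ _ => rfl
      map_zero' := rfl
      map_add' := fun _ _ => rfl
      commutes' := fun _ => rfl
      map_star' := fun _ => rfl }
  exact ⟨E.comp J⟩

end Vale.Agent.P101K
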