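import Vale.Agent.P101K.Defs

namespace Vale.Agent.P101K

universe u

variable {D : Type u} [CStarAlgebra D]

/-! ## real lemmas on tents -/

private theorem tent_cont (N : ℕ) (a : ℤ) : Continuous (tent N a) := by
  unfold tent
  fun_prop

private theorem tent_nonneg (N : ℕ) (a : ℤ) (t : ℝ) : 0 ≤ tent N a t := le_max_left _ _

private theorem tent_idx (N : ℕ) (hN : 0 < N) (t : ℝ) (ht : |t| ≤ 1) :
    ∃ k : ℤ, -(N : ℤ) ≤ k ∧ k + 1 ≤ N ∧ (k : ℝ) ≤ N * t ∧ N * t ≤ k + 1 := by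
  have hN' : (0 : ℝ) < N := by exact_mod_cast hN
  rw [abs_le] at ht
  have h1 : -(N : ℝ) ≤ N * t := by nlinarith
  have h2 : (N : ℝ) * t ≤ N := by nlinarith
  rcases lt_or_eq_of_le h2 with h3 | h3
  · refine ⟨⌊(N : ℝ) * t⌋, ?_, ?_, Int.floor_le _, (Int.lt_floor_add_one _).le⟩
    · rw [Int.le_floor]
      push_cast
      exact h1
    · rw [Int.add_one_le_iff, Int.floor_lt]
      exact_mod_cast h3
  · refine ⟨(N : ℤ) - 1, by omega, by omega, ?_, ?_⟩
    · rw [h3]
      push_cast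
      linarith
    · rw [h3]
      push_cast
      linarith

private theorem tent_sum_real (N : ℕ) (hN : 0 < N) (t : ℝ) (ht : |t| ≤ 1) (g : ℤ → ℝ) :
    ∃ k : ℤ, (k : ℝ) ≤ N * t ∧ N * t ≤ k + 1 ∧
      ∑ a ∈ Finset.Icc (-(N : ℤ)) N, g a * tent N a t =
        g k * (k + 1 - N * t) + g (k + 1) * (N * t - k) := by
  obtain ⟨k, k1, k2, k3, k4⟩ := tent_idx N hN t ht
  refine ⟨k, k3, k4, ?_⟩
  have e1 : tent N k t = k + 1 - N * t := by
    unfold tent
    rw [abs_of_nonneg (by linarith), max_eq_right (by linarith)]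
    ring
  have e2 : tent N (k + 1) t = N * t - k := by
    unfold tent
    push_cast
    rw [abs_of_nonpos (by linarith), max_eq_right (by linarith)]
    ring
  rw [Finset.sum_eq_add k (k + 1) (by omega), e1, e2]
  · rintro c _ ⟨c1, c2⟩
    have hc : c + 1 ≤ k ∨ k + 2 ≤ c := by omega
    have : tent N c t = 0 := by
      unfold tent
      refine max_eq_left ?_
      rcases hc with hc | hc
      · have : (c : ℝ) + 1 ≤ k := by exact_mod_cast hc
        have := le_abs_self ((N : ℝ) * t - c)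
        linarith
      · have : (k : ℝ) + 2 ≤ c := by exact_mod_cast hc
        have := neg_le_abs ((N : ℝ) * t - c)
        linarith
    rw [this, mul_zero]
  · intro h
    exact absurd (Finset.mem_Icc.2 ⟨k1, by omega⟩) h
  · intro h
    exact absurd (Finset.mem_Icc.2 ⟨by omega, k2⟩) h

private theorem tent_spec {z : D} (hz1 : ‖z‖ ≤ 1) {t : ℝ} (ht : t ∈ spectrum ℝ z) : |t| ≤ 1 := by
  rcases subsingleton_or_nontrivial D with h | h
  · exfalso
    have : spectrum ℝ z = ∅ := spectrum.of_subsingleton z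
    rw [this] at ht
    exact ht
  · have h1 := spectrum.norm_le_norm_of_mem ht
    rw [Real.norm_eq_abs] at h1
    exact h1.trans hz1

private theorem tent_comb (N : ℕ) (z : D) (T : Finset ℤ) (c : ℤ → ℝ) :
    ∑ a ∈ T, (c a : ℂ) • cfc (tent N a) z = cfc (fun t => ∑ a ∈ T, c a * tent N a t) z := by
  have h1 : (fun t => ∑ a ∈ T, c a * tent N a t) = ∑ a ∈ T, fun t => c a * tent N a t := by
    funext t
    rw [Finset.sum_apply]
  rw [h1, cfc_sum (fun a t => c a * tent N a t) z T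
    (fun a _ => (continuous_const.mul (tent_cont N a)).continuousOn)]
  refine Finset.sum_congr rfl fun a _ => ?_
  rw [cfc_const_mul (c a) (tent N a) z (tent_cont N a).continuousOn]
  rfl

/-- TENT.  Partition of unity: `∑_a max 0 (1 - |N t - a|) = 1` for `|t| ≤ 1` (`cfc_sum`,
`cfc_congr`). -/
theorem tent_sum (N : ℕ) (hN : 0 < N) (z : D) (hz : IsSelfAdjoint z) (hz1 : ‖z‖ ≤ 1) :
    ∑ a ∈ Finset.Icc (-(N : ℤ)) N, cfc (tent N a) z = 1 := by
  have h1 := tent_comb N z (Finset.Icc (-(N : ℤ)) N) (fun _ => 1)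
  simp only [Complex.ofReal_one, one_smul] at h1
  rw [h1, ← cfc_const_one ℝ z]
  refine cfc_congr fun t ht => ?_
  obtain ⟨k, -, -, hk⟩ := tent_sum_real N hN t (tent_spec hz1 ht) (fun _ => 1)
  show ∑ a ∈ Finset.Icc (-(N : ℤ)) N, 1 * tent N a t = 1
  rw [hk]
  ring

/-- TENT2.  `z` is close to `∑ (a/N) tent_a(z)`. -/
theorem tent_approx (N : ℕ) (hN : 0 < N) (z : D) (hz : IsSelfAdjoint z) (hz1 : ‖z‖ ≤ 1) :
    ‖z - ∑ a ∈ Finset.Icc (-(N : ℤ)) N, ((a : ℂ) / N) • cfc (tent N a) z‖ ≤ 1 / N := by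
  have hN' : (0 : ℝ) < N := by exact_mod_cast hN
  have h1 := tent_comb N z (Finset.Icc (-(N : ℤ)) N) (fun a => (a : ℝ) / N)
  have h2 : ∀ a : ℤ, (((a : ℝ) / N : ℝ) : ℂ) = (a : ℂ) / N := by
    intro a
    push_cast
    rfl
  simp only [h2] at h1
  have h3 : cfc (fun t => ∑ a ∈ Finset.Icc (-(N : ℤ)) N, (a : ℝ) / N * tent N a t) z = z := by
    conv_rhs => rw [← cfc_id' ℝ z]
    refine cfc_congr fun t ht => ?_
    obtain ⟨k, -, -, hk⟩ := tent_sum_real N hN t (tent_spec hz1 ht) (fun a => (a : ℝ) / N)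
    show ∑ a ∈ Finset.Icc (-(N : ℤ)) N, (a : ℝ) / N * tent N a t = t
    rw [hk]
    push_cast
    field_simp
    ring
  rw [h1, h3, sub_self, norm_zero]
  positivity

/-- TENT3.  Bounded real combinations of the tents. -/
theorem tent_norm (N : ℕ) (hN : 0 < N) (z : D) (hz : IsSelfAdjoint z) (hz1 : ‖z‖ ≤ 1)
    (T : Finset ℤ) (hT : T ⊆ Finset.Icc (-(N : ℤ)) N) (c : ℤ → ℝ) (r : ℝ) (hr : 0 ≤ r)
    (hc : ∀ a ∈ T, |c a| ≤ r) :
    ‖∑ a ∈ T, (c a : ℂ) • cfc (tent N a) z‖ ≤ r := by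
  rw [tent_comb]
  refine norm_cfc_le hr fun t ht => ?_
  obtain ⟨k, -, -, hk⟩ := tent_sum_real N hN t (tent_spec hz1 ht) (fun _ => 1)
  rw [Real.norm_eq_abs]
  calc |∑ a ∈ T, c a * tent N a t| ≤ ∑ a ∈ T, |c a * tent N a t| :=
        Finset.abs_sum_le_sum_abs _ _
    _ ≤ ∑ a ∈ T, r * (1 * tent N a t) := by
        refine Finset.sum_le_sum fun a ha => ?_
        rw [abs_mul, abs_of_nonneg (tent_nonneg N a t), one_mul]
        exact mul_le_mul_of_nonneg_right (hc a ha) (tent_nonneg N a t)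
    _ = r * ∑ a ∈ T, 1 * tent N a t := by rw [Finset.mul_sum]
    _ ≤ r * ∑ a ∈ Finset.Icc (-(N : ℤ)) N, 1 * tent N a t := by
        refine mul_le_mul_of_nonneg_left ?_ hr
        refine Finset.sum_le_sum_of_subset_of_nonneg hT fun a _ _ => ?_
        rw [one_mul]
        exact tent_nonneg N a t
    _ = r := by
        rw [hk]
        ring

private theorem loc_smul {M : Set D} (hM : PrimeOn ⊤ M) (c : ℂ) {x : D} (hx : x ∈ M) :
    c • x ∈ M := by
  have := hM.left (algebraMap ℂ D c) trivial x hx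
  rwa [← Algebra.smul_def] at this

private theorem loc_sum {M : Set D} (hM : PrimeOn ⊤ M) (S : Finset ℤ) (f : ℤ → D)
    (hf : ∀ a ∈ S, f a ∈ M) : ∑ a ∈ S, f a ∈ M := by
  classical
  induction S using Finset.induction_on with
  | empty => simpa using hM.zero
  | insert a S ha ih =>
    rw [Finset.sum_insert ha]
    exact hM.add _ (hf a (Finset.mem_insert_self a S)) _
      (ih fun b hb => hf b (Finset.mem_insert_of_mem hb))

/-- LOC.  The indices `a` with `tent_a(z) ∉ M` (there is one, as `∑ = 1 ∉ M`) are within distance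
`< κ`. `z - a0/N - ∑_(a: tent ∈ M) ((a-a0)/N) tent_a = (z - ∑ (a/N) tent_a)
  + ∑_(a : tent ∉ M) ((a-a0)/N) tent_a`. -/
theorem loc (M : Set D) (hM : PrimeOn ⊤ M) (N : ℕ) (hN : 0 < N) (κ : ℕ) (z : D)
    (hz : IsSelfAdjoint z) (hz1 : ‖z‖ ≤ 1)
    (h : ∀ a b : ℤ, |a| ≤ N → |b| ≤ N → (κ : ℤ) ≤ |a - b| →
      cfc (tent N a) z ∈ M ∨ cfc (tent N b) z ∈ M) :
    ∃ a : ℤ, |a| ≤ N ∧ ∃ m ∈ M, ‖z - algebraMap ℂ D ((a : ℂ) / N) - m‖ ≤ (κ + 1) / N := by
  classical
  have hN' : (0 : ℝ) < N := by exact_mod_cast hN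
  have hsum := tent_sum N hN z hz hz1
  obtain ⟨a0, ha0, ha0M⟩ : ∃ a ∈ Finset.Icc (-(N : ℤ)) N, cfc (tent N a) z ∉ M := by
    by_contra hcon
    push Not at hcon
    apply hM.one
    rw [← hsum]
    exact loc_sum hM _ _ hcon
  have hI : ∀ a ∈ Finset.Icc (-(N : ℤ)) N, |a| ≤ N := by
    intro a ha
    rw [Finset.mem_Icc] at ha
    exact abs_le.2 ha
  refine ⟨a0, hI a0 ha0, ∑ a ∈ (Finset.Icc (-(N : ℤ)) N).filter (fun a => cfc (tent N a) z ∈ M),
    (((a : ℂ) - a0) / N) • cfc (tent N a) z, ?_, ?_⟩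
  · apply loc_sum hM
    intro a ha
    exact loc_smul hM _ (Finset.mem_filter.1 ha).2
  · have e1 : algebraMap ℂ D ((a0 : ℂ) / N)
        = ∑ a ∈ Finset.Icc (-(N : ℤ)) N, ((a0 : ℂ) / N) • cfc (tent N a) z := by
      rw [← Finset.smul_sum, hsum, Algebra.algebraMap_eq_smul_one]
    have e2 : z - algebraMap ℂ D ((a0 : ℂ) / N)
        - ∑ a ∈ (Finset.Icc (-(N : ℤ)) N).filter (fun a => cfc (tent N a) z ∈ M),
          (((a : ℂ) - a0) / N) • cfc (tent N a) z
        = (z - ∑ a ∈ Finset.Icc (-(N : ℤ)) N, ((a : ℂ) / N) • cfc (tent N a) z)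
          + ∑ a ∈ (Finset.Icc (-(N : ℤ)) N).filter (fun a => ¬ cfc (tent N a) z ∈ M),
            ((((a : ℝ) - a0) / N : ℝ) : ℂ) • cfc (tent N a) z := by
      have e3 : ∑ a ∈ Finset.Icc (-(N : ℤ)) N, (((a : ℂ) - a0) / N) • cfc (tent N a) z
          = ∑ a ∈ (Finset.Icc (-(N : ℤ)) N).filter (fun a => cfc (tent N a) z ∈ M),
              (((a : ℂ) - a0) / N) • cfc (tent N a) z
            + ∑ a ∈ (Finset.Icc (-(N : ℤ)) N).filter (fun a => ¬ cfc (tent N a) z ∈ M),
              (((a : ℂ) - a0) / N) • cfc (tent N a) z :=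
        (Finset.sum_filter_add_sum_filter_not _ _ _).symm
      have e4 : ∑ a ∈ Finset.Icc (-(N : ℤ)) N, (((a : ℂ) - a0) / N) • cfc (tent N a) z
          = ∑ a ∈ Finset.Icc (-(N : ℤ)) N, ((a : ℂ) / N) • cfc (tent N a) z
            - ∑ a ∈ Finset.Icc (-(N : ℤ)) N, ((a0 : ℂ) / N) • cfc (tent N a) z := by
        rw [← Finset.sum_sub_distrib]
        refine Finset.sum_congr rfl fun a _ => ?_
        rw [← sub_smul, sub_div]
      have e5 : ∑ a ∈ (Finset.Icc (-(N : ℤ)) N).filter (fun a => ¬ cfc (tent N a) z ∈ M),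
            ((((a : ℝ) - a0) / N : ℝ) : ℂ) • cfc (tent N a) z
          = ∑ a ∈ (Finset.Icc (-(N : ℤ)) N).filter (fun a => ¬ cfc (tent N a) z ∈ M),
              (((a : ℂ) - a0) / N) • cfc (tent N a) z := by
        refine Finset.sum_congr rfl fun a _ => ?_
        push_cast
        rfl
      rw [e5, e1]
      rw [e4] at e3
      rw [sub_eq_iff_eq_add.1 e3]
      abel
    rw [e2]
    refine (norm_add_le _ _).trans ?_
    have n1 := tent_approx N hN z hz hz1
    have n2 := tent_norm N hN z hz hz1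
      ((Finset.Icc (-(N : ℤ)) N).filter (fun a => ¬ cfc (tent N a) z ∈ M))
      (Finset.filter_subset _ _) (fun a => ((a : ℝ) - a0) / N) (κ / N) (by positivity) (by
        intro a ha
        obtain ⟨ha1, ha2⟩ := Finset.mem_filter.1 ha
        rw [abs_div, abs_of_pos hN']
        apply div_le_div_of_nonneg_right _ hN'.le
        by_contra hlt
        push Not at hlt
        have h3 : (κ : ℤ) ≤ |a - a0| := by
          have : (κ : ℝ) ≤ ((|a - a0| : ℤ) : ℝ) := by
            push_cast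
            exact hlt.le
          exact_mod_cast this
        rcases h a a0 (hI a ha1) (hI a0 ha0) h3 with h4 | h4
        · exact ha2 h4
        · exact ha0M h4)
    have e6 : ((κ : ℝ) + 1) / N = 1 / N + κ / N := by ring
    rw [e6]
    exact add_le_add n1 n2

/-- CLOSED.  A proper two-sided ideal contains no element close to `1`; and the closure property:
if `x` is a limit of elements of the maximal ideal... only the first statement is needed here. -/
theorem PrimeOn.far_one (M : Set D) (hM : PrimeOn ⊤ M) (m : D) (hm : m ∈ M) :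
    1 ≤ ‖1 - m‖ := by
  by_contra hlt
  push Not at hlt
  have hu : IsUnit (1 - (1 - m)) := isUnit_one_sub_of_norm_lt_one hlt
  rw [sub_sub_cancel] at hu
  obtain ⟨u, hu⟩ := hu
  apply hM.one
  have := hM.left (↑u⁻¹ : D) trivial m hm
  rwa [← hu, Units.inv_mul] at this

end Vale.Agent.P101K
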