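import Vale.Agent.P101K.Defs

namespace Vale.Agent.P101K

open Matrix

universe u

/-! Block 3: from the Rordam-Winter data `Φ, v` to a unital *-homomorphism of the dimension drop
algebra.  Function picture (irreducible case): `H = ℂ^ι ⊗ ℂ^(Option ι)`, `d = T` scalar in `[0,1]`,
`P x = (1-T) Π(x)`, `s μ s ν* = T (1 ⊗ e_μν)`, `R X = T (1-T) X`, `Π(x) = W (x ⊗ 1) W`. -/

/-- the data -/
structure PS (ι : Type) [Fintype ι] [DecidableEq ι] (D : Type u) [Ring D] [Algebra ℂ D]
    [StarRing D] where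
  P : Matrix ι ι ℂ →ₗ[ℂ] D
  s : Option ι → D
  g : D
  ozP : IsOZ P
  ss : ∀ μ ν, star (s μ) * s ν = if μ = ν then g else 0
  s0 : star (s none) = s none
  sP : ∀ x, P x * s none = s none * P x
  sz : ∀ μ i, s μ * s (some i) = 0
  Ps : ∀ c d j, P (eu c d) * s (some j) = if d = j then P 1 * s (some c) else 0
  P1 : ∃ r, P 1 = star r * r
  sum : P 1 + ∑ μ, s μ * star (s μ) = 1

variable {ι : Type} [Fintype ι] [DecidableEq ι] {D : Type u}

/-- `d = ∑ s s*` -/
noncomputable def PS.d [Ring D] [Algebra ℂ D] [StarRing D] (S : PS ι D) : D :=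
  ∑ μ, S.s μ * star (S.s μ)

/-- `Q e_μν = s μ s ν*` -/
noncomputable def PS.Q [Ring D] [Algebra ℂ D] [StarRing D] (S : PS ι D)
    (y : Matrix (Option ι) (Option ι) ℂ) : D :=
  ∑ μ, ∑ ν, y μ ν • (S.s μ * star (S.s ν))

/-- `R (e_ab ⊗ e_μν) = s μ P e_ab s ν*` -/
noncomputable def PS.R [Ring D] [Algebra ℂ D] [StarRing D] (S : PS ι D)
    (X : Matrix (ι × Option ι) (ι × Option ι) ℂ) : D :=
  ∑ p : ι × Option ι, ∑ r : ι × Option ι, X p r • (S.s p.2 * S.P (eu p.1 r.1) * star (S.s r.2))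

/-- `x ⊗ 1` -/
def lt1 (x : Matrix ι ι ℂ) : Matrix (ι × Option ι) (ι × Option ι) ℂ :=
  Matrix.of fun p r => if p.2 = r.2 then x p.1 r.1 else 0

/-- `1 ⊗ y` -/
def rt1 (y : Matrix (Option ι) (Option ι) ℂ) : Matrix (ι × Option ι) (ι × Option ι) ℂ :=
  Matrix.of fun p r => if p.1 = r.1 then y p.2 r.2 else 0

/-- the partial flip -/
def wsw : ι × Option ι → ι × Option ι
  | (a, none) => (a, none)
  | (a, some j) => (j, some a)

/-- `Π(x) = W (x ⊗ 1) W` -/
def Pim (x : Matrix ι ι ℂ) : Matrix (ι × Option ι) (ι × Option ι) ℂ :=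
  Matrix.of fun p r => lt1 x (wsw p) (wsw r)

/-- the linear map `x ↦ ∑ x_ij a_i a_j*` -/
noncomputable def PSX_Q {ι : Type} [Fintype ι] {D : Type u} [Ring D] [Algebra ℂ D] [StarRing D]
    (a : ι → D) : Matrix ι ι ℂ →ₗ[ℂ] D where
  toFun x := ∑ i, ∑ j, x i j • (a i * star (a j))
  map_add' x y := by
    simp only [Matrix.add_apply, add_smul, Finset.sum_add_distrib]
  map_smul' c x := by
    simp only [Matrix.smul_apply, smul_eq_mul, mul_smul, Finset.smul_sum, RingHom.id_apply]

theorem PSX_Q_apply {ι : Type} [Fintype ι] {D : Type u} [Ring D] [Algebra ℂ D] [StarRing D]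
    (a : ι → D) (x : Matrix ι ι ℂ) : PSX_Q a x = ∑ i, ∑ j, x i j • (a i * star (a j)) := rfl

theorem PSX_lin {ι : Type} [Fintype ι] [DecidableEq ι] {D : Type u} [Ring D] [Algebra ℂ D]
    (Φ : Matrix ι ι ℂ →ₗ[ℂ] D) (a : ι → D)
    (h : ∀ c d j, Φ (eu c d) * a j = if d = j then a c else 0) (x : Matrix ι ι ℂ) (j : ι) :
    Φ x * a j = ∑ c, x c j • a c := by
  have hx : x = ∑ c, ∑ d, x c d • eu c d := by
    conv_lhs => rw [Matrix.matrix_eq_sum_single x]
    refine Finset.sum_congr rfl fun c _ => Finset.sum_congr rfl fun d _ => ?_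
    rw [eu, Matrix.smul_single, smul_eq_mul, mul_one]
  conv_lhs => rw [hx]
  simp only [map_sum, map_smul, Finset.sum_mul, smul_mul_assoc, h, smul_ite, smul_zero,
    Finset.sum_ite_eq', Finset.mem_univ, if_true]

/-- PSX.  From the Rordam-Winter data: `g = v* v = 1 - Φ 1`, `a i = Φ (e_i0) v`,
`s (some i) = a i`, `s none = g^(1/2)`, `P x = Φ x - ∑_ij x_ij a_i a_j*`.  Facts: `Φ(1) v = v`,
`a_i* a_j = δ_ij g`, `g a_i = 0` (`g` commutes with `Φ`), hence `g^(1/2) a_i = 0` and `v a_i = 0`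
(`(v a_i)* (v a_i) = a_i* g a_i`); `Φ(e_cd) a_j = δ_dj a_c`; `P 1 = ∑ (Φ e_ii - a_i a_i*) ≥ 0`
since `a_i a_i* ≤ Φ(e_i0) Φ(e_0i) = Φ(1) Φ(e_ii) ≤ Φ(e_ii)`; `P(x)P(y) = P(1)P(xy)` as in
`notes/P101_proof.md`, step 8. -/
theorem exists_PS {D : Type u} [CStarAlgebra D] [PartialOrder D] [StarOrderedRing D] {q : ℕ}
    (Φ : Matrix (Fin (q + 1)) (Fin (q + 1)) ℂ →ₗ[ℂ] D) (hΦ : IsOZ Φ) (h0 : 0 ≤ Φ 1)
    (h1 : Φ 1 ≤ 1) (v : D) (hv : star v * v = 1 - Φ 1) (hv2 : Φ (eu 0 0) * v = v) :
    Nonempty (PS (Fin (q + 1)) D) := by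
  have hcomm : ∀ x, Φ x * Φ 1 = Φ 1 * Φ x := fun x => by rw [hΦ.mul' x 1, mul_one]
  have hhv : Φ 1 * v = v := by
    have e1 : Φ (eu 0 0) * Φ (eu 0 0) = Φ 1 * Φ (eu 0 0) := by
      rw [hΦ.mul']
      congr 2
      rw [Matrix.single_mul_single_same, mul_one]
    calc Φ 1 * v = Φ 1 * (Φ (eu 0 0) * v) := by rw [hv2]
      _ = (Φ (eu 0 0) * Φ (eu 0 0)) * v := by rw [e1, mul_assoc]
      _ = v := by rw [mul_assoc, hv2, hv2]
  set g : D := 1 - Φ 1 with hg
  have hg0 : 0 ≤ g := sub_nonneg.2 h1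
  have hgle : g ≤ 1 := by rw [hg]; exact sub_le_self _ h0
  have hgc : ∀ x, Φ x * g = g * Φ x := fun x => by
    rw [hg, mul_sub, sub_mul, hcomm, mul_one, one_mul]
  have hgv : g * v = 0 := by rw [hg, sub_mul, one_mul, hhv, sub_self]
  obtain ⟨a, ha⟩ : ∃ a : Fin (q + 1) → D, a = fun i => Φ (eu i 0) * v := ⟨_, rfl⟩
  have hPhiA : ∀ c d j, Φ (eu c d) * a j = if d = j then a c else 0 := by
    intro c d j
    simp only [ha]
    rw [← mul_assoc, hΦ.mul']
    split_ifs with hdj
    · subst hdj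
      rw [show (eu c d * eu d 0 : Matrix (Fin (q + 1)) (Fin (q + 1)) ℂ) = eu c 0 by
        rw [Matrix.single_mul_single_same, mul_one]]
      rw [← hcomm, mul_assoc, hhv]
    · rw [show (eu c d * eu j 0 : Matrix (Fin (q + 1)) (Fin (q + 1)) ℂ) = 0 from
        Matrix.single_mul_single_of_ne _ _ _ _ hdj _]
      rw [map_zero, mul_zero, zero_mul]
  have hha : ∀ i, Φ 1 * a i = a i := fun i => by
    simp only [ha]
    rw [← mul_assoc, ← hcomm, mul_assoc, hhv]
  have hga : ∀ i, g * a i = 0 := fun i => by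
    rw [hg, sub_mul, one_mul, hha, sub_self]
  have haa : ∀ i j, star (a i) * a j = if i = j then g else 0 := by
    intro i j
    simp only [ha]
    rw [star_mul, ← hΦ.star', mul_assoc]
    have e2 : (eu i 0 : Matrix (Fin (q + 1)) (Fin (q + 1)) ℂ)ᴴ = eu 0 i := by
      rw [eu, Matrix.conjTranspose_single, star_one]
    rw [e2]
    have e3 := hPhiA 0 i j
    simp only [ha] at e3
    rw [e3]
    split_ifs with hij
    · rw [hv2, hv]
    · rw [mul_zero]
  -- the square root
  set r : D := CFC.sqrt g with hr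
  have hr0 : 0 ≤ r := CFC.sqrt_nonneg g
  have hrs : star r = r := hr0.isSelfAdjoint.star_eq
  have hrr : r * r = g := CFC.sqrt_mul_sqrt_self g hg0
  have hrc : ∀ x, Φ x * r = r * Φ x := fun x => by
    have : Commute r (Φ x) := Commute.cfcₙ_nnreal (show Commute g (Φ x) from (hgc x).symm) _
    exact this.eq.symm
  have hra : ∀ i, r * a i = 0 := by
    intro i
    have : star (r * a i) * (r * a i) = 0 := by
      rw [star_mul, hrs, mul_assoc, ← mul_assoc r r, hrr, hga, mul_zero]
    exact CStarRing.star_mul_self_eq_zero_iff _ |>.1 this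
  have hva : ∀ i, v * a i = 0 := by
    intro i
    have : star (v * a i) * (v * a i) = 0 := by
      rw [star_mul, mul_assoc, ← mul_assoc (star v) v, hv, hga, mul_zero]
    exact CStarRing.star_mul_self_eq_zero_iff _ |>.1 this
  have har : ∀ i, star (a i) * r = 0 := fun i => by
    have := congrArg star (hra i)
    rwa [star_mul, hrs, star_zero] at this
  -- the linear map Q
  set Q := PSX_Q a with hQdef
  have hQ : ∀ x, Q x = ∑ i, ∑ j, x i j • (a i * star (a j)) := fun x => rfl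
  have hlin := PSX_lin Φ a hPhiA
  have hQstar : ∀ x, Q xᴴ = star (Q x) := by
    intro x
    rw [hQ, hQ, star_sum, Finset.sum_comm]
    refine Finset.sum_congr rfl fun i _ => ?_
    rw [star_sum]
    refine Finset.sum_congr rfl fun j _ => ?_
    rw [Matrix.conjTranspose_apply, star_smul, star_mul, star_star]
  have hPQ : ∀ x y, Φ x * Q y = Q (x * y) := by
    intro x y
    rw [hQ, hQ, Finset.mul_sum]
    have e1 : ∀ i, Φ x * ∑ j, y i j • (a i * star (a j))
        = ∑ c, ∑ j, (x c i * y i j) • (a c * star (a j)) := by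
      intro i
      rw [Finset.sum_comm, Finset.mul_sum]
      refine Finset.sum_congr rfl fun j _ => ?_
      rw [mul_smul_comm, ← mul_assoc, hlin, Finset.sum_mul, Finset.smul_sum]
      refine Finset.sum_congr rfl fun c _ => ?_
      rw [smul_mul_assoc, smul_smul, mul_comm]
    simp only [e1]
    rw [Finset.sum_comm]
    refine Finset.sum_congr rfl fun c _ => ?_
    rw [Finset.sum_comm]
    refine Finset.sum_congr rfl fun j _ => ?_
    rw [Matrix.mul_apply, Finset.sum_smul]
  have hQP : ∀ x y, Q x * Φ y = Q (x * y) := by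
    intro x y
    have h1 := congrArg star (hPQ yᴴ xᴴ)
    rw [star_mul, ← hQstar, ← hΦ.star', conjTranspose_conjTranspose, conjTranspose_conjTranspose,
      ← hQstar, conjTranspose_mul, conjTranspose_conjTranspose, conjTranspose_conjTranspose] at h1
    exact h1
  have hQQ : ∀ x y, Q x * Q y = ∑ i, ∑ l, (x * y) i l • (a i * g * star (a l)) := by
    intro x y
    rw [hQ, hQ]
    rw [Finset.sum_mul]
    refine Finset.sum_congr rfl fun i _ => ?_
    rw [Finset.sum_mul]
    have e1 : ∀ j, x i j • (a i * star (a j)) * ∑ k, ∑ l, y k l • (a k * star (a l))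
        = ∑ l, (x i j * y j l) • (a i * g * star (a l)) := by
      intro j
      rw [Finset.mul_sum]
      have e2 : ∀ k, x i j • (a i * star (a j)) * ∑ l, y k l • (a k * star (a l))
          = if j = k then ∑ l, (x i j * y j l) • (a i * g * star (a l)) else 0 := by
        intro k
        rw [Finset.mul_sum]
        split_ifs with hjk
        · subst hjk
          refine Finset.sum_congr rfl fun l _ => ?_
          rw [smul_mul_smul_comm]
          rw [mul_assoc (a i), ← mul_assoc (star (a j)), haa, if_pos rfl, mul_assoc (a i)]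
        · refine Finset.sum_eq_zero fun l _ => ?_
          rw [smul_mul_smul_comm]
          rw [mul_assoc (a i), ← mul_assoc (star (a j)), haa, if_neg hjk, zero_mul, mul_zero,
            smul_zero]
      rw [Finset.sum_congr rfl fun k _ => e2 k, Finset.sum_ite_eq, if_pos (Finset.mem_univ _)]
    rw [Finset.sum_congr rfl fun j _ => e1 j, Finset.sum_comm]
    refine Finset.sum_congr rfl fun l _ => ?_
    rw [Matrix.mul_apply, Finset.sum_smul]
  have hQ1a : ∀ c, Q 1 * a c = a c * g := by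
    intro c
    rw [hQ, Finset.sum_mul]
    have e1 : ∀ i, (∑ j, (1 : Matrix (Fin (q + 1)) (Fin (q + 1)) ℂ) i j • (a i * star (a j))) * a c
        = if i = c then a c * g else 0 := by
      intro i
      rw [Finset.sum_mul]
      have e2 : ∀ j, (1 : Matrix (Fin (q + 1)) (Fin (q + 1)) ℂ) i j • (a i * star (a j)) * a c
          = if j = c then (if i = c then a c * g else 0) else 0 := by
        intro j
        rw [smul_mul_assoc, mul_assoc, haa]
        split_ifs with h1 h2
        · subst h1; subst h2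
          rw [Matrix.one_apply_eq, one_smul]
        · subst h1
          rw [Matrix.one_apply_ne h2, zero_smul]
        · rw [mul_zero, smul_zero]
      rw [Finset.sum_congr rfl fun j _ => e2 j, Finset.sum_ite_eq', if_pos (Finset.mem_univ _)]
    rw [Finset.sum_congr rfl fun i _ => e1 i, Finset.sum_ite_eq', if_pos (Finset.mem_univ _)]
  have hQ1 : Q 1 = ∑ i, a i * star (a i) := by
    rw [hQ]
    refine Finset.sum_congr rfl fun i _ => ?_
    rw [Finset.sum_eq_single i]
    · rw [Matrix.one_apply_eq, one_smul]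
    · intro j _ hj
      rw [Matrix.one_apply_ne (Ne.symm hj), zero_smul]
    · intro hi
      exact absurd (Finset.mem_univ _) hi
  have hsa : ∀ x, Q x * r = 0 := by
    intro x
    rw [hQ, Finset.sum_mul]
    refine Finset.sum_eq_zero fun i _ => ?_
    rw [Finset.sum_mul]
    refine Finset.sum_eq_zero fun j _ => ?_
    rw [smul_mul_assoc, mul_assoc, har, mul_zero, smul_zero]
  have hrQ : ∀ x, r * Q x = 0 := by
    intro x
    have := congrArg star (hsa xᴴ)
    rwa [star_mul, hrs, ← hQstar, conjTranspose_conjTranspose, star_zero] at this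
  set s : Option (Fin (q + 1)) → D := fun μ => μ.elim r a with hs
  have hss : ∀ μ ν, star (s μ) * s ν = if μ = ν then g else 0 := by
    intro μ ν
    cases μ with
    | none =>
      cases ν with
      | none => simp only [hs, Option.elim_none, hrs, hrr, if_true]
      | some j => simp only [hs, Option.elim_none, Option.elim_some, hrs, hra]; simp
    | some i =>
      cases ν with
      | none => simp only [hs, Option.elim_none, Option.elim_some, har]; simp
      | some j =>
        simp only [hs, Option.elim_some, haa, Option.some.injEq]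
  have hsum : (Φ 1 - Q 1) + ∑ μ, s μ * star (s μ) = 1 := by
    rw [Fintype.sum_option]
    simp only [hs, Option.elim_none, Option.elim_some, hrs, hrr]
    rw [← hQ1, hg]
    abel
  -- positivity of `P 1`
  have hdpos : 0 ≤ ∑ μ, s μ * star (s μ) :=
    Finset.sum_nonneg fun μ _ => mul_star_self_nonneg _
  have hd2 : (∑ μ, s μ * star (s μ)) * (∑ μ, s μ * star (s μ)) ≤ ∑ μ, s μ * star (s μ) := by
    have e1 : (∑ μ, s μ * star (s μ)) * (∑ μ, s μ * star (s μ)) = ∑ μ, s μ * g * star (s μ) := by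
      rw [Finset.sum_mul]
      refine Finset.sum_congr rfl fun μ _ => ?_
      rw [Finset.mul_sum, Finset.sum_eq_single μ]
      · rw [mul_assoc, ← mul_assoc (star (s μ)), hss, if_pos rfl, mul_assoc]
      · intro ν _ hν
        rw [mul_assoc, ← mul_assoc (star (s μ)), hss, if_neg (Ne.symm hν), zero_mul, mul_zero]
      · intro h
        exact absurd (Finset.mem_univ _) h
    rw [e1]
    refine Finset.sum_le_sum fun μ _ => ?_
    have := star_right_conjugate_le_conjugate hgle (s μ)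
    rwa [mul_one] at this
  have hdle : ∑ μ, s μ * star (s μ) ≤ 1 := by
    set d := ∑ μ, s μ * star (s μ) with hd
    have hdsa : IsSelfAdjoint d := hdpos.isSelfAdjoint
    have hn1 : ‖d * d‖ ≤ ‖d‖ := by
      refine CStarAlgebra.norm_le_norm_of_nonneg_of_le ?_ hd2
      exact hdsa.mul_self_nonneg
    have hn2 : ‖d * d‖ = ‖d‖ * ‖d‖ := hdsa.norm_mul_self.trans (by ring)
    have hn3 : ‖d‖ ≤ 1 := by
      by_contra hcon
      push Not at hcon
      have := mul_lt_mul_of_pos_left hcon (lt_trans one_pos hcon)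
      rw [hn2] at hn1
      linarith
    exact (CStarAlgebra.norm_le_one_iff_of_nonneg d hdpos).1 hn3
  have hP1pos : 0 ≤ Φ 1 - Q 1 := by
    have : Φ 1 - Q 1 = 1 - ∑ μ, s μ * star (s μ) := by
      rw [← hsum]; abel
    rw [this]
    exact sub_nonneg.2 hdle
  refine ⟨{
    P := Φ - Q
    s := s
    g := g
    ozP := ⟨?_, ?_⟩
    ss := hss
    s0 := hrs
    sP := ?_
    sz := ?_
    Ps := ?_
    P1 := ?_
    sum := ?_ }⟩
  · intro x
    rw [LinearMap.sub_apply, LinearMap.sub_apply, star_sub, hΦ.star', hQstar]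
  · intro x y
    simp only [LinearMap.sub_apply]
    have e1 : (Φ x - Q x) * (Φ y - Q y) = Φ x * Φ y - Q (x * y) - Q (x * y) + Q x * Q y := by
      rw [sub_mul, mul_sub, mul_sub, hPQ, hQP]; abel
    have e2 : (Φ 1 - Q 1) * (Φ (x * y) - Q (x * y))
        = Φ 1 * Φ (x * y) - Q (x * y) - Q (x * y) + Q 1 * Q (x * y) := by
      rw [sub_mul, mul_sub, mul_sub, hPQ, hQP, one_mul]; abel
    rw [e1, e2, hΦ.mul' x y, hQQ, hQQ, one_mul]
  · intro x
    simp only [hs, Option.elim_none, LinearMap.sub_apply]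
    rw [sub_mul, mul_sub, hsa, hrQ, hrc]
  · intro μ i
    cases μ with
    | none => simp only [hs, Option.elim_none, Option.elim_some, hra]
    | some j =>
      simp only [hs, Option.elim_some]
      have hj : a j = Φ (eu j 0) * v := by rw [ha]
      rw [hj, mul_assoc, hva, mul_zero]
  · intro c d j
    simp only [hs, Option.elim_some, LinearMap.sub_apply]
    have hQe : Q (eu c d) * a j = if d = j then a c * g else 0 := by
      rw [← one_mul (eu c d), ← hQP, mul_assoc, hPhiA]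
      split_ifs with h
      · exact hQ1a c
      · rw [mul_zero]
    rw [sub_mul, hPhiA, hQe]
    split_ifs with h
    · rw [sub_mul, hha, hQ1a]
    · rw [sub_zero]
  · exact CStarAlgebra.nonneg_iff_eq_star_mul_self.1 hP1pos
  · exact hsum

section rules

variable [Ring D] [Algebra ℂ D] [StarRing D] [StarModule ℂ D] (S : PS ι D)

omit [StarModule ℂ D] in
private theorem rra_P1 : S.P 1 = 1 - S.d := by
  have := S.sum
  unfold PS.d
  rw [← this]; abel

omit [StarModule ℂ D] in
private theorem rra_star_d : star S.d = S.d := by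
  unfold PS.d
  rw [star_sum]
  exact Finset.sum_congr rfl fun μ _ => by rw [star_mul, star_star]

omit [StarModule ℂ D] in
private theorem rra_ds (ν : Option ι) : S.d * S.s ν = S.s ν * S.g := by
  unfold PS.d
  rw [Finset.sum_mul, Finset.sum_eq_single ν]
  · rw [mul_assoc, S.ss, if_pos rfl]
  · intro μ _ h
    rw [mul_assoc, S.ss, if_neg h, mul_zero]
  · intro h; exact absurd (Finset.mem_univ _) h

omit [StarModule ℂ D] in
private theorem rra_sd (ν : Option ι) : S.s ν * S.d = S.s ν * S.g := by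
  unfold PS.d
  rw [Finset.mul_sum, Finset.sum_eq_single none]
  · have h1 := S.ss none none
    rw [if_pos rfl, S.s0] at h1
    rw [S.s0, h1]
  · intro μ _ h
    obtain ⟨i, rfl⟩ := Option.ne_none_iff_exists'.mp h
    rw [← mul_assoc, S.sz, zero_mul]
  · intro h; exact absurd (Finset.mem_univ _) h

/-- RR3.  `d` is central for the data: `d s_μ = s_μ g = s_μ d` (`sz`), `d P = P d`. -/
theorem PS.d_s (μ : Option ι) : S.d * S.s μ = S.s μ * S.d ∧ S.d * star (S.s μ) = star (S.s μ) * S.d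
    ∧ S.s μ * S.g = S.d * S.s μ := by
  have h1 : S.d * S.s μ = S.s μ * S.d := by rw [rra_ds, rra_sd]
  refine ⟨h1, ?_, (rra_ds S μ).symm⟩
  have h2 := congrArg star h1
  rw [star_mul, star_mul, rra_star_d] at h2
  exact h2.symm

theorem PS.d_P (x : Matrix ι ι ℂ) : S.d * S.P x = S.P x * S.d := by
  have h1 : S.P x * S.P 1 = S.P 1 * S.P x := by rw [S.ozP.mul' x 1, mul_one]
  rw [rra_P1, mul_sub, sub_mul, mul_one, one_mul] at h1
  exact (sub_right_inj.mp h1).symm

theorem PS.d_R (X : Matrix (ι × Option ι) (ι × Option ι) ℂ) : S.d * S.R X = S.R X * S.d := by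
  unfold PS.R
  rw [Finset.mul_sum, Finset.sum_mul]
  refine Finset.sum_congr rfl fun p _ => ?_
  rw [Finset.mul_sum, Finset.sum_mul]
  refine Finset.sum_congr rfl fun r _ => ?_
  rw [mul_smul_comm, smul_mul_assoc]
  congr 1
  rw [← mul_assoc, ← mul_assoc, (S.d_s p.2).1, mul_assoc (S.s p.2) S.d, S.d_P, mul_assoc _ _ S.d,
    ← (S.d_s r.2).2.1]
  simp only [mul_assoc]

theorem PS.d_Q (y : Matrix (Option ι) (Option ι) ℂ) : S.d * S.Q y = S.Q y * S.d := by
  unfold PS.Q
  rw [Finset.mul_sum, Finset.sum_mul]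
  refine Finset.sum_congr rfl fun p _ => ?_
  rw [Finset.mul_sum, Finset.sum_mul]
  refine Finset.sum_congr rfl fun r _ => ?_
  rw [mul_smul_comm, smul_mul_assoc]
  congr 1
  rw [← mul_assoc, (S.d_s p).1, mul_assoc _ _ S.d, ← (S.d_s r).2.1]
  simp only [mul_assoc]

theorem PS.star_d : star S.d = S.d := rra_star_d S

/-- RR1 -/
theorem PS.R_star (X : Matrix (ι × Option ι) (ι × Option ι) ℂ) : S.R Xᴴ = star (S.R X) := by
  unfold PS.R
  rw [star_sum, Finset.sum_comm]
  refine Finset.sum_congr rfl fun p _ => ?_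
  rw [star_sum]
  refine Finset.sum_congr rfl fun r _ => ?_
  rw [star_smul, star_mul, star_mul, star_star, ← S.ozP.star', Matrix.conjTranspose_apply]
  rw [show (eu p.1 r.1 : Matrix ι ι ℂ)ᴴ = eu r.1 p.1 by
    rw [Matrix.conjTranspose_single, star_one]]
  rw [mul_assoc]

theorem PS.Q_star (y : Matrix (Option ι) (Option ι) ℂ) : S.Q yᴴ = star (S.Q y) := by
  unfold PS.Q
  rw [star_sum, Finset.sum_comm]
  refine Finset.sum_congr rfl fun p _ => ?_
  rw [star_sum]
  refine Finset.sum_congr rfl fun r _ => ?_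
  rw [star_smul, star_mul, star_star, Matrix.conjTranspose_apply]

omit [StarModule ℂ D] in
private theorem rrb_g : S.g = S.s none * S.s none := by
  have h := S.ss none none
  rw [if_pos rfl, S.s0] at h
  exact h.symm

omit [StarModule ℂ D] in
private theorem rrb_Pg (x : Matrix ι ι ℂ) : S.P x * S.g = S.g * S.P x := by
  rw [rrb_g S, ← mul_assoc, S.sP, mul_assoc, S.sP, ← mul_assoc]

omit [StarModule ℂ D] in
private theorem rrb_P1 : S.P 1 = 1 - S.d := by
  have h := S.sum
  unfold PS.d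
  rw [← h]
  abel

private theorem rrb_comm (μ : Option ι) (y : D) :
    S.s μ * S.g * (S.P 1 * y) = (1 - S.d) * S.d * (S.s μ * y) := by
  obtain ⟨h1, _, h3⟩ := S.d_s μ
  have h4 : S.s μ * (1 - S.d) = (1 - S.d) * S.s μ := by
    rw [mul_sub, sub_mul, mul_one, one_mul, h1]
  have h5 : S.d * (1 - S.d) = (1 - S.d) * S.d := by
    rw [mul_sub, sub_mul, mul_one, one_mul]
  rw [h3, rrb_P1 S, mul_assoc S.d, ← mul_assoc (S.s μ), h4, mul_assoc (1 - S.d), ← mul_assoc S.d, h5]

private theorem rrb_E_mul (p r p' r' : ι × Option ι) :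
    (S.s p.2 * S.P (eu p.1 r.1) * star (S.s r.2)) *
        (S.s p'.2 * S.P (eu p'.1 r'.1) * star (S.s r'.2)) =
      if r = p' then (1 - S.d) * S.d * (S.s p.2 * S.P (eu p.1 r'.1) * star (S.s r'.2)) else 0 := by
  have h0 : (S.s p.2 * S.P (eu p.1 r.1) * star (S.s r.2)) *
        (S.s p'.2 * S.P (eu p'.1 r'.1) * star (S.s r'.2)) =
      S.s p.2 * S.P (eu p.1 r.1) * (star (S.s r.2) * S.s p'.2) *
        (S.P (eu p'.1 r'.1) * star (S.s r'.2)) := by
    simp only [mul_assoc]
  rw [h0, S.ss]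
  by_cases h2 : r.2 = p'.2
  · rw [if_pos h2, mul_assoc (S.s p.2), rrb_Pg S, ← mul_assoc (S.s p.2),
      mul_assoc (S.s p.2 * S.g), ← mul_assoc (S.P (eu p.1 r.1)), S.ozP.mul']
    by_cases h1 : r.1 = p'.1
    · have hrp : r = p' := Prod.ext h1 h2
      rw [if_pos hrp, h1]
      unfold eu
      rw [Matrix.single_mul_single_same, one_mul, mul_assoc (S.P 1), rrb_comm S]
      simp only [mul_assoc]
    · have hrp : r ≠ p' := fun h => h1 (h ▸ rfl)
      rw [if_neg hrp]
      unfold eu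
      rw [Matrix.single_mul_single_of_ne _ _ _ _ h1, map_zero, mul_zero, zero_mul, mul_zero]
  · have hrp : r ≠ p' := fun h => h2 (h ▸ rfl)
    rw [if_neg h2, if_neg hrp, mul_zero, zero_mul]

/-- RR2 -/
theorem PS.R_mul (X Y : Matrix (ι × Option ι) (ι × Option ι) ℂ) :
    S.R X * S.R Y = (1 - S.d) * S.d * S.R (X * Y) := by
  unfold PS.R
  rw [Finset.sum_mul, Finset.mul_sum]
  refine Finset.sum_congr rfl fun p _ => ?_
  rw [Finset.sum_mul, Finset.mul_sum]
  have h1 : ∀ r : ι × Option ι, (X p r • (S.s p.2 * S.P (eu p.1 r.1) * star (S.s r.2))) *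
      (∑ p', ∑ r', Y p' r' • (S.s p'.2 * S.P (eu p'.1 r'.1) * star (S.s r'.2))) =
      ∑ r', (X p r * Y r r') • ((1 - S.d) * S.d *
        (S.s p.2 * S.P (eu p.1 r'.1) * star (S.s r'.2))) := by
    intro r
    rw [Finset.mul_sum, Finset.sum_eq_single r]
    · rw [Finset.mul_sum]
      refine Finset.sum_congr rfl fun r' _ => ?_
      rw [smul_mul_smul_comm, rrb_E_mul, if_pos rfl]
    · intro p' _ hp'
      rw [Finset.mul_sum]
      refine Finset.sum_eq_zero fun r' _ => ?_
      rw [smul_mul_smul_comm, rrb_E_mul, if_neg (Ne.symm hp'), smul_zero]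
    · intro h
      exact absurd (Finset.mem_univ r) h
  rw [Finset.sum_congr rfl fun r _ => h1 r, Finset.sum_comm]
  refine Finset.sum_congr rfl fun r' _ => ?_
  rw [← Finset.sum_smul, Matrix.mul_apply, mul_smul_comm]

theorem PS.Q_mul (y z : Matrix (Option ι) (Option ι) ℂ) : S.Q y * S.Q z = S.d * S.Q (y * z) := by
  unfold PS.Q
  rw [Finset.sum_mul, Finset.mul_sum]
  refine Finset.sum_congr rfl fun μ _ => ?_
  rw [Finset.sum_mul, Finset.mul_sum]
  have h1 : ∀ ν, y μ ν • (S.s μ * star (S.s ν)) * ∑ α, ∑ β, z α β • (S.s α * star (S.s β))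
      = ∑ β, (y μ ν * z ν β) • (S.d * (S.s μ * star (S.s β))) := by
    intro ν
    rw [Finset.mul_sum, Finset.sum_eq_single ν]
    · rw [Finset.mul_sum]
      refine Finset.sum_congr rfl fun β _ => ?_
      rw [smul_mul_smul_comm]
      congr 1
      rw [mul_assoc, ← mul_assoc (star (S.s ν)), S.ss, if_pos rfl, ← mul_assoc, (S.d_s μ).2.2,
        mul_assoc]
    · intro α _ h
      rw [Finset.mul_sum]
      refine Finset.sum_eq_zero fun β _ => ?_
      rw [smul_mul_smul_comm, mul_assoc, ← mul_assoc (star (S.s ν)), S.ss, if_neg (Ne.symm h),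
        zero_mul, mul_zero, smul_zero]
    · intro h; exact absurd (Finset.mem_univ _) h
  rw [Finset.sum_congr rfl fun ν _ => h1 ν, Finset.sum_comm]
  refine Finset.sum_congr rfl fun β _ => ?_
  rw [Matrix.mul_apply, mul_smul_comm, Finset.sum_smul]

theorem PS.Q_one : S.Q 1 = S.d := by
  unfold PS.Q PS.d
  refine Finset.sum_congr rfl fun μ _ => ?_
  rw [Finset.sum_eq_single μ]
  · rw [Matrix.one_apply_eq, one_smul]
  · intro ν _ h
    rw [Matrix.one_apply_ne (Ne.symm h), zero_smul]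
  · intro h; exact absurd (Finset.mem_univ _) h

private theorem rrb_F_mul (μ ν : Option ι) (p r : ι × Option ι) :
    (S.s μ * star (S.s ν)) * (S.s p.2 * S.P (eu p.1 r.1) * star (S.s r.2)) =
      if ν = p.2 then S.d * (S.s μ * S.P (eu p.1 r.1) * star (S.s r.2)) else 0 := by
  have h0 : (S.s μ * star (S.s ν)) * (S.s p.2 * S.P (eu p.1 r.1) * star (S.s r.2)) =
      S.s μ * (star (S.s ν) * S.s p.2) * (S.P (eu p.1 r.1) * star (S.s r.2)) := by
    simp only [mul_assoc]
  rw [h0, S.ss]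
  by_cases h2 : ν = p.2
  · rw [if_pos h2, if_pos h2, (S.d_s μ).2.2]
    simp only [mul_assoc]
  · rw [if_neg h2, if_neg h2, mul_zero, zero_mul]

omit [Fintype ι] in
private theorem rrb_rt1_star (y : Matrix (Option ι) (Option ι) ℂ) : rt1 yᴴ = (rt1 y)ᴴ := by
  ext p r
  simp only [rt1, Matrix.of_apply, Matrix.conjTranspose_apply]
  by_cases h : p.1 = r.1
  · rw [if_pos h, if_pos h.symm]
  · rw [if_neg h, if_neg (Ne.symm h), star_zero]

/-- RR4 -/
theorem PS.Q_R (y : Matrix (Option ι) (Option ι) ℂ) (X : Matrix (ι × Option ι) (ι × Option ι) ℂ) :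
    S.Q y * S.R X = S.d * S.R (rt1 y * X) := by
  have hL : S.Q y * S.R X = ∑ p : ι × Option ι, ∑ r : ι × Option ι, ∑ μ : Option ι,
      (y μ p.2 * X p r) • (S.d * (S.s μ * S.P (eu p.1 r.1) * star (S.s r.2))) := by
    unfold PS.Q PS.R
    rw [Finset.mul_sum]
    refine Finset.sum_congr rfl fun p _ => ?_
    rw [Finset.mul_sum]
    refine Finset.sum_congr rfl fun r _ => ?_
    rw [Finset.sum_mul]
    refine Finset.sum_congr rfl fun μ _ => ?_
    rw [Finset.sum_mul, Finset.sum_eq_single p.2]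
    · rw [smul_mul_smul_comm, rrb_F_mul, if_pos rfl]
    · intro ν _ hν
      rw [smul_mul_smul_comm, rrb_F_mul, if_neg hν, smul_zero]
    · intro h
      exact absurd (Finset.mem_univ p.2) h
  have hR : S.d * S.R (rt1 y * X) = ∑ p' : ι × Option ι, ∑ r : ι × Option ι, ∑ p : ι × Option ι,
      (rt1 y p' p * X p r) • (S.d * (S.s p'.2 * S.P (eu p'.1 r.1) * star (S.s r.2))) := by
    unfold PS.R
    rw [Finset.mul_sum]
    refine Finset.sum_congr rfl fun p' _ => ?_
    rw [Finset.mul_sum]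
    refine Finset.sum_congr rfl fun r _ => ?_
    rw [Matrix.mul_apply, Finset.sum_smul, Finset.mul_sum]
    refine Finset.sum_congr rfl fun p _ => ?_
    rw [mul_smul_comm]
  rw [hL, hR]
  have e1 : ∀ p' : ι × Option ι, ∑ r : ι × Option ι, ∑ p : ι × Option ι,
      (rt1 y p' p * X p r) • (S.d * (S.s p'.2 * S.P (eu p'.1 r.1) * star (S.s r.2))) =
      ∑ p : ι × Option ι, ∑ r : ι × Option ι,
      (rt1 y p' p * X p r) • (S.d * (S.s p'.2 * S.P (eu p'.1 r.1) * star (S.s r.2))) :=
    fun p' => Finset.sum_comm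
  rw [Finset.sum_congr rfl fun p' _ => e1 p']
  conv_rhs => rw [Finset.sum_comm]
  refine Finset.sum_congr rfl fun p _ => ?_
  conv_rhs => rw [Finset.sum_comm]
  refine Finset.sum_congr rfl fun r _ => ?_
  rw [Fintype.sum_prod_type, Finset.sum_eq_single p.1]
  · refine Finset.sum_congr rfl fun μ _ => ?_
    simp only [rt1, Matrix.of_apply, if_true]
  · intro a _ ha
    refine Finset.sum_eq_zero fun μ _ => ?_
    simp only [rt1, Matrix.of_apply]
    rw [if_neg ha, zero_mul, zero_smul]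
  · intro h
    exact absurd (Finset.mem_univ p.1) h

theorem PS.R_Q (y : Matrix (Option ι) (Option ι) ℂ) (X : Matrix (ι × Option ι) (ι × Option ι) ℂ) :
    S.R X * S.Q y = S.d * S.R (X * rt1 y) := by
  have h := congrArg star (S.Q_R yᴴ Xᴴ)
  rw [star_mul, star_mul, S.star_d, ← S.R_star, ← S.Q_star, ← S.R_star,
    Matrix.conjTranspose_conjTranspose, Matrix.conjTranspose_conjTranspose,
    Matrix.conjTranspose_mul, Matrix.conjTranspose_conjTranspose, rrb_rt1_star,
    Matrix.conjTranspose_conjTranspose] at h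
  rw [h, S.d_R]

/-! #### RRC helper lemmas -/

omit [StarModule ℂ D] in
theorem PS.rrc_P1 : S.P 1 = 1 - S.d := eq_sub_of_add_eq S.sum

theorem PS.rrc_P1_s (μ : Option ι) : S.P 1 * S.s μ = S.s μ * S.P 1 := by
  rw [S.rrc_P1, sub_mul, mul_sub, (S.d_s μ).1, one_mul, mul_one]

omit [StarModule ℂ D] in
theorem PS.rrc_P_exp (x : Matrix ι ι ℂ) : S.P x = ∑ a, ∑ b, x a b • S.P (eu a b) := by
  conv_lhs => rw [Matrix.matrix_eq_sum_single x]
  rw [map_sum]
  refine Finset.sum_congr rfl fun a _ => ?_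
  rw [map_sum]
  refine Finset.sum_congr rfl fun b _ => ?_
  rw [← map_smul, Matrix.smul_single, smul_eq_mul, mul_one]

omit [Fintype ι] in
theorem rrc_pim_nn (x : Matrix ι ι ℂ) (a b : ι) : Pim x (a, none) (b, none) = x a b := by
  simp [Pim, lt1, wsw]

omit [Fintype ι] in
theorem rrc_pim_ss (x : Matrix ι ι ℂ) (a b i j : ι) :
    Pim x (a, some i) (b, some j) = if a = b then x i j else 0 := by
  simp [Pim, lt1, wsw]

omit [Fintype ι] in
theorem rrc_pim_ns (x : Matrix ι ι ℂ) (a b j : ι) : Pim x (a, none) (b, some j) = 0 := by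
  simp [Pim, lt1, wsw]

omit [Fintype ι] in
theorem rrc_pim_sn (x : Matrix ι ι ℂ) (a b j : ι) : Pim x (a, some j) (b, none) = 0 := by
  simp [Pim, lt1, wsw]

omit [Fintype ι] in
theorem rrc_pim_star (x : Matrix ι ι ℂ) : (Pim xᴴ)ᴴ = Pim x := by
  ext p r
  simp only [Matrix.conjTranspose_apply, Pim, lt1, Matrix.of_apply]
  by_cases h : (wsw p).2 = (wsw r).2
  · rw [if_pos h, if_pos h.symm, star_star]
  · rw [if_neg h, if_neg (fun h' => h h'.symm), star_zero]

omit [Fintype ι] in
theorem rrc_rt1_star (y : Matrix (Option ι) (Option ι) ℂ) :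
    (rt1 (ι := ι) yᴴ)ᴴ = rt1 y := by
  ext p r
  simp only [Matrix.conjTranspose_apply, rt1, Matrix.of_apply]
  by_cases h : p.1 = r.1
  · rw [if_pos h, if_pos h.symm, star_star]
  · rw [if_neg h, if_neg (fun h' => h h'.symm), star_zero]

omit [StarModule ℂ D] in
theorem PS.rrc_sumP : (∑ a : ι, S.P (eu a a)) = S.P 1 := by
  rw [← map_sum]
  congr 1
  ext a b
  rw [Matrix.sum_apply]
  by_cases hab : a = b
  · subst hab
    rw [Matrix.one_apply_eq, Finset.sum_eq_single a]
    · simp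
    · intro c _ hc
      simp [hc]
    · intro h
      exact absurd (Finset.mem_univ a) h
  · rw [Matrix.one_apply_ne hab]
    refine Finset.sum_eq_zero fun c _ => ?_
    have h3 : ¬ (c = a ∧ c = b) := fun h => hab (h.1.symm.trans h.2)
    simp [h3]

theorem PS.rrc_Ps (x : Matrix ι ι ℂ) (μ : Option ι) :
    S.P x * S.s μ = ∑ p : ι × Option ι, ∑ b, Pim x p (b, μ) • (S.s p.2 * S.P (eu p.1 b)) := by
  rw [Fintype.sum_prod_type]
  cases μ with
  | none =>
    simp only [Fintype.sum_option, rrc_pim_nn, rrc_pim_sn, zero_smul, Finset.sum_const_zero,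
      add_zero]
    rw [S.sP, S.rrc_P_exp x, Finset.mul_sum]
    refine Finset.sum_congr rfl fun a _ => ?_
    rw [Finset.mul_sum]
    refine Finset.sum_congr rfl fun b _ => ?_
    rw [mul_smul_comm]
  | some j =>
    simp only [Fintype.sum_option, rrc_pim_ns, rrc_pim_ss, zero_smul, Finset.sum_const_zero,
      zero_add, ite_smul, Finset.sum_ite_eq, Finset.mem_univ, if_true]
    rw [S.rrc_P_exp x, Finset.sum_mul, Finset.sum_comm]
    refine Finset.sum_congr rfl fun c _ => ?_
    rw [Finset.sum_mul, ← Finset.smul_sum, ← Finset.mul_sum]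
    rw [S.rrc_sumP]
    have h2 : ∀ d, x c d • S.P (eu c d) * S.s (some j)
        = if d = j then x c j • (S.s (some c) * S.P 1) else 0 := by
      intro d
      rw [smul_mul_assoc, S.Ps]
      by_cases hd : d = j
      · rw [if_pos hd, if_pos hd, hd, S.rrc_P1_s]
      · rw [if_neg hd, if_neg hd, smul_zero]
    simp only [h2, Finset.sum_ite_eq', Finset.mem_univ, if_true]

theorem rrc_sum4 {α β γ δ M : Type*} [Fintype α] [Fintype β] [Fintype γ] [Fintype δ]
    [AddCommMonoid M] (F : α → β → γ → δ → M) :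
    ∑ a, ∑ b, ∑ c, ∑ e, F a b c e = ∑ c, ∑ e, ∑ b, ∑ a, F a b c e := by
  have h1 : ∀ a, ∑ b, ∑ c, ∑ e, F a b c e = ∑ c, ∑ e, ∑ b, F a b c e := by
    intro a
    rw [Finset.sum_comm]
    exact Finset.sum_congr rfl fun c _ => Finset.sum_comm
  rw [Finset.sum_congr rfl fun a _ => h1 a, Finset.sum_comm]
  refine Finset.sum_congr rfl fun c _ => ?_
  rw [Finset.sum_comm]
  exact Finset.sum_congr rfl fun e _ => Finset.sum_comm

theorem PS.rrc_PsP (x : Matrix ι ι ℂ) (q : ι × Option ι) (c : ι) :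
    S.P x * (S.s q.2 * S.P (eu q.1 c))
      = S.P 1 * ∑ p : ι × Option ι, Pim x p q • (S.s p.2 * S.P (eu p.1 c)) := by
  rw [← mul_assoc, S.rrc_Ps, Finset.sum_mul, Finset.mul_sum]
  refine Finset.sum_congr rfl fun p _ => ?_
  rw [Finset.sum_mul, Finset.sum_eq_single q.1]
  · rw [smul_mul_assoc, mul_smul_comm, mul_assoc, S.ozP.mul', ← mul_assoc, ← mul_assoc,
      S.rrc_P1_s, Matrix.single_mul_single_same, mul_one]
  · intro b _ hb
    rw [smul_mul_assoc, mul_assoc, S.ozP.mul', Matrix.single_mul_single_of_ne _ _ _ _ hb,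
      map_zero, mul_zero, mul_zero, smul_zero]
  · intro h
    exact absurd (Finset.mem_univ _) h

/-- the starred version -/
theorem PS.rrc_sP (x : Matrix ι ι ℂ) (μ : Option ι) :
    star (S.s μ) * S.P x
      = ∑ p : ι × Option ι, ∑ b, Pim x (b, μ) p • (S.P (eu b p.1) * star (S.s p.2)) := by
  have h := congrArg star (S.rrc_Ps xᴴ μ)
  rw [star_mul, ← S.ozP.star', Matrix.conjTranspose_conjTranspose, star_sum] at h
  rw [h]
  refine Finset.sum_congr rfl fun p _ => ?_
  rw [star_sum]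
  refine Finset.sum_congr rfl fun b _ => ?_
  rw [star_smul, star_mul, ← S.ozP.star']
  have h1 : (eu p.1 b : Matrix ι ι ℂ)ᴴ = eu b p.1 := by
    rw [Matrix.conjTranspose_single, star_one]
  have h2 : star (Pim xᴴ p (b, μ)) = Pim x (b, μ) p := by
    have := congrFun (congrFun (rrc_pim_star x) (b, μ)) p
    rw [Matrix.conjTranspose_apply] at this
    exact this
  rw [h1, h2]

/-- RR5 -/
theorem PS.P_R (x : Matrix ι ι ℂ) (X : Matrix (ι × Option ι) (ι × Option ι) ℂ) :
    S.P x * S.R X = (1 - S.d) * S.R (Pim x * X) := by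
  rw [← S.rrc_P1]
  unfold PS.R
  rw [Finset.mul_sum]
  have h1 : ∀ q : ι × Option ι,
      S.P x * ∑ r : ι × Option ι, X q r • (S.s q.2 * S.P (eu q.1 r.1) * star (S.s r.2))
      = S.P 1 * ∑ p : ι × Option ι, ∑ r : ι × Option ι,
        (Pim x p q * X q r) • (S.s p.2 * S.P (eu p.1 r.1) * star (S.s r.2)) := by
    intro q
    rw [Finset.sum_comm, Finset.mul_sum, Finset.mul_sum]
    refine Finset.sum_congr rfl fun r _ => ?_
    rw [mul_smul_comm, ← mul_assoc, S.rrc_PsP, mul_assoc, ← mul_smul_comm, Finset.sum_mul,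
      Finset.smul_sum]
    congr 1
    refine Finset.sum_congr rfl fun p _ => ?_
    rw [smul_mul_assoc, smul_smul, mul_comm (X q r)]
  rw [Finset.sum_congr rfl fun q _ => h1 q, ← Finset.mul_sum]
  congr 1
  rw [Finset.sum_comm]
  refine Finset.sum_congr rfl fun p _ => ?_
  rw [Finset.sum_comm]
  refine Finset.sum_congr rfl fun r _ => ?_
  rw [Matrix.mul_apply, Finset.sum_smul]

theorem PS.R_P (x : Matrix ι ι ℂ) (X : Matrix (ι × Option ι) (ι × Option ι) ℂ) :
    S.R X * S.P x = (1 - S.d) * S.R (X * Pim x) := by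
  have h := congrArg star (S.P_R xᴴ Xᴴ)
  rw [star_mul, star_mul, ← S.ozP.star', ← S.R_star, ← S.R_star, star_sub, star_one, S.star_d,
    Matrix.conjTranspose_conjTranspose, Matrix.conjTranspose_conjTranspose,
    Matrix.conjTranspose_mul, Matrix.conjTranspose_conjTranspose, rrc_pim_star] at h
  rw [h, mul_sub, sub_mul, S.d_R, one_mul, mul_one]

/-- RR6 -/
theorem PS.P_Q (x : Matrix ι ι ℂ) (y : Matrix (Option ι) (Option ι) ℂ) :
    S.P x * S.Q y = S.R (Pim x * rt1 y) := by
  unfold PS.R PS.Q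
  have h1 : ∀ (p : ι × Option ι) (r : ι × Option ι),
      (Pim x * rt1 y) p r = ∑ μ, Pim x p (r.1, μ) * y μ r.2 := by
    intro p r
    rw [Matrix.mul_apply, Fintype.sum_prod_type, Finset.sum_comm]
    refine Finset.sum_congr rfl fun μ _ => ?_
    simp [rt1]
  have h2 : ∀ p : ι × Option ι, ∑ r : ι × Option ι,
      (Pim x * rt1 y) p r • (S.s p.2 * S.P (eu p.1 r.1) * star (S.s r.2))
      = ∑ b, ∑ ν, ∑ μ, (Pim x p (b, μ) * y μ ν) • (S.s p.2 * S.P (eu p.1 b) * star (S.s ν)) := by
    intro p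
    rw [Fintype.sum_prod_type]
    refine Finset.sum_congr rfl fun b _ => Finset.sum_congr rfl fun ν _ => ?_
    rw [h1, Finset.sum_smul]
  rw [Finset.sum_congr rfl fun p _ => h2 p,
    ← rrc_sum4 (fun (μ ν : Option ι) (p : ι × Option ι) (b : ι) =>
      (Pim x p (b, μ) * y μ ν) • (S.s p.2 * S.P (eu p.1 b) * star (S.s ν))), Finset.mul_sum]
  refine Finset.sum_congr rfl fun μ _ => ?_
  rw [Finset.mul_sum]
  refine Finset.sum_congr rfl fun ν _ => ?_
  rw [mul_smul_comm, ← mul_assoc, S.rrc_Ps, Finset.sum_mul, Finset.smul_sum]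
  refine Finset.sum_congr rfl fun p _ => ?_
  rw [Finset.sum_mul, Finset.smul_sum]
  refine Finset.sum_congr rfl fun b _ => ?_
  rw [smul_mul_assoc, smul_smul, mul_comm (y μ ν)]

theorem PS.Q_P (x : Matrix ι ι ℂ) (y : Matrix (Option ι) (Option ι) ℂ) :
    S.Q y * S.P x = S.R (rt1 y * Pim x) := by
  have h := congrArg star (S.P_Q xᴴ yᴴ)
  rw [star_mul, ← S.ozP.star', ← S.R_star, ← S.Q_star,
    Matrix.conjTranspose_conjTranspose, Matrix.conjTranspose_conjTranspose,
    Matrix.conjTranspose_mul, rrc_pim_star, rrc_rt1_star] at h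
  exact h

/-- RR7 -/
theorem PS.d_P_eq (x : Matrix ι ι ℂ) : S.d * S.P x = S.R (Pim x) := by
  unfold PS.R PS.d
  rw [Fintype.sum_prod_type, Finset.sum_comm, Finset.sum_mul]
  refine Finset.sum_congr rfl fun μ _ => ?_
  rw [mul_assoc, S.rrc_sP, Finset.mul_sum, Finset.sum_comm]
  refine Finset.sum_congr rfl fun p _ => ?_
  rw [Finset.mul_sum]
  refine Finset.sum_congr rfl fun b _ => ?_
  rw [mul_smul_comm, mul_assoc]

theorem PS.d_Q_eq (y : Matrix (Option ι) (Option ι) ℂ) : (1 - S.d) * S.Q y = S.R (rt1 y) := by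
  rw [← S.rrc_P1]
  unfold PS.R PS.Q
  conv_rhs => rw [Fintype.sum_prod_type, Finset.sum_comm]
  rw [Finset.mul_sum]
  refine Finset.sum_congr rfl fun μ _ => ?_
  have h1 : ∀ a : ι, ∑ r : ι × Option ι,
      rt1 y (a, μ) r • (S.s μ * S.P (eu a r.1) * star (S.s r.2))
      = ∑ ν, y μ ν • (S.s μ * S.P (eu a a) * star (S.s ν)) := by
    intro a
    rw [Fintype.sum_prod_type, Finset.sum_comm]
    refine Finset.sum_congr rfl fun ν _ => ?_
    simp [rt1]
  rw [Finset.sum_congr rfl fun a _ => h1 a]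
  rw [Finset.sum_comm, Finset.mul_sum]
  refine Finset.sum_congr rfl fun ν _ => ?_
  rw [mul_smul_comm, ← mul_assoc, S.rrc_P1_s, ← Finset.smul_sum, ← Finset.sum_mul,
    ← Finset.mul_sum, S.rrc_sumP]

/-- RR8 -/
theorem PS.P_mul (x z : Matrix ι ι ℂ) : S.P x * S.P z = (1 - S.d) * S.P (x * z) := by
  rw [S.ozP.mul' x z, rra_P1]

end rules

end Vale.Agent.P101K
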