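import Vale.Agent.P101K.BlkCopies

namespace Vale.Agent.P101K

universe u

/-- prefixes -/
def pre {s n : ℕ} (ℓ : Fin s → Fin n) (r : ℕ) : List (Fin n) := (List.ofFn ℓ).take r

/-- the copy attached to a node of the tree -/
def node {n : ℕ} (p : List (Fin n)) : ℕ := Encodable.encode p

theorem pre_snoc {s n : ℕ} (ℓ : Fin s → Fin n) (j : Fin n) (r : ℕ) (hr : r ≤ s) :
    pre (Fin.snoc (α := fun _ => Fin n) ℓ j) r = pre ℓ r := by
  unfold pre
  rw [List.ofFn_succ']
  simp only [Fin.snoc_castSucc, Fin.snoc_last, List.concat_eq_append]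
  rw [List.take_append_of_le_length (by simpa using hr)]

/-- TREE.  Sum over the last coordinate first. -/
theorem tree_sum {R : Type u} [Ring R] (s n : ℕ) (T : List (Fin n) → Fin n → R)
    (hT : ∀ p, ∑ j, T p j = 1) :
    ∑ ℓ : Fin s → Fin n, (List.ofFn (fun r : Fin s => T (pre ℓ r) (ℓ r))).prod = 1 := by
  induction s with
  | zero => simp
  | succ s ih =>
    rw [← (Fin.snocEquiv (fun _ => Fin n)).sum_comp, Fintype.sum_prod_type_right, ← ih]
    refine Finset.sum_congr rfl fun ℓ _ => ?_
    have h : ∀ j : Fin n, (List.ofFn (fun r : Fin (s + 1) =>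
        T (pre ((Fin.snocEquiv (fun _ => Fin n)) (j, ℓ)) r)
          ((Fin.snocEquiv (fun _ => Fin n)) (j, ℓ) r))).prod
        = (List.ofFn (fun r : Fin s => T (pre ℓ r) (ℓ r))).prod * T (pre ℓ s) j := by
      intro j
      have e : (Fin.snocEquiv (fun _ => Fin n)) (j, ℓ) = Fin.snoc (α := fun _ => Fin n) ℓ j := rfl
      rw [e, List.ofFn_succ', List.concat_eq_append, List.prod_append, List.prod_singleton]
      congr 1
      · congr 2
        funext r
        rw [Fin.snoc_castSucc, Fin.val_castSucc, pre_snoc ℓ j r r.2.le]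
      · rw [Fin.snoc_last, Fin.val_last, pre_snoc ℓ j s le_rfl]
    rw [Finset.sum_congr rfl fun j _ => h j, ← Finset.mul_sum, hT, mul_one]

/-- CODE. -/
theorem exists_code (n q : ℕ) (hq : 1 ≤ q) :
    ∃ (s : ℕ) (code : Fin n → Fin (s + 1) → Fin (q + 1)), Function.Injective code ∧
      ∀ j, code j 0 = 0 := by
  refine ⟨n, fun j r => if r = j.succ then Fin.last q else 0, ?_, ?_⟩
  · intro j j' h
    have h1 := congrFun h j.succ
    simp only [if_true] at h1
    by_contra hne
    rw [if_neg (fun h2 => hne (Fin.succ_injective _ h2))] at h1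
    have h2 := congrArg Fin.val h1
    simp at h2
    omega
  · intro j
    exact if_neg (Fin.succ_ne_zero j).symm

/-- STARPROD.  Products of elements of distinct commuting copies. -/
theorem star_prod_mul {D : Type u} [CStarAlgebra D] {q n : ℕ} {ε : ℝ} (F : Fam q n ε D) {s : ℕ}
    (i : Fin s → ℕ) (hi : Function.Injective i) (y y' : Fin s → D)
    (hy : ∀ r, y r ∈ F.C (i r)) (hy' : ∀ r, y' r ∈ F.C (i r)) :
    star (List.ofFn y).prod * (List.ofFn y').prod = (List.ofFn fun r => star (y r) * y' r).prod := by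
  induction s with
  | zero => simp
  | succ s ih =>
    have ih' := ih (fun r => i r.succ) (fun a b h => Fin.succ_injective _ (hi h))
      (fun r => y r.succ) (fun r => y' r.succ) (fun r => hy r.succ) (fun r => hy' r.succ)
    rw [List.ofFn_succ, List.ofFn_succ, List.ofFn_succ, List.prod_cons, List.prod_cons,
      List.prod_cons, ← ih', star_mul]
    have hc : star (y 0) * y' 0 ∈ F.C (i 0) :=
      mul_mem (star_mem (hy 0)) (hy' 0)
    have hcomm : Commute (star (y 0) * y' 0) (star (List.ofFn fun r : Fin s => y r.succ).prod) := by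
      refine commute_star_comm.1 ?_
      refine Commute.list_prod_right _ _ fun z hz => ?_
      obtain ⟨r, rfl⟩ := List.mem_ofFn.1 hz
      exact F.comm _ _ (fun h => Fin.succ_ne_zero r (hi h).symm) _
        (star_mem hc) _ (hy r.succ)
    calc star (List.ofFn fun r : Fin s => y r.succ).prod * star (y 0) *
          (y' 0 * (List.ofFn fun r : Fin s => y' r.succ).prod)
        = star (List.ofFn fun r : Fin s => y r.succ).prod * (star (y 0) * y' 0) *
          (List.ofFn fun r : Fin s => y' r.succ).prod := by simp only [mul_assoc]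
      _ = (star (y 0) * y' 0) * star (List.ofFn fun r : Fin s => y r.succ).prod *
          (List.ofFn fun r : Fin s => y' r.succ).prod := by rw [hcomm.eq]
      _ = _ := by simp only [mul_assoc]

/-- one leaf of the tree -/
noncomputable def ul {D : Type u} [CStarAlgebra D] {q n : ℕ} {ε : ℝ} (F : Fam q n ε D) {s : ℕ}
    (code : Fin n → Fin (s + 1) → Fin (q + 1)) (ℓ : Fin (s + 1) → Fin n) : D :=
  (List.ofFn (fun r : Fin (s + 1) => (F.β (node (pre ℓ r))).b (code (ℓ (Fin.last s)) r)
    * (F.β (node (pre ℓ r))).x (ℓ r))).prod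

private theorem ul_pre_injective {s n : ℕ} (ℓ : Fin (s + 1) → Fin n) :
    Function.Injective (fun r : Fin (s + 1) => node (pre ℓ r)) := by
  intro a b h
  have h1 : pre ℓ a = pre ℓ b := Encodable.encode_injective h
  have h2 := congrArg List.length h1
  unfold pre at h2
  rw [List.length_take, List.length_take, List.length_ofFn] at h2
  exact Fin.ext (by have := a.2; have := b.2; omega)

/-- U1. -/
theorem ul_diag {D : Type u} [CStarAlgebra D] {q n : ℕ} {ε : ℝ} (F : Fam q n ε D) {s : ℕ}
    (code : Fin n → Fin (s + 1) → Fin (q + 1)) :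
    ∑ ℓ : Fin (s + 1) → Fin n, star (ul F code ℓ) * ul F code ℓ = 1 := by
  rw [← tree_sum (s + 1) n (fun p j => star ((F.β (node p)).x j) *
    (star ((F.β (node p)).b 0) * (F.β (node p)).b 0) * (F.β (node p)).x j)
    (fun p => (F.β (node p)).xsum)]
  refine Finset.sum_congr rfl fun ℓ _ => ?_
  unfold ul
  rw [star_prod_mul F (fun r : Fin (s + 1) => node (pre ℓ r)) (ul_pre_injective ℓ) _ _
    (fun r => mul_mem (F.bmem _ _) (F.xmem _ _))
    (fun r => mul_mem (F.bmem _ _) (F.xmem _ _))]
  refine congrArg (fun g => (List.ofFn g).prod) (funext fun r => ?_)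
  rw [← (F.β (node (pre ℓ r))).bsame (code (ℓ (Fin.last s)) r), star_mul]
  simp only [mul_assoc]

theorem uloff_len {s n : ℕ} (ℓ : Fin s → Fin n) {r : ℕ} (hr : r ≤ s) : (pre ℓ r).length = r := by
  unfold pre
  rw [List.length_take, List.length_ofFn]
  omega

theorem uloff_pre_last {s n : ℕ} (ℓ : Fin (s + 1) → Fin n) :
    pre ℓ s = List.ofFn (fun i : Fin s => ℓ i.castSucc) := by
  unfold pre
  rw [List.ofFn_succ', List.concat_eq_append, List.take_left' (by simp)]

theorem uloff_pre_of {s n : ℕ} {ℓ ℓ' : Fin (s + 1) → Fin n} (h : pre ℓ s = pre ℓ' s) {r : ℕ}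
    (hr : r ≤ s) : pre ℓ r = pre ℓ' r := by
  have e : ∀ ℓ : Fin (s + 1) → Fin n, pre ℓ r = (pre ℓ s).take r := by
    intro ℓ
    unfold pre
    rw [List.take_take, min_eq_left hr]
  rw [e, e, h]

theorem uloff_node {n : ℕ} {p p' : List (Fin n)} (h : node p = node p') : p = p' :=
  Encodable.encode_injective h

/-- U2.  Same prefix of length `s`: the codes differ at some place, `borth`. Different prefix of
length `s`: `ul F code ℓ = K_p * ul F code ℓ` for the last node `p = pre ℓ s` (`Blk.Kb`), and `K_p`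
commutes with `ul F code ℓ'`, `K_p * w = 0`. -/
theorem ul_off {D : Type u} [CStarAlgebra D] {q n : ℕ} {ε : ℝ} (F : Fam q n ε D) {s : ℕ}
    (code : Fin n → Fin (s + 1) → Fin (q + 1)) (hc : Function.Injective code) (w : D)
    (hK : ∀ p : List (Fin n), p ≠ [] → p.length ≤ s → (F.β (node p)).K * w = 0)
    (ℓ ℓ' : Fin (s + 1) → Fin n) (h : ℓ ≠ ℓ') (h0 : ∀ j, code j 0 = 0) :
    star (ul F code ℓ) * (ul F code ℓ' * w) = 0 := by
  have hmem : ∀ (p : List (Fin n)) (a : Fin (q + 1)) (c : Fin n),
      (F.β (node p)).b a * (F.β (node p)).x c ∈ F.C (node p) := fun p a c =>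
    mul_mem (F.bmem _ _) (F.xmem _ _)
  by_cases hp : pre ℓ s = pre ℓ' s
  · have hlast : ℓ (Fin.last s) ≠ ℓ' (Fin.last s) := by
      intro hcon
      apply h
      rw [uloff_pre_last, uloff_pre_last] at hp
      have h1 := List.ofFn_injective hp
      funext i
      refine Fin.lastCases ?_ (fun j => ?_) i
      · exact hcon
      · exact congrFun h1 j
    obtain ⟨r, hr⟩ := Function.ne_iff.mp (fun h1 => hlast (hc h1))
    rw [← mul_assoc]
    have hz : star (ul F code ℓ) * ul F code ℓ' = 0 := by
      unfold ul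
      have hi : Function.Injective (fun r : Fin (s + 1) => node (pre ℓ r)) := by
        intro a b hab
        have h2 := congrArg List.length (uloff_node hab)
        rw [uloff_len ℓ a.2.le, uloff_len ℓ b.2.le] at h2
        exact Fin.ext h2
      rw [star_prod_mul F (fun r : Fin (s + 1) => node (pre ℓ r)) hi _ _
        (fun r => hmem _ _ _) (fun r => by
          rw [← uloff_pre_of hp (Nat.lt_succ_iff.mp r.2)]; exact hmem _ _ _)]
      apply List.prod_eq_zero
      rw [List.mem_ofFn]
      refine ⟨r, ?_⟩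
      rw [← uloff_pre_of hp (Nat.lt_succ_iff.mp r.2)]
      rw [star_mul, mul_assoc, ← mul_assoc (star _) _ ((F.β (node (pre ℓ r))).x (ℓ' r)),
        (F.β (node (pre ℓ r))).borth _ _ hr, zero_mul, mul_zero]
    rw [hz, zero_mul]
  · -- different last nodes
    have hs : s ≠ 0 := by
      rintro rfl
      exact hp (by simp [pre])
    have hne : pre ℓ s ≠ [] := by
      intro hcon
      have := uloff_len ℓ (Nat.le_succ s)
      rw [hcon] at this
      exact hs this.symm
    have hKw := hK (pre ℓ s) hne (uloff_len ℓ (Nat.le_succ s)).le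
    set K := (F.β (node (pre ℓ s))).K with hKdef
    have hKmem : K ∈ F.C (node (pre ℓ s)) := F.Kmem _
    have hKsa : star K = K := (F.β (node (pre ℓ s))).Ksa
    have h1 : K * ul F code ℓ = ul F code ℓ := by
      unfold ul
      rw [List.ofFn_succ', List.prod_concat]
      have hcomm : Commute K (List.ofFn fun i : Fin s =>
          (F.β (node (pre ℓ (i.castSucc : Fin (s + 1))))).b
              (code (ℓ (Fin.last s)) i.castSucc) *
            (F.β (node (pre ℓ (i.castSucc : Fin (s + 1))))).x (ℓ i.castSucc)).prod := by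
        apply Commute.list_prod_right
        intro z hz
        rw [List.mem_ofFn] at hz
        obtain ⟨i, rfl⟩ := hz
        refine F.comm _ _ ?_ _ hKmem _ (hmem _ _ _)
        intro hcon
        have h2 := congrArg List.length (uloff_node hcon)
        rw [uloff_len ℓ (Nat.le_succ s), uloff_len ℓ (i.castSucc).2.le] at h2
        have := i.2
        simp only [Fin.val_castSucc] at h2
        omega
      rw [← mul_assoc, hcomm.eq, mul_assoc]
      congr 1
      rw [← mul_assoc]
      congr 1
      exact (F.β (node (pre ℓ s))).Kb _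
    have h2 : Commute K (ul F code ℓ') := by
      unfold ul
      apply Commute.list_prod_right
      intro z hz
      rw [List.mem_ofFn] at hz
      obtain ⟨i, rfl⟩ := hz
      refine F.comm _ _ ?_ _ hKmem _ (hmem _ _ _)
      intro hcon
      have h3 := uloff_node hcon
      have h4 := congrArg List.length h3
      rw [uloff_len ℓ (Nat.le_succ s), uloff_len ℓ' i.2.le] at h4
      rw [← h4] at h3
      exact hp h3
    have h3 : star (ul F code ℓ) = star (ul F code ℓ) * K := by
      conv_lhs => rw [← h1]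
      rw [star_mul, hKsa]
    rw [h3, mul_assoc, ← mul_assoc K, h2.eq, mul_assoc, hKw, mul_zero, mul_zero]

/-- VSUM. -/
theorem v_sum {D : Type u} [CStarAlgebra D] {q n : ℕ} {ε : ℝ} (F : Fam q n ε D) {s : ℕ}
    (code : Fin n → Fin (s + 1) → Fin (q + 1)) (hc : Function.Injective code)
    (h0 : ∀ j, code j 0 = 0) (w : D) (hw : star w = w)
    (hK : ∀ p : List (Fin n), p ≠ [] → p.length ≤ s → (F.β (node p)).K * w = 0) :
    star ((∑ ℓ, ul F code ℓ) * w) * ((∑ ℓ, ul F code ℓ) * w) = w * w := by
  have e1 : star ((∑ ℓ, ul F code ℓ) * w) * ((∑ ℓ, ul F code ℓ) * w)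
      = w * ∑ ℓ, ∑ ℓ', star (ul F code ℓ) * (ul F code ℓ' * w) := by
    rw [star_mul, hw, star_sum, mul_assoc, Finset.sum_mul, Finset.sum_mul]
    congr 1
    refine Finset.sum_congr rfl fun ℓ _ => ?_
    rw [Finset.mul_sum]
  rw [e1]
  have e2 : ∀ ℓ, ∑ ℓ', star (ul F code ℓ) * (ul F code ℓ' * w)
      = star (ul F code ℓ) * ul F code ℓ * w := by
    intro ℓ
    rw [Finset.sum_eq_single ℓ]
    · rw [mul_assoc]
    · intro ℓ' _ hne
      exact ul_off F code hc w hK ℓ ℓ' (Ne.symm hne) h0
    · intro h
      exact absurd (Finset.mem_univ _) h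
  rw [Finset.sum_congr rfl fun ℓ _ => e2 ℓ, ← Finset.sum_mul, ul_diag F code, one_mul]

end Vale.Agent.P101K
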