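import Vale.Agent.P101K.JList
import Vale.Agent.P101K.Tree

namespace Vale.Agent.P101K

universe u

variable {D : Type u} [CStarAlgebra D] [PartialOrder D] [StarOrderedRing D]

/-- the children nodes -/
noncomputable def kids (n s : ℕ) : List ℕ :=
  ((Finset.range (s + 1)).biUnion fun r => (Finset.univ : Finset (Fin r → Fin n)).image
    (fun ℓ => node (List.ofFn ℓ))).toList.filter (fun i => i ≠ node ([] : List (Fin n)))

/-- KIDS. -/
theorem kids_spec (n s : ℕ) : (kids n s).Nodup ∧ node ([] : List (Fin n)) ∉ kids n s ∧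
    ∀ p : List (Fin n), p ≠ [] → p.length ≤ s → node p ∈ kids n s := by
  unfold kids
  refine ⟨(Finset.nodup_toList _).filter _, ?_, ?_⟩
  · intro h
    have h1 := (List.mem_filter.1 h).2
    simp at h1
  · intro p hp hps
    refine List.mem_filter.2 ⟨Finset.mem_toList.2 (Finset.mem_biUnion.2 ⟨p.length,
      Finset.mem_range.2 (by omega), Finset.mem_image.2 ⟨p.get, Finset.mem_univ _, ?_⟩⟩), ?_⟩
    · rw [List.ofFn_get]
    · have h1 : node p ≠ node ([] : List (Fin n)) := fun h => hp (Encodable.encode_injective h)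
      simpa using h1

/-- the join of the kids, cut down by `1 - K` of the root -/
noncomputable def side {q n : ℕ} {ε : ℝ} (F : Fam q n ε D) (s : ℕ) :
    Matrix (Fin (q + 1)) (Fin (q + 1)) ℂ →ₗ[ℂ] D :=
  (LinearMap.mulLeft ℂ (1 - (F.β (node ([] : List (Fin n)))).K)).comp
    (Jlist ε ((kids n s).map fun i => (F.β i).φ))

/-- the final map -/
noncomputable def Phi {q n : ℕ} {ε : ℝ} (F : Fam q n ε D) (s : ℕ) :
    Matrix (Fin (q + 1)) (Fin (q + 1)) ℂ →ₗ[ℂ] D :=
  nrm ε (Jmap (F.β (node ([] : List (Fin n)))).φ (side F s))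

private theorem root_comm {q n : ℕ} {ε : ℝ} (F : Fam q n ε D) (hε : 0 < ε) (hε1 : ε ≤ 1) (s : ℕ)
    (c : D) (hc : c ∈ F.C (node ([] : List (Fin n)))) (x : Matrix (Fin (q + 1)) (Fin (q + 1)) ℂ) :
    Commute c (Jlist ε ((kids n s).map fun i => (F.β i).φ) x) := by
  refine (jlist_spec F hε hε1 (kids n s) (kids_spec n s).1).2.2.1 c (fun i hi x => ?_) x
  have hne : node ([] : List (Fin n)) ≠ i := fun h => (kids_spec n s).2.1 (h ▸ hi)
  exact ⟨F.comm _ _ hne _ hc _ (F.φmem _ _), F.comm _ _ hne _ (star_mem hc) _ (F.φmem _ _)⟩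

private theorem root_side_apply {q n : ℕ} {ε : ℝ} (F : Fam q n ε D) (s : ℕ)
    (x : Matrix (Fin (q + 1)) (Fin (q + 1)) ℂ) :
    side F s x = (1 - (F.β (node ([] : List (Fin n)))).K)
      * Jlist ε ((kids n s).map fun i => (F.β i).φ) x := rfl

private theorem root_Kcomm {q n : ℕ} {ε : ℝ} (F : Fam q n ε D) (hε : 0 < ε) (hε1 : ε ≤ 1) (s : ℕ)
    (x : Matrix (Fin (q + 1)) (Fin (q + 1)) ℂ) :
    Commute (1 - (F.β (node ([] : List (Fin n)))).K)
      (Jlist ε ((kids n s).map fun i => (F.β i).φ) x) :=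
  (Commute.one_left _).sub_left (root_comm F hε hε1 s _ (F.Kmem _) x)

/-- SIDE.  `1 - K` commutes with the join of the kids (`jlist_spec`, third part), is self-adjoint. -/
theorem side_spec {q n : ℕ} {ε : ℝ} (F : Fam q n ε D) (hε : 0 < ε) (hε1 : ε ≤ 1) (s : ℕ) :
    IsOZ (side F s) ∧ (∀ x y, Commute ((F.β (node ([] : List (Fin n)))).φ x) (side F s y)) ∧
    side F s 1 = (1 - (F.β (node ([] : List (Fin n)))).K)
      * Jlist ε ((kids n s).map fun i => (F.β i).φ) 1 := by
  have hT := (jlist_spec F hε hε1 (kids n s) (kids_spec n s).1).1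
  refine ⟨⟨?_, ?_⟩, ?_, rfl⟩
  · intro x
    rw [root_side_apply, root_side_apply, star_mul, hT.star', star_sub, star_one,
      (F.β _).Ksa, ← hT.star']
    exact (root_Kcomm F hε hε1 s _).eq
  · intro x y
    rw [root_side_apply, root_side_apply, root_side_apply, root_side_apply]
    rw [mul_assoc, ← mul_assoc (Jlist _ _ x), ← (root_Kcomm F hε hε1 s x).eq, mul_assoc,
      mul_assoc _ (Jlist _ _ 1), ← mul_assoc (Jlist _ _ 1), ← (root_Kcomm F hε hε1 s 1).eq,
      mul_assoc, hT.mul']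
  · intro x y
    rw [root_side_apply]
    refine Commute.mul_right ((Commute.one_right _).sub_right ?_)
      (root_comm F hε hε1 s _ (F.φmem _ _) y)
    exact ((F.β (node ([] : List (Fin n)))).Kcomm x).symm

private theorem root_sa {ι : Type} [Fintype ι] [DecidableEq ι] {φ : Matrix ι ι ℂ →ₗ[ℂ] D}
    (h : IsOZ φ) : star (φ 1) = φ 1 := by
  have h1 := h.star' 1
  rw [Matrix.conjTranspose_one] at h1
  exact h1.symm

private theorem root_S {q n : ℕ} {ε : ℝ} (F : Fam q n ε D) (hε : 0 < ε) (hε1 : ε ≤ 1) (s : ℕ) :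
    Jmap (F.β (node ([] : List (Fin n)))).φ (side F s) 1
      = (F.β (node ([] : List (Fin n)))).φ 1 * (F.β (node ([] : List (Fin n)))).φ 1
        + side F s 1 * side F s 1 :=
  jmap_one _ _ (F.β _).oz (side_spec F hε hε1 s).1 (side_spec F hε hε1 s).2.1

private theorem root_S_nonneg {q n : ℕ} {ε : ℝ} (F : Fam q n ε D) (hε : 0 < ε) (hε1 : ε ≤ 1)
    (s : ℕ) : 0 ≤ Jmap (F.β (node ([] : List (Fin n)))).φ (side F s) 1 := by
  rw [root_S F hε hε1 s]
  refine add_nonneg ?_ ?_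
  · have h := star_mul_self_nonneg ((F.β (node ([] : List (Fin n)))).φ 1)
    rwa [root_sa (F.β _).oz] at h
  · have h := star_mul_self_nonneg (side F s 1)
    rwa [root_sa (side_spec F hε hε1 s).1] at h

/-- PHI1. -/
theorem phi_spec {q n : ℕ} {ε : ℝ} (F : Fam q n ε D) (hε : 0 < ε) (hε1 : ε ≤ 1) (s : ℕ) :
    IsOZ (Phi F s) ∧ 0 ≤ Phi F s 1 ∧ Phi F s 1 ≤ 1 := by
  refine ⟨nrm_isOZ ε hε _ (jmap_isOZ _ _ (F.β _).oz (side_spec F hε hε1 s).1
    (side_spec F hε hε1 s).2.1) (root_S_nonneg F hε hε1 s), ?_⟩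
  exact nrm_bounds ε hε _ (root_S_nonneg F hε hε1 s)

/-- PHI2.  `K_p (1 - Φ 1) = 0` for the kids `p`: `S = Jmap .. 1 = h² + (1-K)² t²`, `K_p t = K_p`,
so `K_p S - ε K_p = K_p (h² + (1-K)² - ε) ≥ 0` (`Blk.root`), `lemE`, `one_sub_nrm`. -/
theorem phi_kid {q n : ℕ} {ε : ℝ} (F : Fam q n ε D) (hε : 0 < ε) (hε1 : ε ≤ 1) (s : ℕ)
    (p : List (Fin n)) (hp : p ≠ []) (hps : p.length ≤ s) :
    (F.β (node p)).K * (1 - Phi F s 1) = 0 := by
  have hmem : node p ∈ kids n s := (kids_spec n s).2.2 p hp hps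
  have hJ := jlist_spec F hε hε1 (kids n s) (kids_spec n s).1
  have hne : node p ≠ node ([] : List (Fin n)) := fun h => hp (Encodable.encode_injective h)
  -- abbreviations
  set B := F.β (node ([] : List (Fin n))) with hB
  set P := F.β (node p) with hP
  set t := Jlist ε ((kids n s).map fun i => (F.β i).φ) 1 with ht
  have hPt : P.K * t = P.K := hJ.2.2.2 _ hmem
  have hKt : Commute P.K t := by
    refine hJ.2.2.1 P.K (fun i hi x => ?_) 1
    have h1 : Commute P.K ((F.β i).φ x) := by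
      by_cases hip : i = node p
      · subst hip
        exact P.Kcomm x
      · exact F.comm _ _ (Ne.symm hip) _ (F.Kmem _) _ (F.φmem _ _)
    refine ⟨h1, ?_⟩
    rw [P.Ksa]
    exact h1
  have hKh : Commute P.K (B.φ 1) := F.comm _ _ hne _ (F.Kmem _) _ (F.φmem _ _)
  have hKK : Commute P.K (1 - B.K) :=
    (Commute.one_right _).sub_right (F.comm _ _ hne _ (F.Kmem _) _ (F.Kmem _))
  have hBt : Commute (1 - B.K) t := root_Kcomm F hε hε1 s 1
  have hside : side F s 1 = (1 - B.K) * t := rfl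
  have hS : Jmap B.φ (side F s) 1 = B.φ 1 * B.φ 1 + ((1 - B.K) * t) * ((1 - B.K) * t) := by
    rw [← hside]
    exact root_S F hε hε1 s
  have hcSK : Commute (Jmap B.φ (side F s) 1) P.K := by
    rw [hS]
    exact (Commute.add_right (hKh.mul_right hKh)
      ((hKK.mul_right hKt).mul_right (hKK.mul_right hKt))).symm
  have hKS : P.K * Jmap B.φ (side F s) 1 = P.K * (B.φ 1 * B.φ 1 + (1 - B.K) * (1 - B.K)) := by
    rw [hS, mul_add, mul_add]
    congr 1
    calc P.K * ((1 - B.K) * t * ((1 - B.K) * t))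
        = P.K * ((1 - B.K) * (t * (1 - B.K)) * t) := by simp only [mul_assoc]
      _ = P.K * ((1 - B.K) * ((1 - B.K) * t) * t) := by rw [hBt.eq]
      _ = (P.K * ((1 - B.K) * (1 - B.K))) * t * t := by simp only [mul_assoc]
      _ = ((1 - B.K) * (1 - B.K) * P.K) * t * t := by rw [(hKK.mul_right hKK).eq]
      _ = (1 - B.K) * (1 - B.K) * (P.K * t * t) := by simp only [mul_assoc]
      _ = (1 - B.K) * (1 - B.K) * P.K := by rw [hPt, hPt]
      _ = P.K * ((1 - B.K) * (1 - B.K)) := by rw [(hKK.mul_right hKK).eq]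
  have hpos : 0 ≤ P.K * Jmap B.φ (side F s) 1 - (ε : ℂ) • P.K := by
    have e1 : P.K * Jmap B.φ (side F s) 1 - (ε : ℂ) • P.K
        = P.K * (star B.r2 * B.r2) := by
      rw [hKS, ← B.root, mul_sub P.K, mul_smul_comm, mul_one P.K]
    have hk1 : Commute P.k1 B.r2 := F.comm _ _ hne _ (F.k1mem _) _ (F.r2mem _)
    have hk2 : Commute P.K (star B.r2) :=
      F.comm _ _ hne _ (F.Kmem _) _ (star_mem (F.r2mem _))
    have e2 : P.K * (star B.r2 * B.r2) = star (P.k1 * B.r2) * (P.k1 * B.r2) := by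
      rw [star_mul, mul_assoc (star B.r2), ← mul_assoc (star P.k1), ← P.Kpos, ← mul_assoc,
        hk2.eq, mul_assoc]
    rw [e1, e2]
    exact star_mul_self_nonneg _
  have hKpos : 0 ≤ P.K := by
    rw [P.Kpos]
    exact star_mul_self_nonneg _
  have h0 := lemE ε hε _ P.K (root_S_nonneg F hε hε1 s) hKpos hcSK hpos
  rw [← one_sub_nrm ε hε _ (root_S_nonneg F hε hε1 s)] at h0
  have h1 := congrArg star h0
  rw [star_mul, P.Ksa, star_sub, star_one, star_zero] at h1
  change P.K * (1 - star (Phi F s 1)) = 0 at h1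
  rwa [root_sa (phi_spec F hε hε1 s).1] at h1

/-- PHI3.  `Φ e00 b0 = b0`, `b0` of the root. `Jmap φ side x * b0 = h φ x b0` because
`side y * b0 = (1-K) .. b0 = .. (1-K) b0 = 0`; `φ e00 b0 = h b0`; so `Jmap e00 b0 = h² b0 = S b0`,
`Φ e00 b0 = g(S) S b0 = b0 - (1 - Φ 1) b0` and `(1 - Φ 1) K = 0` by `lemE`
(`K S - ε K = K (h² - ε) + K (1-K)² t² ≥ 0`), `K b0 = b0`. -/
theorem phi_root {q n : ℕ} {ε : ℝ} (F : Fam q n ε D) (hε : 0 < ε) (hε1 : ε ≤ 1) (s : ℕ) :
    Phi F s (eu 0 0) * (F.β (node ([] : List (Fin n)))).b 0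
      = (F.β (node ([] : List (Fin n)))).b 0 := by
  set B := F.β (node ([] : List (Fin n))) with hB
  have hsb : ∀ y, side F s y * B.b 0 = 0 := by
    intro y
    rw [root_side_apply, (root_Kcomm F hε hε1 s y).eq, mul_assoc, sub_mul, one_mul, B.Kb, sub_self,
      mul_zero]
  have hJx : ∀ x, Jmap B.φ (side F s) x * B.b 0 = B.φ 1 * (B.φ x * B.b 0) := by
    intro x
    unfold Jmap
    simp only [LinearMap.add_apply, LinearMap.comp_apply, LinearMap.mulLeft_apply,
      LinearMap.smul_apply, LinearMap.sum_apply, LinearMap.sub_apply, LinearMap.mulRight_apply,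
      add_mul, smul_mul_assoc, Finset.sum_mul, sub_mul, mul_assoc, hsb, mul_zero, sub_self,
      Finset.sum_const_zero, smul_zero, add_zero]
  have hside : IsOZ (side F s) := (side_spec F hε hε1 s).1
  have hS := root_S F hε hε1 s
  rw [← hB] at hS
  have hSn := root_S_nonneg F hε hε1 s
  rw [← hB] at hSn
  have hKs : Commute B.K (side F s 1) := by
    rw [root_side_apply]
    exact ((Commute.one_right _).sub_right (Commute.refl _)).mul_right
      (root_comm F hε hε1 s _ (F.Kmem _) 1)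
  have hKh : Commute B.K (B.φ 1) := B.Kcomm 1
  have hcSK : Commute (Jmap B.φ (side F s) 1) B.K := by
    rw [hS]
    exact (Commute.add_right (hKh.mul_right hKh) (hKs.mul_right hKs)).symm
  have hpos : 0 ≤ B.K * Jmap B.φ (side F s) 1 - (ε : ℂ) • B.K := by
    have e1 : B.K * Jmap B.φ (side F s) 1 - (ε : ℂ) • B.K
        = star B.r1 * B.r1 + star (B.k1 * side F s 1) * (B.k1 * side F s 1) := by
      rw [← B.Kh, hS, star_mul, root_sa hside, mul_assoc (side F s 1), ← mul_assoc (star B.k1),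
        ← B.Kpos, ← mul_assoc (side F s 1), ← hKs.eq, mul_add]
      simp only [mul_assoc]
      abel
    rw [e1]
    exact add_nonneg (star_mul_self_nonneg _) (star_mul_self_nonneg _)
  have hKpos : 0 ≤ B.K := by
    rw [B.Kpos]
    exact star_mul_self_nonneg _
  have h0 := lemE ε hε _ B.K hSn hKpos hcSK hpos
  rw [← one_sub_nrm ε hε _ hSn] at h0
  have h2 : (1 - Phi F s 1) * B.b 0 = 0 := by
    rw [← B.Kb 0, ← mul_assoc]
    change (1 - nrm ε (Jmap B.φ (side F s)) 1) * B.K * B.b 0 = 0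
    rw [h0, zero_mul]
  have h3 : Phi F s (eu 0 0) * B.b 0 = Phi F s 1 * B.b 0 := by
    change cfc (fun t : ℝ => (max ε t)⁻¹) (Jmap B.φ (side F s) 1) * Jmap B.φ (side F s) (eu 0 0) *
      B.b 0 = cfc (fun t : ℝ => (max ε t)⁻¹) (Jmap B.φ (side F s) 1) * Jmap B.φ (side F s) 1 *
      B.b 0
    rw [mul_assoc, mul_assoc, hJx, hJx, B.rootb]
  rw [h3]
  rw [sub_mul, one_mul, sub_eq_zero] at h2
  exact h2.symm

end Vale.Agent.P101K
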