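import Vale.Agent.P101K.Ev

namespace Vale.Agent.P101K

open Matrix

universe u

variable {ι : Type} [Fintype ι] [DecidableEq ι] {D : Type u}

/-- the functions that are constant near `0` and near `1`, with value in `Π(M_ι)` at `0` and in
`1 ⊗ M_(Option ι)` at `1` -/
def scnSet (ι : Type) [Fintype ι] [DecidableEq ι] : Set (CM ι) :=
  {F | (∃ δ : ℝ, 0 < δ ∧ (∀ t : unitInterval, (t : ℝ) ≤ δ → F t = F 0) ∧
    ∀ t : unitInterval, 1 - δ ≤ (t : ℝ) → F t = F 1) ∧ (∃ x, F 0 = Pim x) ∧ ∃ y, F 1 = rt1 y}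

theorem scn_wsw_wsw (p : ι × Option ι) : wsw (wsw p) = p := by
  obtain ⟨a, _ | j⟩ := p <;> rfl

theorem scn_rt1_eq (y : Matrix (Option ι) (Option ι) ℂ) :
    (rt1 y : Matrix (ι × Option ι) (ι × Option ι) ℂ) =
      Matrix.kroneckerMap (fun a b => a * b) (1 : Matrix ι ι ℂ) y := by
  ext p r
  simp only [rt1, Matrix.of_apply, Matrix.kroneckerMap_apply, Matrix.one_apply, ite_mul, one_mul,
    zero_mul]

theorem scn_lt1_eq (x : Matrix ι ι ℂ) :
    lt1 x = Matrix.kroneckerMap (fun a b => a * b) x (1 : Matrix (Option ι) (Option ι) ℂ) := by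
  ext p r
  simp only [lt1, Matrix.of_apply, Matrix.kroneckerMap_apply, Matrix.one_apply, mul_ite, mul_one,
    mul_zero]

theorem scn_rt1_mul (y z : Matrix (Option ι) (Option ι) ℂ) :
    (rt1 (y * z) : Matrix (ι × Option ι) (ι × Option ι) ℂ) = rt1 y * rt1 z := by
  rw [scn_rt1_eq, scn_rt1_eq, scn_rt1_eq]
  have h := Matrix.mul_kronecker_mul (1 : Matrix ι ι ℂ) (1 : Matrix ι ι ℂ) y z
  rw [one_mul] at h
  exact h

theorem scn_rt1_one : (rt1 1 : Matrix (ι × Option ι) (ι × Option ι) ℂ) = 1 := by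
  rw [scn_rt1_eq]
  exact Matrix.one_kronecker_one

theorem scn_rt1_add (y z : Matrix (Option ι) (Option ι) ℂ) :
    (rt1 (y + z) : Matrix (ι × Option ι) (ι × Option ι) ℂ) = rt1 y + rt1 z := by
  ext p r
  simp only [rt1, Matrix.of_apply, Matrix.add_apply]
  split_ifs
  · rfl
  · rw [add_zero]

theorem scn_rt1_smul (c : ℂ) (y : Matrix (Option ι) (Option ι) ℂ) :
    (rt1 (c • y) : Matrix (ι × Option ι) (ι × Option ι) ℂ) = c • rt1 y := by
  ext p r
  simp only [rt1, Matrix.of_apply, Matrix.smul_apply]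
  split_ifs
  · rfl
  · rw [smul_zero]

theorem scn_rt1_star (y : Matrix (Option ι) (Option ι) ℂ) :
    (rt1 yᴴ : Matrix (ι × Option ι) (ι × Option ι) ℂ) = (rt1 y)ᴴ := by
  ext p r
  simp only [rt1, Matrix.of_apply, Matrix.conjTranspose_apply]
  by_cases h : p.1 = r.1
  · rw [if_pos h, if_pos h.symm]
  · rw [if_neg h, if_neg (Ne.symm h), star_zero]

theorem scn_lt1_mul (x y : Matrix ι ι ℂ) : lt1 (x * y) = lt1 x * lt1 y := by
  rw [scn_lt1_eq, scn_lt1_eq, scn_lt1_eq]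
  have h := Matrix.mul_kronecker_mul x y (1 : Matrix (Option ι) (Option ι) ℂ)
    (1 : Matrix (Option ι) (Option ι) ℂ)
  rw [one_mul] at h
  exact h

theorem scn_lt1_one : lt1 (1 : Matrix ι ι ℂ) = 1 := by
  rw [scn_lt1_eq]
  exact Matrix.one_kronecker_one

theorem scn_Pim_mul (x y : Matrix ι ι ℂ) : Pim (x * y) = Pim x * Pim y := by
  ext p r
  have h1 : (Pim x * Pim y) p r = ∑ q, lt1 x (wsw p) (wsw q) * lt1 y (wsw q) (wsw r) := rfl
  have h2 : Pim (x * y) p r = ∑ q, lt1 x (wsw p) q * lt1 y q (wsw r) := by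
    change lt1 (x * y) (wsw p) (wsw r) = _
    rw [scn_lt1_mul]
    rfl
  rw [h1, h2]
  exact (Equiv.sum_comp (Function.Involutive.toPerm wsw scn_wsw_wsw)
    (fun q => lt1 x (wsw p) q * lt1 y q (wsw r))).symm

theorem scn_Pim_one : Pim (1 : Matrix ι ι ℂ) = 1 := by
  ext p r
  change lt1 1 (wsw p) (wsw r) = _
  rw [scn_lt1_one, Matrix.one_apply, Matrix.one_apply]
  by_cases h : p = r
  · rw [h, if_pos rfl, if_pos rfl]
  · rw [if_neg h, if_neg]
    intro h1
    apply h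
    rw [← scn_wsw_wsw p, h1, scn_wsw_wsw]

theorem scn_Pim_add (x y : Matrix ι ι ℂ) : Pim (x + y) = Pim x + Pim y := by
  ext p r
  simp only [Pim, lt1, Matrix.of_apply, Matrix.add_apply]
  split_ifs
  · rfl
  · rw [add_zero]

theorem scn_Pim_smul (c : ℂ) (x : Matrix ι ι ℂ) : Pim (c • x) = c • Pim x := by
  ext p r
  simp only [Pim, lt1, Matrix.of_apply, Matrix.smul_apply]
  split_ifs
  · rfl
  · rw [smul_zero]

theorem scn_Pim_star (x : Matrix ι ι ℂ) : Pim xᴴ = (Pim x)ᴴ := by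
  ext p r
  simp only [Pim, lt1, Matrix.of_apply, Matrix.conjTranspose_apply]
  by_cases h : (wsw p).2 = (wsw r).2
  · rw [if_pos h, if_pos h.symm]
  · rw [if_neg h, if_neg (Ne.symm h), star_zero]

/-- SCN.  It is a star subalgebra (`Pim`, `rt1` are injective unital star algebra maps). -/
theorem exists_scn (ι : Type) [Fintype ι] [DecidableEq ι] :
    ∃ B : StarSubalgebra ℂ (CM ι), (B : Set (CM ι)) = scnSet ι := by
  have hmul : ∀ {F G : CM ι}, F ∈ scnSet ι → G ∈ scnSet ι → F * G ∈ scnSet ι := by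
    rintro F G ⟨⟨δ, hδ, h1, h2⟩, ⟨x, hx⟩, y, hy⟩ ⟨⟨ε, hε, k1, k2⟩, ⟨z, hz⟩, w, hw⟩
    refine ⟨⟨min δ ε, lt_min hδ hε, fun t ht => ?_, fun t ht => ?_⟩, ⟨x * z, ?_⟩, y * w, ?_⟩
    · rw [ContinuousMap.mul_apply, ContinuousMap.mul_apply, h1 t (ht.trans (min_le_left _ _)),
        k1 t (ht.trans (min_le_right _ _))]
    · rw [ContinuousMap.mul_apply, ContinuousMap.mul_apply,
        h2 t (le_trans (sub_le_sub_left (min_le_left _ _) _) ht),
        k2 t (le_trans (sub_le_sub_left (min_le_right _ _) _) ht)]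
    · rw [ContinuousMap.mul_apply, hx, hz, scn_Pim_mul]
    · rw [ContinuousMap.mul_apply, hy, hw, scn_rt1_mul]
  have hadd : ∀ {F G : CM ι}, F ∈ scnSet ι → G ∈ scnSet ι → F + G ∈ scnSet ι := by
    rintro F G ⟨⟨δ, hδ, h1, h2⟩, ⟨x, hx⟩, y, hy⟩ ⟨⟨ε, hε, k1, k2⟩, ⟨z, hz⟩, w, hw⟩
    refine ⟨⟨min δ ε, lt_min hδ hε, fun t ht => ?_, fun t ht => ?_⟩, ⟨x + z, ?_⟩, y + w, ?_⟩
    · rw [ContinuousMap.add_apply, ContinuousMap.add_apply, h1 t (ht.trans (min_le_left _ _)),
        k1 t (ht.trans (min_le_right _ _))]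
    · rw [ContinuousMap.add_apply, ContinuousMap.add_apply,
        h2 t (le_trans (sub_le_sub_left (min_le_left _ _) _) ht),
        k2 t (le_trans (sub_le_sub_left (min_le_right _ _) _) ht)]
    · rw [ContinuousMap.add_apply, hx, hz, scn_Pim_add]
    · rw [ContinuousMap.add_apply, hy, hw, scn_rt1_add]
  have halg : ∀ c : ℂ, algebraMap ℂ (CM ι) c ∈ scnSet ι := by
    intro c
    have h0 : ∀ t, algebraMap ℂ (CM ι) c t = c • 1 := by
      intro t
      rw [Algebra.algebraMap_eq_smul_one, ContinuousMap.smul_apply, ContinuousMap.one_apply]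
    refine ⟨⟨1, one_pos, fun t _ => ?_, fun t _ => ?_⟩, ⟨c • 1, ?_⟩, c • 1, ?_⟩
    · rw [h0, h0]
    · rw [h0, h0]
    · rw [h0, scn_Pim_smul, scn_Pim_one]
    · rw [h0, scn_rt1_smul, scn_rt1_one]
  have hstar : ∀ {F : CM ι}, F ∈ scnSet ι → star F ∈ scnSet ι := by
    rintro F ⟨⟨δ, hδ, h1, h2⟩, ⟨x, hx⟩, y, hy⟩
    refine ⟨⟨δ, hδ, fun t ht => ?_, fun t ht => ?_⟩, ⟨xᴴ, ?_⟩, yᴴ, ?_⟩
    · rw [ContinuousMap.star_apply, ContinuousMap.star_apply, h1 t ht]
    · rw [ContinuousMap.star_apply, ContinuousMap.star_apply, h2 t ht]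
    · rw [ContinuousMap.star_apply, hx, scn_Pim_star, Matrix.star_eq_conjTranspose]
    · rw [ContinuousMap.star_apply, hy, scn_rt1_star, Matrix.star_eq_conjTranspose]
  have hone : (1 : CM ι) ∈ scnSet ι := by
    have h := halg 1
    rwa [map_one] at h
  have hzero : (0 : CM ι) ∈ scnSet ι := by
    have h := halg 0
    rwa [map_zero] at h
  exact ⟨{ carrier := scnSet ι
           mul_mem' := hmul
           one_mem' := hone
           add_mem' := hadd
           zero_mem' := hzero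
           algebraMap_mem' := halg
           star_mem' := hstar }, rfl⟩

/-- `F = (1-t) Π(x) + t (1 ⊗ y) + t(1-t) X` -/
def Dec (F : CM ι) (x : Matrix ι ι ℂ) (y : Matrix (Option ι) (Option ι) ℂ) (X : CM ι) : Prop :=
  F = sm (1 - tt) (ContinuousMap.const _ (Pim x)) + sm tt (ContinuousMap.const _ (rt1 y))
    + sm ((1 - tt) * tt) X

private theorem dcc_iff (F : CM ι) (x : Matrix ι ι ℂ) (y : Matrix (Option ι) (Option ι) ℂ)
    (X : CM ι) : Dec F x y X ↔ ∀ t : unitInterval, F t = (1 - ((t : ℝ) : ℂ)) • Pim x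
      + ((t : ℝ) : ℂ) • rt1 y + ((1 - ((t : ℝ) : ℂ)) * ((t : ℝ) : ℂ)) • X t := by
  unfold Dec
  constructor
  · intro h t
    rw [h]
    rfl
  · intro h
    apply ContinuousMap.ext
    intro t
    rw [h t]
    rfl

private theorem dcc_wsw (p : ι × Option ι) : wsw (wsw p) = p := by
  rcases p with ⟨a, _ | j⟩ <;> rfl

private theorem dcc_lt1_mul (x x' : Matrix ι ι ℂ) : lt1 (x * x') = lt1 x * lt1 x' := by
  ext ⟨a, μ⟩ ⟨b, ν⟩
  simp only [lt1, Matrix.of_apply, Matrix.mul_apply, Fintype.sum_prod_type]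
  by_cases h : μ = ν
  · subst h
    simp
  · rw [if_neg h]
    symm
    apply Finset.sum_eq_zero
    intro c _
    apply Finset.sum_eq_zero
    intro κ _
    by_cases h1 : μ = κ
    · subst h1
      simp [h]
    · simp [h1]

private theorem dcc_rt1_mul (x x' : Matrix (Option ι) (Option ι) ℂ) :
    rt1 (x * x') = (rt1 x * rt1 x' : Matrix (ι × Option ι) (ι × Option ι) ℂ) := by
  ext ⟨a, μ⟩ ⟨b, ν⟩
  simp only [rt1, Matrix.of_apply, Matrix.mul_apply, Fintype.sum_prod_type]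
  by_cases h : a = b
  · subst h
    rw [if_pos rfl, Finset.sum_eq_single a]
    · simp
    · intro c _ hc
      apply Finset.sum_eq_zero
      intro κ _
      simp [Ne.symm hc]
    · simp
  · rw [if_neg h]
    symm
    apply Finset.sum_eq_zero
    intro c _
    apply Finset.sum_eq_zero
    intro κ _
    by_cases h1 : a = c
    · subst h1
      simp [h]
    · simp [h1]

private theorem dcc_Pim_mul (x x' : Matrix ι ι ℂ) : Pim (x * x') = Pim x * Pim x' := by
  ext p r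
  simp only [Pim, Matrix.of_apply, Matrix.mul_apply]
  rw [dcc_lt1_mul, Matrix.mul_apply]
  refine (Fintype.sum_equiv ⟨wsw, wsw, dcc_wsw, dcc_wsw⟩ _ _ ?_)
  intro q
  simp [dcc_wsw]

/-- DEC1.  Existence of the decomposition (`X = (F - (1-t)F(0) - tF(1))/(t(1-t))`, equal to
`(F 0 - F 1)/(1-t)` near `0` and to `(F 1 - F 0)/t` near `1`). -/
theorem dec_exists (F : CM ι) (hF : F ∈ scnSet ι) : ∃ x y X, Dec F x y X := by
  obtain ⟨⟨δ, hδ, h0, h1⟩, ⟨x, hx⟩, y, hy⟩ := hF
  have hm : ∀ s : ℝ, max s δ ≠ 0 := fun s => (lt_of_lt_of_le hδ (le_max_right _ _)).ne'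
  have c1 : Continuous fun t : unitInterval => (((max (t : ℝ) δ)⁻¹ : ℝ) : ℂ) := by
    apply Complex.continuous_ofReal.comp
    exact Continuous.inv₀ (by fun_prop) fun t => hm _
  have c2 : Continuous fun t : unitInterval => (((max (1 - (t : ℝ)) δ)⁻¹ : ℝ) : ℂ) := by
    apply Complex.continuous_ofReal.comp
    exact Continuous.inv₀ (by fun_prop) fun t => hm _
  refine ⟨x, y, ⟨fun t => (((max (t : ℝ) δ)⁻¹ : ℝ) : ℂ) • (F t - F 0)
    + (((max (1 - (t : ℝ)) δ)⁻¹ : ℝ) : ℂ) • (F t - F 1), ?_⟩, ?_⟩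
  · exact (c1.smul (F.continuous.sub continuous_const)).add
      (c2.smul (F.continuous.sub continuous_const))
  · rw [dcc_iff]
    intro t
    rw [← hx, ← hy]
    change F t = (1 - ((t : ℝ) : ℂ)) • F 0 + ((t : ℝ) : ℂ) • F 1 +
      ((1 - ((t : ℝ) : ℂ)) * ((t : ℝ) : ℂ)) • ((((max (t : ℝ) δ)⁻¹ : ℝ) : ℂ) • (F t - F 0)
    + (((max (1 - (t : ℝ)) δ)⁻¹ : ℝ) : ℂ) • (F t - F 1))
    have e1 : ((t : ℝ) : ℂ) • ((((max (t : ℝ) δ)⁻¹ : ℝ) : ℂ) • (F t - F 0)) = F t - F 0 := by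
      rcases le_total (t : ℝ) δ with h | h
      · rw [h0 t h, sub_self, smul_zero, smul_zero]
      · rw [max_eq_left h, smul_smul, ← Complex.ofReal_mul,
          mul_inv_cancel₀ (lt_of_lt_of_le hδ h).ne', Complex.ofReal_one, one_smul]
    have e2 : (1 - ((t : ℝ) : ℂ)) • ((((max (1 - (t : ℝ)) δ)⁻¹ : ℝ) : ℂ) • (F t - F 1))
        = F t - F 1 := by
      rcases le_total (1 - (t : ℝ)) δ with h | h
      · rw [h1 t (by linarith), sub_self, smul_zero, smul_zero]
      · rw [max_eq_left h, smul_smul, ← Complex.ofReal_one, ← Complex.ofReal_sub,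
          ← Complex.ofReal_mul, mul_inv_cancel₀ (lt_of_lt_of_le hδ h).ne', Complex.ofReal_one,
          one_smul]
    have e3 : ((1 - ((t : ℝ) : ℂ)) * ((t : ℝ) : ℂ)) • ((((max (t : ℝ) δ)⁻¹ : ℝ) : ℂ) • (F t - F 0)
        + (((max (1 - (t : ℝ)) δ)⁻¹ : ℝ) : ℂ) • (F t - F 1))
        = (1 - ((t : ℝ) : ℂ)) • (F t - F 0) + ((t : ℝ) : ℂ) • (F t - F 1) := by
      have e4 : ((1 - ((t : ℝ) : ℂ)) * ((t : ℝ) : ℂ)) • ((((max (t : ℝ) δ)⁻¹ : ℝ) : ℂ) • (F t - F 0)
        + (((max (1 - (t : ℝ)) δ)⁻¹ : ℝ) : ℂ) • (F t - F 1))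
        = (1 - ((t : ℝ) : ℂ)) • (((t : ℝ) : ℂ) • ((((max (t : ℝ) δ)⁻¹ : ℝ) : ℂ) • (F t - F 0)))
        + ((t : ℝ) : ℂ) • ((1 - ((t : ℝ) : ℂ)) •
          ((((max (1 - (t : ℝ)) δ)⁻¹ : ℝ) : ℂ) • (F t - F 1))) := by
        module
      rw [e4, e1, e2]
    rw [e3]
    module

/-- DEC2.  Uniqueness (evaluate at `0`, `1` and on `(0,1)`; continuity). -/
theorem dec_unique [Nonempty ι] (F : CM ι) (x x' : Matrix ι ι ℂ)
    (y y' : Matrix (Option ι) (Option ι) ℂ) (X X' : CM ι) (h : Dec F x y X) (h' : Dec F x' y' X') :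
    x = x' ∧ y = y' ∧ X = X' := by
  unfold Dec at h h'
  have hh := h.symm.trans h'
  have ev : ∀ t : unitInterval, (1 - ((t : ℝ) : ℂ)) • Pim x + ((t : ℝ) : ℂ) • rt1 y
      + ((1 - ((t : ℝ) : ℂ)) * ((t : ℝ) : ℂ)) • X t
      = (1 - ((t : ℝ) : ℂ)) • Pim x' + ((t : ℝ) : ℂ) • rt1 y'
      + ((1 - ((t : ℝ) : ℂ)) * ((t : ℝ) : ℂ)) • X' t := fun t =>
    congrArg (fun F : CM ι => F t) hh
  have e0 : Pim x = Pim x' := by
    have := ev 0
    simpa using this
  have e1 : rt1 y = rt1 y' := by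
    have := ev 1
    simpa using this
  have ex : x = x' := by
    ext a b
    have := congrFun (congrFun e0 (a, none)) (b, none)
    simpa [Pim, lt1, wsw] using this
  have ey : y = y' := by
    obtain ⟨a⟩ := ‹Nonempty ι›
    ext μ ν
    have := congrFun (congrFun e1 (a, μ)) (a, ν)
    simpa [rt1] using this
  subst ex ey
  refine ⟨rfl, rfl, ?_⟩
  have hI : ∀ t : unitInterval, 0 < (t : ℝ) → (t : ℝ) < 1 → X t = X' t := by
    intro t h0 h1
    have := ev t
    rw [add_right_inj] at this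
    have hne : (1 - ((t : ℝ) : ℂ)) * ((t : ℝ) : ℂ) ≠ 0 := by
      apply mul_ne_zero
      · rw [sub_ne_zero]
        intro hc
        have : (1 : ℝ) = (t : ℝ) := by exact_mod_cast hc
        linarith
      · intro hc
        have : (t : ℝ) = 0 := by exact_mod_cast hc
        linarith
    exact smul_right_injective _ hne this
  have hcl := Set.EqOn.closure (s := Set.Ioo (0 : ℝ) 1)
    (f := fun t : ℝ => X (Set.projIcc 0 1 zero_le_one t))
    (g := fun t : ℝ => X' (Set.projIcc 0 1 zero_le_one t)) (by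
      intro t ht
      have hm : t ∈ Set.Icc (0 : ℝ) 1 := Set.Ioo_subset_Icc_self ht
      simp only [Set.projIcc_of_mem zero_le_one hm]
      exact hI ⟨t, hm⟩ ht.1 ht.2)
    (X.continuous.comp continuous_projIcc) (X'.continuous.comp continuous_projIcc)
  rw [closure_Ioo zero_ne_one] at hcl
  ext1 t
  have := hcl t.2
  simpa [Set.projIcc_val] using this

/-- DEC3.  Products, sums, star, scalars. -/
theorem dec_mul (F G : CM ι) (x x' : Matrix ι ι ℂ) (y y' : Matrix (Option ι) (Option ι) ℂ)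
    (X X' : CM ι) (h : Dec F x y X) (h' : Dec G x' y' X') :
    Dec (F * G) (x * x') (y * y')
      (- ContinuousMap.const _ (Pim (x * x')) - ContinuousMap.const _ (rt1 (y * y'))
        + ContinuousMap.const _ (Pim x * rt1 y') + ContinuousMap.const _ (rt1 y * Pim x')
        + sm (1 - tt) (ContinuousMap.const _ (Pim x) * X' + X * ContinuousMap.const _ (Pim x'))
        + sm tt (ContinuousMap.const _ (rt1 y) * X' + X * ContinuousMap.const _ (rt1 y'))
        + sm ((1 - tt) * tt) (X * X')) := by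
  rw [dcc_iff] at h h' ⊢
  intro t
  change F t * G t = (1 - ((t : ℝ) : ℂ)) • Pim (x * x') + ((t : ℝ) : ℂ) • rt1 (y * y') +
    ((1 - ((t : ℝ) : ℂ)) * ((t : ℝ) : ℂ)) • (- Pim (x * x') - rt1 (y * y')
        + Pim x * rt1 y' + rt1 y * Pim x'
        + (1 - ((t : ℝ) : ℂ)) • (Pim x * X' t + X t * Pim x')
        + ((t : ℝ) : ℂ) • (rt1 y * X' t + X t * rt1 y')
        + ((1 - ((t : ℝ) : ℂ)) * ((t : ℝ) : ℂ)) • (X t * X' t))
  rw [h t, h' t, dcc_Pim_mul, dcc_rt1_mul]
  generalize ((t : ℝ) : ℂ) = c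
  simp only [add_mul, mul_add, smul_mul_assoc, mul_smul_comm]
  module

theorem dec_add (F G : CM ι) (x x' : Matrix ι ι ℂ) (y y' : Matrix (Option ι) (Option ι) ℂ)
    (X X' : CM ι) (h : Dec F x y X) (h' : Dec G x' y' X') :
    Dec (F + G) (x + x') (y + y') (X + X') := by
  rw [dcc_iff] at h h' ⊢
  intro t
  have e1 : Pim (x + x') = Pim x + Pim x' := by
    ext p r
    simp only [Pim, lt1, Matrix.of_apply, Matrix.add_apply]
    split_ifs <;> simp
  have e2 : (rt1 (y + y') : Matrix (ι × Option ι) (ι × Option ι) ℂ) = rt1 y + rt1 y' := by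
    ext p r
    simp only [rt1, Matrix.of_apply, Matrix.add_apply]
    split_ifs <;> simp
  change F t + G t = _ + _ + _ • (X t + X' t)
  rw [h t, h' t, e1, e2]
  module

theorem dec_star (F : CM ι) (x : Matrix ι ι ℂ) (y : Matrix (Option ι) (Option ι) ℂ) (X : CM ι)
    (h : Dec F x y X) : Dec (star F) xᴴ yᴴ (star X) := by
  rw [dcc_iff] at h ⊢
  intro t
  have e1 : Pim xᴴ = (Pim x)ᴴ := by
    ext p r
    simp only [Pim, lt1, Matrix.of_apply, Matrix.conjTranspose_apply]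
    by_cases hh : (wsw p).2 = (wsw r).2
    · rw [if_pos hh, if_pos hh.symm]
    · rw [if_neg hh, if_neg (Ne.symm hh), star_zero]
  have e2 : (rt1 yᴴ : Matrix (ι × Option ι) (ι × Option ι) ℂ) = (rt1 y)ᴴ := by
    ext p r
    simp only [rt1, Matrix.of_apply, Matrix.conjTranspose_apply]
    by_cases hh : p.1 = r.1
    · rw [if_pos hh, if_pos hh.symm]
    · rw [if_neg hh, if_neg (Ne.symm hh), star_zero]
  change (F t)ᴴ = _ + _ + _ • (X t)ᴴ
  have hs2 : star (((t : ℝ) : ℂ)) = ((t : ℝ) : ℂ) := Complex.conj_ofReal _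
  have hs1 : star (1 - ((t : ℝ) : ℂ)) = 1 - ((t : ℝ) : ℂ) := by
    rw [star_sub, star_one, hs2]
  rw [h t, e1, e2]
  simp only [Matrix.conjTranspose_add, Matrix.conjTranspose_smul, star_mul', hs1, hs2]

theorem dec_smul (c : ℂ) (F : CM ι) (x : Matrix ι ι ℂ) (y : Matrix (Option ι) (Option ι) ℂ)
    (X : CM ι) (h : Dec F x y X) : Dec (c • F) (c • x) (c • y) (c • X) := by
  rw [dcc_iff] at h ⊢
  intro t
  have e1 : Pim (c • x) = c • Pim x := by
    ext p r
    simp only [Pim, lt1, Matrix.of_apply, Matrix.smul_apply]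
    split_ifs <;> simp
  have e2 : (rt1 (c • y) : Matrix (ι × Option ι) (ι × Option ι) ℂ) = c • rt1 y := by
    ext p r
    simp only [rt1, Matrix.of_apply, Matrix.smul_apply]
    split_ifs <;> simp
  change c • F t = _ + _ + _ • (c • X t)
  rw [h t, e1, e2]
  module

theorem dec_one : Dec (1 : CM ι) 1 1 0 := by
  rw [dcc_iff]
  intro t
  have e1 : Pim (1 : Matrix ι ι ℂ) = 1 := by
    ext p r
    simp only [Pim, lt1, Matrix.of_apply, Matrix.one_apply]
    by_cases hh : p = r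
    · subst hh
      simp
    · have : wsw p ≠ wsw r := fun h => hh (by rw [← dcc_wsw p, h, dcc_wsw])
      rw [if_neg hh]
      by_cases h2 : (wsw p).2 = (wsw r).2
      · have h1 : (wsw p).1 ≠ (wsw r).1 := fun h1 => this (Prod.ext h1 h2)
        rw [if_pos h2, if_neg h1]
      · rw [if_neg h2]
  have e2 : (rt1 (1 : Matrix (Option ι) (Option ι) ℂ) : Matrix (ι × Option ι) (ι × Option ι) ℂ)
      = 1 := by
    ext p r
    simp only [rt1, Matrix.of_apply, Matrix.one_apply]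
    by_cases hh : p = r
    · subst hh
      simp
    · rw [if_neg hh]
      by_cases h2 : p.1 = r.1
      · have h1 : p.2 ≠ r.2 := fun h1 => hh (Prod.ext h2 h1)
        rw [if_pos h2, if_neg h1]
      · rw [if_neg h2]
  change (1 : Matrix (ι × Option ι) (ι × Option ι) ℂ) = _ + _ + _ • 0
  rw [e1, e2]
  module

/-- EV.  The evaluation `F ↦ P x + Q y + Rt X` is a unital star homomorphism on the star
subalgebra `B`. -/
theorem exists_Ev [Nonempty ι] [CStarAlgebra D] (S : PS ι D) (B : StarSubalgebra ℂ (CM ι))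
    (hB : (B : Set (CM ι)) = scnSet ι) : Nonempty (B →⋆ₐ[ℂ] D) := by
  classical
  obtain ⟨ev, hev, hc⟩ := exists_ev S
  have hmem : ∀ F : B, (F : CM ι) ∈ scnSet ι := fun F => by
    rw [← hB]
    exact F.2
  choose! cx cy cX hdec using (fun (F : B) => dec_exists (F : CM ι) (hmem F))
  let val : B → D := fun F => S.P (cx F) + S.Q (cy F) + Rt S ev (cX F)
  have key : ∀ (F : B) (x : Matrix ι ι ℂ) (y : Matrix (Option ι) (Option ι) ℂ) (X : CM ι),
      Dec (F : CM ι) x y X → val F = S.P x + S.Q y + Rt S ev X := by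
    intro F x y X h
    obtain ⟨h1, h2, h3⟩ := dec_unique _ _ _ _ _ _ _ (hdec F) h
    show S.P (cx F) + S.Q (cy F) + Rt S ev (cX F) = _
    rw [h1, h2, h3]
  have Q_add : ∀ y z : Matrix (Option ι) (Option ι) ℂ, S.Q (y + z) = S.Q y + S.Q z := by
    intro y z
    unfold PS.Q
    simp only [Matrix.add_apply, add_smul, Finset.sum_add_distrib]
  have Q_smul : ∀ (c : ℂ) (y : Matrix (Option ι) (Option ι) ℂ), S.Q (c • y) = c • S.Q y := by
    intro c y
    unfold PS.Q
    simp only [Matrix.smul_apply, smul_eq_mul, Finset.smul_sum, smul_smul]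
  have Rt_zero : Rt S ev (0 : CM ι) = 0 := by
    have h := Rt_add S ev (0 : CM ι) 0
    rw [add_zero] at h
    exact left_eq_add.1 h
  have Rt_neg : ∀ X : CM ι, Rt S ev (-X) = -Rt S ev X := by
    intro X
    have h := Rt_add S ev X (-X)
    rw [add_neg_cancel, Rt_zero] at h
    exact (neg_eq_of_add_eq_zero_right h.symm).symm
  have Rt_sub : ∀ X Y : CM ι, Rt S ev (X - Y) = Rt S ev X - Rt S ev Y := by
    intro X Y
    rw [sub_eq_add_neg, Rt_add, Rt_neg, ← sub_eq_add_neg]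
  have sm_add : ∀ (f : C(unitInterval, ℂ)) (X Y : CM ι), sm f (X + Y) = sm f X + sm f Y := by
    intro f X Y
    ext t : 1
    exact smul_add _ _ _
  have hPQ1 : S.P 1 + S.Q 1 = 1 := by
    rw [S.Q_one]
    exact S.sum
  have smul0 : ∀ c : ℂ, c • (0 : CM ι) = 0 := fun c => by
    ext t : 1
    exact smul_zero c
  have zsmul : (0 : ℂ) • (1 : CM ι) = 0 := by
    ext t : 1
    exact zero_smul ℂ _
  refine ⟨{ toFun := val, map_one' := ?_, map_mul' := ?_, map_zero' := ?_, map_add' := ?_,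
            commutes' := ?_, map_star' := ?_ }⟩
  · rw [key 1 1 1 0 (by simpa using (dec_one (ι := ι))), Rt_zero, add_zero, hPQ1]
  · intro F G
    rw [key (F * G) _ _ _ (by simpa using dec_mul _ _ _ _ _ _ _ _ (hdec F) (hdec G))]
    show _ = (S.P (cx F) + S.Q (cy F) + Rt S ev (cX F)) *
      (S.P (cx G) + S.Q (cy G) + Rt S ev (cX G))
    generalize cx F = x
    generalize cy F = y
    generalize cX F = X
    generalize cx G = x'
    generalize cy G = y'
    generalize cX G = X'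
    have e1 : S.P x * S.P x' = S.P (x * x') - S.R (Pim (x * x')) := by
      rw [S.P_mul, sub_mul, one_mul, S.d_P_eq]
    have e2 : S.Q y * S.Q y' = S.Q (y * y') - S.R (rt1 (y * y')) := by
      rw [S.Q_mul, ← S.d_Q_eq, sub_mul, one_mul, sub_sub_cancel]
    have e3 := S.P_Q x y'
    have e4 := S.Q_P x' y
    have e5 := P_Rt S ev hev hc x X'
    have e6 := Rt_P S ev hev hc x' X
    have e7 := Q_Rt S ev hev hc y X'
    have e8 := Rt_Q S ev hev hc y' X
    have e9 := Rt_mul S ev hev hc X X'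
    rw [Rt_add, Rt_add, Rt_add, Rt_add, Rt_add, Rt_sub, Rt_neg, Rt_const, Rt_const, Rt_const,
      Rt_const, sm_add, sm_add, Rt_add, Rt_add, ← e5, ← e6, ← e7, ← e8, ← e9, ← e3, ← e4]
    have e1' : S.P (x * x') = S.P x * S.P x' + S.R (Pim (x * x')) := by rw [e1]; abel
    have e2' : S.Q (y * y') = S.Q y * S.Q y' + S.R (rt1 (y * y')) := by rw [e2]; abel
    rw [e1', e2']
    noncomm_ring
  · have h0 : Dec (0 : CM ι) 0 0 0 := by
      have h := dec_smul (0 : ℂ) (1 : CM ι) 1 1 0 dec_one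
      rw [smul0, zsmul, zero_smul, zero_smul] at h
      exact h
    rw [key 0 0 0 0 (by simpa using h0), Rt_zero, add_zero, map_zero]
    have h := Q_smul 0 0
    rw [zero_smul, zero_smul] at h
    rw [h, add_zero]
  · intro F G
    rw [key (F + G) _ _ _ (by simpa using dec_add _ _ _ _ _ _ _ _ (hdec F) (hdec G)), map_add,
      Q_add, Rt_add]
    show _ = (S.P (cx F) + S.Q (cy F) + Rt S ev (cX F)) +
      (S.P (cx G) + S.Q (cy G) + Rt S ev (cX G))
    abel
  · intro r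
    have h := dec_smul r (1 : CM ι) 1 1 0 dec_one
    rw [smul0] at h
    have hr : ((algebraMap ℂ B r : B) : CM ι) = r • (1 : CM ι) := by
      rw [Algebra.algebraMap_eq_smul_one]
      rfl
    rw [key (algebraMap ℂ B r) (r • 1) (r • 1) 0 (by rw [hr]; exact h), Rt_zero, add_zero, map_smul, Q_smul,
      ← smul_add, hPQ1, Algebra.algebraMap_eq_smul_one]
  · intro F
    rw [key (star F) _ _ _ (by simpa using dec_star _ _ _ _ (hdec F)), S.ozP.star', S.Q_star,
      Rt_star S ev hev hc]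
    show _ = star (S.P (cx F) + S.Q (cy F) + Rt S ev (cX F))
    rw [star_add, star_add]

end Vale.Agent.P101K
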